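import Claimed.Agent.R291.Wick.Bump

/-!
# Row 291 (S0539), Wick/Weyl : WEYL LEMMA + MAXIMUM PRINCIPLE for order-0 functionals (step W of BOX:WICK-ID, design helper128)      (owner helper175; prefix `wk_`, structures `Wk*`)      complete

Everything is stated for an ABSTRACT functional `S : (ℝ × ℝ → ℝ) → ℝ` on the tests of an arbitrary planar region `O` (only `IsOpen O` is used; no connectedness, no boundedness).
* `WkTest O g`   : `g` continuous, compact support, `tsupport g ⊆ O`        (`.add'`, `.smul'`, `.sub'`, `wk_test_rho`)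
* `WkHarm O S`   : `S` additive + homogeneous on tests, of order `0` (`|S g| ≤ C_K sup|g|` for `tsupport g ⊆ K`), and `S (lap2 φ) = 0` for smooth `φ` with compact support in `O`
* **`wk_rho_const`** : `S (wkRho z h) = S (wkRho z h')` as soon as both disks lie in `O`          (W-a)
* `wkDens O S z` := that common value (`0` outside `O`); `wk_dens_eq`; `wk_dens_continuousOn`     (W-b)
* **`wk_repr`**  : `S g = ∫ z, g z * wkDens O S z` for every test `g`                              (W-c)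
* `wk_mean`      : `wkDens O S z = ∫ w, wkRho z h w * wkDens O S w`                                (W-d)
* **`wk_max`**   : if `|wkDens| ≤ ε` off a compact subset of `O` (every `ε`), then `wkDens = 0` on `O`;  **`wk_vanish`** : then `S g = 0` for every test     (W-e)
-/

set_option autoImplicit false

namespace Claimed.Agent.R291

open MeasureTheory Filter Topology Set
open scoped ContDiff BoundedContinuousFunction
open Claims Claims.C0467

/-! ### tests and weakly harmonic functionals -/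

/-- tests in the open set `O`: continuous, compact support inside `O` -/
structure WkTest (O : Set (ℝ × ℝ)) (g : ℝ × ℝ → ℝ) : Prop where
  cont : Continuous g
  comp : HasCompactSupport g
  sub : tsupport g ⊆ O

/-- a linear functional on the tests of `O`, of order `0`, weakly harmonic -/
structure WkHarm (O : Set (ℝ × ℝ)) (S : (ℝ × ℝ → ℝ) → ℝ) : Prop where
  add : ∀ g g', WkTest O g → WkTest O g' → S (fun x => g x + g' x) = S g + S g'
  smul : ∀ (c : ℝ) g, WkTest O g → S (fun x => c * g x) = c * S g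
  bdd : ∀ K, IsCompact K → K ⊆ O → ∃ C : ℝ, 0 ≤ C ∧ ∀ g (M : ℝ), WkTest O g → tsupport g ⊆ K → (∀ x, |g x| ≤ M) → |S g| ≤ C * M
  harm : ∀ φ : ℝ × ℝ → ℝ, ContDiff ℝ ∞ φ → HasCompactSupport φ → tsupport φ ⊆ O → S (lap2 φ) = 0

theorem WkTest.add' {O : Set (ℝ × ℝ)} {g g' : ℝ × ℝ → ℝ} (h : WkTest O g) (h' : WkTest O g') :
    WkTest O (fun x => g x + g' x) :=
  ⟨h.cont.add h'.cont, h.comp.add h'.comp, (tsupport_add g g').trans (union_subset h.sub h'.sub)⟩

theorem WkTest.smul' {O : Set (ℝ × ℝ)} {g : ℝ × ℝ → ℝ} (h : WkTest O g) (c : ℝ) : WkTest O (fun x => c * g x) :=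
  ⟨continuous_const.mul h.cont, h.comp.mul_left, (tsupport_mul_subset_right (f := fun _ => c)).trans h.sub⟩

theorem WkTest.sub' {O : Set (ℝ × ℝ)} {g g' : ℝ × ℝ → ℝ} (h : WkTest O g) (h' : WkTest O g') :
    WkTest O (fun x => g x - g' x) := by
  have := h.add' (h'.smul' (-1))
  simpa [sub_eq_add_neg] using this

theorem wk_tsupport_sub {g g' : ℝ × ℝ → ℝ} {K : Set (ℝ × ℝ)} (h : tsupport g ⊆ K) (h' : tsupport g' ⊆ K) :
    tsupport (fun x => g x - g' x) ⊆ K := by
  have e : (fun x => g x - g' x) = fun x => g x + (-1) * g' x := by funext x; ring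
  rw [e]
  exact (tsupport_add g _).trans (union_subset h ((tsupport_mul_subset_right (f := fun _ => (-1 : ℝ))).trans h'))

theorem WkHarm.sub {O : Set (ℝ × ℝ)} {S : (ℝ × ℝ → ℝ) → ℝ} (hS : WkHarm O S) {g g' : ℝ × ℝ → ℝ} (h : WkTest O g)
    (h' : WkTest O g') : S (fun x => g x - g' x) = S g - S g' := by
  have e : (fun x => g x - g' x) = fun x => g x + (-1) * g' x := by funext x; ring
  rw [e, hS.add _ _ h (h'.smul' (-1)), hS.smul _ _ h']
  ring

theorem wk_test_Ra {O : Set (ℝ × ℝ)} {z : ℝ × ℝ} {a : ℝ} (ha : 0 < a) (hb : wkBall z (Real.sqrt a)⁻¹ ⊆ O) :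
    WkTest O (wkRa z a) := ⟨(wk_Ra_contDiff z a).continuous, wk_Ra_compact z ha, (wk_Ra_tsupport z ha).trans hb⟩

theorem wk_test_Da {O : Set (ℝ × ℝ)} {z : ℝ × ℝ} {a : ℝ} (ha : 0 < a) (hb : wkBall z (Real.sqrt a)⁻¹ ⊆ O) :
    WkTest O (wkDa z a) := ⟨wk_Da_continuous z a, wk_Da_compact z ha, (wk_Da_tsupport z ha).trans hb⟩

theorem wk_test_rho {O : Set (ℝ × ℝ)} {z : ℝ × ℝ} {h : ℝ} (hh : 0 < h) (hb : wkBall z h ⊆ O) : WkTest O (wkRho z h) :=
  ⟨wk_rho_continuous z h, wk_rho_compact z hh, (wk_rho_tsupport z hh).trans hb⟩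

/-- a function with a quadratic modulus of continuity on a half line is constant -/
theorem wk_const_of_sq {f : ℝ → ℝ} {a₀ B : ℝ} (h : ∀ a a', a₀ ≤ a → a₀ ≤ a' → |f a' - f a| ≤ B * (a' - a) ^ 2)
    {a a' : ℝ} (ha : a₀ ≤ a) (ha' : a₀ ≤ a') : f a = f a' := by
  have hd : ∀ x ∈ Ici a₀, HasDerivWithinAt f 0 (Ici a₀) x := by
    intro x hx
    rw [hasDerivWithinAt_iff_isLittleO, Asymptotics.isLittleO_iff]
    intro c hc
    have hB : 0 < |B| + 1 := by positivity
    have hnb : ∀ᶠ x' in 𝓝[Ici a₀] x, |x' - x| < c / (|B| + 1) := by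
      have : ∀ᶠ x' in 𝓝 x, |x' - x| < c / (|B| + 1) := by
        have := Metric.ball_mem_nhds x (div_pos hc hB)
        filter_upwards [this] with x' hx'
        simpa [Real.dist_eq] using hx'
      exact nhdsWithin_le_nhds this
    filter_upwards [hnb, self_mem_nhdsWithin] with x' h1 h2
    simp only [smul_zero, sub_zero, Real.norm_eq_abs]
    refine (h x x' hx h2).trans ?_
    have h3 : B * (x' - x) ^ 2 ≤ (|B| + 1) * |x' - x| * |x' - x| := by
      rw [← sq_abs (x' - x)]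
      nlinarith [le_abs_self B, sq_nonneg |x' - x|]
    refine h3.trans ?_
    refine mul_le_mul_of_nonneg_right ?_ (abs_nonneg _)
    rw [lt_div_iff₀ hB] at h1
    linarith
  have := Convex.norm_image_sub_le_of_norm_hasDerivWithin_le (f := f) (f' := fun _ => 0) (C := 0) (s := Ici a₀)
    hd (fun _ _ => by simp) (convex_Ici a₀) ha ha'
  simp only [zero_mul, norm_le_zero_iff] at this
  linarith [sub_eq_zero.1 this]

/-- **(W-a)** the value on the bumps does not depend on the radius -/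
theorem wk_Ra_const {O : Set (ℝ × ℝ)} {S : (ℝ × ℝ → ℝ) → ℝ} (hS : WkHarm O S) {z : ℝ × ℝ} {a₀ : ℝ} (h0 : 0 < a₀)
    (hb : wkBall z (Real.sqrt a₀)⁻¹ ⊆ O) {a a' : ℝ} (ha : a₀ ≤ a) (ha' : a₀ ≤ a') : S (wkRa z a) = S (wkRa z a') := by
  obtain ⟨N, hN0, hN⟩ := wk_Ra_taylor
  obtain ⟨C, hC0, hC⟩ := hS.bdd _ (wk_ball_compact z (by positivity : (0 : ℝ) ≤ (Real.sqrt a₀)⁻¹)) hb
  have hball : ∀ s, a₀ ≤ s → wkBall z (Real.sqrt s)⁻¹ ⊆ wkBall z (Real.sqrt a₀)⁻¹ := fun s hs =>
    wk_ball_mono z (by positivity) (inv_anti₀ (Real.sqrt_pos.2 h0) (Real.sqrt_le_sqrt hs))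
  refine wk_const_of_sq (f := fun a => S (wkRa z a)) (a₀ := a₀) (B := C * (N / a₀)) (fun s s' hs hs' => ?_) ha ha'
  have p : 0 < s := lt_of_lt_of_le h0 hs
  have p' : 0 < s' := lt_of_lt_of_le h0 hs'
  have t1 := wk_test_Ra p ((hball s hs).trans hb)
  have t2 := wk_test_Ra p' ((hball s' hs').trans hb)
  have t3 := wk_test_Da p ((hball s hs).trans hb)
  have hz : S (wkDa z s) = 0 := by
    have := hS.harm (wkPa z s) (wk_Pa_contDiff z s) (wk_Pa_compact z p) ((wk_Pa_tsupport z p).trans ((hball s hs).trans hb))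
    rwa [show lap2 (wkPa z s) = wkDa z s from funext fun x => wk_Pa_lap z p.ne' x] at this
  have e : S (wkRa z s') - S (wkRa z s)
      = S (fun x => (wkRa z s' x - wkRa z s x) - (s' - s) * wkDa z s x) := by
    rw [hS.sub (t2.sub' t1) (t3.smul' _), hS.sub t2 t1, hS.smul _ _ t3, hz]
    ring
  rw [e, mul_assoc]
  refine hC _ _ ((t2.sub' t1).sub' (t3.smul' _)) ?_ (fun x => hN z x a₀ s s' h0 hs hs')
  refine wk_tsupport_sub (wk_tsupport_sub ((wk_Ra_tsupport z p').trans (hball s' hs')) ((wk_Ra_tsupport z p).trans (hball s hs))) ?_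
  exact (tsupport_mul_subset_right (f := fun _ => s' - s)).trans ((wk_Da_tsupport z p).trans (hball s hs))

/-- **(W-a)** in the radius -/
theorem wk_rho_const {O : Set (ℝ × ℝ)} {S : (ℝ × ℝ → ℝ) → ℝ} (hS : WkHarm O S) {z : ℝ × ℝ} {h h' : ℝ} (hh : 0 < h)
    (hh' : 0 < h') (hb : wkBall z h ⊆ O) (hb' : wkBall z h' ⊆ O) : S (wkRho z h) = S (wkRho z h') := by
  wlog hle : h' ≤ h generalizing h h'
  · exact (this hh' hh hb' hb (le_of_not_ge hle)).symm
  have h0 : (0 : ℝ) < (h ^ 2)⁻¹ := by positivity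
  refine wk_Ra_const hS h0 (by rwa [wk_rad hh]) le_rfl ?_
  exact inv_anti₀ (by positivity) (pow_le_pow_left₀ hh'.le hle 2)

/-- **the density** of a weakly harmonic functional -/
noncomputable def wkDens (O : Set (ℝ × ℝ)) (S : (ℝ × ℝ → ℝ) → ℝ) (z : ℝ × ℝ) : ℝ :=
  open Classical in if h : ∃ r : ℝ, 0 < r ∧ wkBall z r ⊆ O then S (wkRho z h.choose) else 0

theorem wk_dens_eq {O : Set (ℝ × ℝ)} {S : (ℝ × ℝ → ℝ) → ℝ} (hS : WkHarm O S) {z : ℝ × ℝ} {h : ℝ} (hh : 0 < h)
    (hb : wkBall z h ⊆ O) : wkDens O S z = S (wkRho z h) := by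
  have hex : ∃ r : ℝ, 0 < r ∧ wkBall z r ⊆ O := ⟨h, hh, hb⟩
  unfold wkDens
  rw [dif_pos hex]
  exact wk_rho_const hS hex.choose_spec.1 hh hex.choose_spec.2 hb

/-- **(W-b)** the density is continuous -/
theorem wk_dens_continuousAt {O : Set (ℝ × ℝ)} {S : (ℝ × ℝ → ℝ) → ℝ} (hS : WkHarm O S) (hO : IsOpen O) {z₀ : ℝ × ℝ}
    (hz : z₀ ∈ O) : ContinuousAt (wkDens O S) z₀ := by
  obtain ⟨r, hr, hb⟩ := wk_exists_ball hO hz
  have hr2 : 0 < r / 2 := by positivity
  obtain ⟨L, hL0, hL⟩ := wk_rho_lip hr2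
  obtain ⟨C, hC0, hC⟩ := hS.bdd _ (wk_ball_compact z₀ hr.le) hb
  have hball : ∀ z, dist z z₀ ≤ r / 4 → wkBall z (r / 2) ⊆ wkBall z₀ r := by
    intro z hz
    have h1 := wk_sq_le_of_dist hz
    have h2 := wk_ball_add (h := r / 2) (r := 2 * (r / 4)) hr2.le (by positivity) h1
    rwa [show r / 2 + 2 * (r / 4) = r by ring] at h2
  have key : ∀ z, dist z z₀ ≤ r / 4 → |wkDens O S z - wkDens O S z₀| ≤ C * (L * dist z z₀) := by
    intro z hz
    have b1 := hball z hz
    have b0 := hball z₀ (by simp; positivity)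
    rw [wk_dens_eq hS hr2 (b1.trans hb), wk_dens_eq hS hr2 (b0.trans hb),
      ← hS.sub (wk_test_rho hr2 (b1.trans hb)) (wk_test_rho hr2 (b0.trans hb))]
    exact hC _ _ ((wk_test_rho hr2 (b1.trans hb)).sub' (wk_test_rho hr2 (b0.trans hb)))
      (wk_tsupport_sub ((wk_rho_tsupport z hr2).trans b1) ((wk_rho_tsupport z₀ hr2).trans b0)) (fun x => hL z z₀ x)
  rw [Metric.continuousAt_iff]
  intro ε hε
  refine ⟨min (r / 4) (ε / (C * L + 1)), lt_min (by positivity) (by positivity), fun z hz => ?_⟩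
  have h1 : dist z z₀ ≤ r / 4 := (hz.trans_le (min_le_left _ _)).le
  have h2 : dist z z₀ < ε / (C * L + 1) := hz.trans_le (min_le_right _ _)
  rw [Real.dist_eq]
  refine (key z h1).trans_lt ?_
  rw [lt_div_iff₀ (by positivity)] at h2
  nlinarith [dist_nonneg (x := z) (y := z₀), mul_nonneg hC0 hL0]

theorem wk_dens_continuousOn {O : Set (ℝ × ℝ)} {S : (ℝ × ℝ → ℝ) → ℝ} (hS : WkHarm O S) (hO : IsOpen O) :
    ContinuousOn (wkDens O S) O := fun _ hz => (wk_dens_continuousAt hS hO hz).continuousWithinAt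

/-- a test times the density is continuous with compact support -/
theorem wk_mul_dens_continuous {O : Set (ℝ × ℝ)} {S : (ℝ × ℝ → ℝ) → ℝ} (hS : WkHarm O S) (hO : IsOpen O)
    {g : ℝ × ℝ → ℝ} (hg : WkTest O g) : Continuous fun z => g z * wkDens O S z := by
  rw [continuous_iff_continuousAt]
  intro z
  by_cases hz : z ∈ O
  · exact hg.cont.continuousAt.mul (wk_dens_continuousAt hS hO hz)
  · have h1 : z ∉ tsupport g := fun h => hz (hg.sub h)
    have h2 : g =ᶠ[𝓝 z] 0 := notMem_tsupport_iff_eventuallyEq.1 h1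
    have h3 : (fun z => g z * wkDens O S z) =ᶠ[𝓝 z] fun _ => 0 := by
      filter_upwards [h2] with y hy
      simp [hy]
    exact continuousAt_const.congr h3.symm

theorem wk_mul_dens_compact {O : Set (ℝ × ℝ)} (S : (ℝ × ℝ → ℝ) → ℝ) {g : ℝ × ℝ → ℝ} (hg : WkTest O g) :
    HasCompactSupport fun z => g z * wkDens O S z := hg.comp.mul_right

theorem wk_mul_dens_integrable {O : Set (ℝ × ℝ)} {S : (ℝ × ℝ → ℝ) → ℝ} (hS : WkHarm O S) (hO : IsOpen O)
    {g : ℝ × ℝ → ℝ} (hg : WkTest O g) : Integrable fun z => g z * wkDens O S z :=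
  (wk_mul_dens_continuous hS hO hg).integrable_of_hasCompactSupport (wk_mul_dens_compact S hg)

/-- a cutoff turns the functional into a continuous linear form on the bounded continuous functions -/
theorem wk_exists_clm {O : Set (ℝ × ℝ)} {S : (ℝ × ℝ → ℝ) → ℝ} (hS : WkHarm O S) {χ : ℝ × ℝ → ℝ} (hχ : WkTest O χ)
    (h1 : ∀ x, |χ x| ≤ 1) : ∃ Λ : ((ℝ × ℝ) →ᵇ ℝ) →L[ℝ] ℝ, ∀ F : (ℝ × ℝ) →ᵇ ℝ, Λ F = S (fun x => χ x * F x) := by
  obtain ⟨C, hC0, hC⟩ := hS.bdd _ hχ.comp.isCompact hχ.sub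
  have ht : ∀ F : (ℝ × ℝ) →ᵇ ℝ, WkTest O (fun x => χ x * F x) := fun F =>
    ⟨hχ.cont.mul F.continuous, hχ.comp.mul_right, (tsupport_mul_subset_left).trans hχ.sub⟩
  let L : ((ℝ × ℝ) →ᵇ ℝ) →ₗ[ℝ] ℝ :=
    { toFun := fun F => S (fun x => χ x * F x)
      map_add' := fun F G => by
        rw [← hS.add _ _ (ht F) (ht G)]
        congr 1
        funext x
        simp [mul_add]
      map_smul' := fun c F => by
        simp only [RingHom.id_apply, smul_eq_mul]
        rw [← hS.smul _ _ (ht F)]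
        congr 1
        funext x
        simp only [BoundedContinuousFunction.coe_smul, smul_eq_mul]
        ring }
  refine ⟨L.mkContinuous C fun F => ?_, fun F => rfl⟩
  refine hC _ _ (ht F) tsupport_mul_subset_left fun x => ?_
  rw [abs_mul]
  calc |χ x| * |F x| ≤ 1 * ‖F‖ := mul_le_mul (h1 x) (F.norm_coe_le_norm x) (abs_nonneg _) zero_le_one
    _ = ‖F‖ := one_mul _

/-- the bump as a bounded continuous function -/
noncomputable def wkRB (h : ℝ) (z : ℝ × ℝ) : (ℝ × ℝ) →ᵇ ℝ :=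
  open Classical in
  if hh : 0 < h then
    BoundedContinuousFunction.ofNormedAddCommGroup (wkRho z h) (wk_rho_continuous z h) (wk_rho_bdd hh).choose
      (fun x => (wk_rho_bdd hh).choose_spec.2 z x)
  else 0

theorem wk_RB_apply {h : ℝ} (hh : 0 < h) (z x : ℝ × ℝ) : wkRB h z x = wkRho z h x := by
  unfold wkRB
  rw [dif_pos hh]
  rfl

theorem wk_RB_continuous {h : ℝ} (hh : 0 < h) : Continuous (wkRB h) := by
  obtain ⟨L, hL0, hL⟩ := wk_rho_lip hh
  refine (LipschitzWith.of_dist_le_mul (K := ⟨L, hL0⟩) fun z z' => ?_).continuous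
  rw [BoundedContinuousFunction.dist_le (by positivity)]
  intro x
  rw [wk_RB_apply hh, wk_RB_apply hh, Real.dist_eq]
  exact hL z z' x

/-- mollification converges uniformly -/
theorem wk_mollify {g : ℝ × ℝ → ℝ} (hc : Continuous g) (hs : HasCompactSupport g) {ε : ℝ} (hε : 0 < ε) :
    ∃ η : ℝ, 0 < η ∧ ∀ h, 0 < h → h < η → ∀ x, |(∫ z, g z * wkRho z h x) - g x| ≤ ε := by
  have hu := hs.uniformContinuous_of_continuous hc
  obtain ⟨η, hη, hmod⟩ := Metric.uniformContinuous_iff.1 hu ε hε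
  refine ⟨η, hη, fun h hh hlt x => ?_⟩
  have hi1 : Integrable fun z => wkRho z h x := by
    simp only [wk_rho_symm _ x h]
    exact (wk_rho_continuous x h).integrable_of_hasCompactSupport (wk_rho_compact x hh)
  have hmass : ∫ z, wkRho z h x = 1 := by
    simp only [wk_rho_symm _ x h]
    exact wk_rho_integral x hh
  have hi2 : Integrable fun z => g z * wkRho z h x := by
    have : Continuous fun z => g z * wkRho z h x := by
      simp only [wk_rho_symm _ x h]
      exact hc.mul (wk_rho_continuous x h)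
    exact this.integrable_of_hasCompactSupport hs.mul_right
  have e : (∫ z, g z * wkRho z h x) - g x = ∫ z, (g z - g x) * wkRho z h x := by
    have : (fun z => (g z - g x) * wkRho z h x) = fun z => g z * wkRho z h x - g x * wkRho z h x := by
      funext z; ring
    rw [this, integral_sub hi2 (hi1.const_mul _), integral_const_mul, hmass, mul_one]
  rw [e]
  have hb : ∀ z, ‖(g z - g x) * wkRho z h x‖ ≤ ε * wkRho z h x := by
    intro z
    rw [norm_mul, Real.norm_eq_abs, Real.norm_eq_abs, abs_of_nonneg (wk_rho_nonneg z h x)]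
    by_cases hz : x ∈ wkBall z h
    · have h1 := wk_ball_subset z hh.le hz
      rw [Metric.mem_closedBall] at h1
      have h2 : dist z x < η := by rw [dist_comm]; exact h1.trans_lt hlt
      have h3 := hmod h2
      rw [Real.dist_eq] at h3
      exact mul_le_mul_of_nonneg_right h3.le (wk_rho_nonneg z h x)
    · rw [wk_rho_zero z hh hz]; simp
  calc |∫ z, (g z - g x) * wkRho z h x| ≤ ∫ z, ε * wkRho z h x :=
        norm_integral_le_of_norm_le (hi1.const_mul ε) (Eventually.of_forall hb)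
    _ = ε := by rw [integral_const_mul, hmass, mul_one]

/-- **(W-c)** a weakly harmonic functional of order `0` is integration against its density -/
theorem wk_repr {O : Set (ℝ × ℝ)} {S : (ℝ × ℝ → ℝ) → ℝ} (hS : WkHarm O S) (hO : IsOpen O) {g : ℝ × ℝ → ℝ}
    (hg : WkTest O g) : S g = ∫ z, g z * wkDens O S z := by
  obtain ⟨δ, hδ, hth⟩ := hg.comp.isCompact.exists_cthickening_subset_open hO hg.sub
  have hK1 : IsCompact (Metric.cthickening δ (tsupport g)) := hg.comp.isCompact.cthickening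
  obtain ⟨K2, hK2, h12, h2O⟩ := exists_compact_between hK1 hO hth
  obtain ⟨χ, hχ1, hχ0, hχc, hχI⟩ := exists_continuous_one_zero_of_isCompact hK1 isOpen_interior.isClosed_compl
    (disjoint_compl_right_iff_subset.mpr h12)
  have hχs : tsupport χ ⊆ K2 := by
    refine closure_minimal (fun x hx => ?_) hK2.isClosed
    by_contra hc
    exact hx (hχ0 (fun hi => hc (interior_subset hi)))
  have hχt : WkTest O χ := ⟨χ.continuous, hχc, hχs.trans h2O⟩
  obtain ⟨Λ, hΛ⟩ := wk_exists_clm hS hχt fun x => by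
    rw [abs_of_nonneg (hχI x).1]; exact (hχI x).2
  -- `g` as a bounded continuous function
  obtain ⟨Mg, hMg⟩ := hg.comp.exists_bound_of_continuous hg.cont
  obtain ⟨G, hG⟩ : ∃ G : (ℝ × ℝ) →ᵇ ℝ, ∀ x, G x = g x :=
    ⟨BoundedContinuousFunction.ofNormedAddCommGroup g hg.cont Mg hMg, fun _ => rfl⟩
  have hsub : tsupport g ⊆ Metric.cthickening δ (tsupport g) := Metric.self_subset_cthickening _
  have hΛG : Λ G = S g := by
    rw [hΛ]
    congr 1
    funext x
    rw [hG]
    by_cases hx : x ∈ tsupport g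
    · rw [hχ1 (hsub hx)]; simp
    · rw [image_eq_zero_of_notMem_tsupport hx, mul_zero]
  -- the mollified function
  have hI : ∀ h, 0 < h → h ≤ δ → Λ (∫ z, g z • wkRB h z) = ∫ z, g z * wkDens O S z := by
    intro h hh hle
    have hint : Integrable fun z => g z • wkRB h z :=
      (hg.cont.smul (wk_RB_continuous hh)).integrable_of_hasCompactSupport hg.comp.smul_right
    rw [← ContinuousLinearMap.integral_comp_comm Λ hint]
    refine integral_congr_ae (Eventually.of_forall fun z => ?_)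
    simp only [map_smul, smul_eq_mul]
    by_cases hz : z ∈ tsupport g
    · have hb : wkBall z h ⊆ Metric.cthickening δ (tsupport g) := fun x hx => by
        have h1 := wk_ball_subset z hh.le hx
        rw [Metric.mem_closedBall] at h1
        exact Metric.mem_cthickening_of_dist_le x z δ _ hz (h1.trans hle)
      rw [wk_dens_eq hS hh (hb.trans hth), hΛ]
      congr 2
      funext x
      rw [wk_RB_apply hh]
      by_cases hx : x ∈ wkBall z h
      · rw [hχ1 (hb hx)]; simp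
      · rw [wk_rho_zero z hh hx, mul_zero]
    · rw [image_eq_zero_of_notMem_tsupport hz, zero_mul, zero_mul]
  -- conclusion
  rw [← hΛG]
  refine eq_of_forall_dist_le fun ε hε => ?_
  have hΛ0 : 0 < ‖Λ‖ + 1 := by positivity
  obtain ⟨η, hη, hmol⟩ := wk_mollify hg.cont hg.comp (div_pos hε hΛ0)
  obtain ⟨h, hh, hle, hlt⟩ : ∃ h, 0 < h ∧ h ≤ δ ∧ h < η :=
    ⟨min δ (η / 2), lt_min hδ (by positivity), min_le_left _ _, (min_le_right _ _).trans_lt (by linarith)⟩
  rw [← hI h hh hle, Real.dist_eq, ← map_sub]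
  have hint : Integrable fun z => g z • wkRB h z :=
    (hg.cont.smul (wk_RB_continuous hh)).integrable_of_hasCompactSupport hg.comp.smul_right
  have hn : ‖G - ∫ z, g z • wkRB h z‖ ≤ ε / (‖Λ‖ + 1) := by
    rw [BoundedContinuousFunction.norm_le (by positivity)]
    intro x
    have e : (∫ z, g z • wkRB h z) x = ∫ z, g z * wkRho z h x := by
      have := ContinuousLinearMap.integral_comp_comm (BoundedContinuousFunction.evalCLM ℝ x) hint
      simp only [BoundedContinuousFunction.evalCLM_apply] at this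
      rw [← this]
      refine integral_congr_ae (Eventually.of_forall fun z => ?_)
      simp [wk_RB_apply hh]
    rw [BoundedContinuousFunction.sub_apply, e, hG, Real.norm_eq_abs, abs_sub_comm]
    exact hmol h hh hlt x
  calc |Λ (G - ∫ z, g z • wkRB h z)| ≤ ‖Λ‖ * ‖G - ∫ z, g z • wkRB h z‖ := Λ.le_opNorm _
    _ ≤ ‖Λ‖ * (ε / (‖Λ‖ + 1)) := mul_le_mul_of_nonneg_left hn (norm_nonneg Λ)
    _ ≤ ε := by
      rw [← mul_div_assoc, div_le_iff₀ hΛ0]
      nlinarith [norm_nonneg Λ]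

/-- **(W-d)** mean value property with respect to the bumps -/
theorem wk_mean {O : Set (ℝ × ℝ)} {S : (ℝ × ℝ → ℝ) → ℝ} (hS : WkHarm O S) (hO : IsOpen O) {z : ℝ × ℝ} {h : ℝ}
    (hh : 0 < h) (hb : wkBall z h ⊆ O) : wkDens O S z = ∫ w, wkRho z h w * wkDens O S w := by
  rw [wk_dens_eq hS hh hb, wk_repr hS hO (wk_test_rho hh hb)]

/-- **(W-e)** maximum principle, upper half; NO connectedness: extremal point of the set where the maximum is attained -/
theorem wk_max_le {O : Set (ℝ × ℝ)} {S : (ℝ × ℝ → ℝ) → ℝ} (hS : WkHarm O S) (hO : IsOpen O)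
    (hbd : ∀ ε : ℝ, 0 < ε → ∃ K, IsCompact K ∧ K ⊆ O ∧ ∀ z ∈ O, z ∉ K → wkDens O S z ≤ ε) :
    ∀ z ∈ O, wkDens O S z ≤ 0 := by
  by_contra hcon
  push Not at hcon
  obtain ⟨z₁, hz₁, hpos⟩ := hcon
  obtain ⟨K, hK, hKO, hoff⟩ := hbd (wkDens O S z₁ / 2) (by positivity)
  have hz₁K : z₁ ∈ K := by
    by_contra hc
    have := hoff z₁ hz₁ hc
    linarith
  have hcK : ContinuousOn (wkDens O S) K := (wk_dens_continuousOn hS hO).mono hKO
  obtain ⟨z₂, hz₂K, hmax⟩ := hK.exists_isMaxOn ⟨z₁, hz₁K⟩ hcK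
  obtain ⟨M, hM⟩ : ∃ M, M = wkDens O S z₂ := ⟨_, rfl⟩
  have hM1 : wkDens O S z₁ ≤ M := hM ▸ hmax hz₁K
  have hle : ∀ z ∈ O, wkDens O S z ≤ M := by
    intro z hz
    by_cases hzK : z ∈ K
    · exact hM ▸ hmax hzK
    · have := hoff z hz hzK
      linarith
  have hinK : ∀ z ∈ O, wkDens O S z = M → z ∈ K := by
    intro z hz he
    by_contra hc
    have := hoff z hz hc
    linarith
  have hAc : IsCompact (K ∩ wkDens O S ⁻¹' {M}) :=
    hK.of_isClosed_subset (hcK.preimage_isClosed_of_isClosed hK.isClosed isClosed_singleton) inter_subset_left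
  obtain ⟨z₀, hz₀A, hext⟩ := hAc.exists_isMaxOn ⟨z₂, hz₂K, hM.symm⟩ continuous_fst.continuousOn
  have hz₀O : z₀ ∈ O := hKO hz₀A.1
  have hz₀M : wkDens O S z₀ = M := hz₀A.2
  obtain ⟨h, hh, hb⟩ := wk_exists_ball hO hz₀O
  obtain ⟨w, hw⟩ : ∃ w : ℝ × ℝ, w = (z₀.1 + h / 2, z₀.2) := ⟨_, rfl⟩
  have hq : sqDist w z₀ = (h / 2) ^ 2 := by rw [hw]; simp [sqDist]
  have hwB : w ∈ wkBall z₀ h := by
    show sqDist w z₀ ≤ h ^ 2
    rw [hq]; nlinarith
  have hwO : w ∈ O := hb hwB
  have hwlt : wkDens O S w < M := by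
    refine lt_of_le_of_ne (hle w hwO) fun he => ?_
    have h1 : w ∈ K ∩ wkDens O S ⁻¹' {M} := ⟨hinK w hwO he, he⟩
    have h2 : w.1 ≤ z₀.1 := hext h1
    rw [hw] at h2
    simp only at h2
    linarith
  have ht := wk_test_rho hh hb
  have hF : Continuous fun y => wkRho z₀ h y * M - wkRho z₀ h y * wkDens O S y :=
    ((wk_rho_continuous z₀ h).mul continuous_const).sub (wk_mul_dens_continuous hS hO ht)
  have hFc : HasCompactSupport fun y => wkRho z₀ h y * M - wkRho z₀ h y * wkDens O S y :=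
    (ht.comp.mul_right).sub (wk_mul_dens_compact S ht)
  have hF0 : ∀ y, 0 ≤ wkRho z₀ h y * M - wkRho z₀ h y * wkDens O S y := by
    intro y
    by_cases hy : y ∈ wkBall z₀ h
    · have := mul_le_mul_of_nonneg_left (hle y (hb hy)) (wk_rho_nonneg z₀ h y)
      linarith
    · rw [wk_rho_zero z₀ hh hy]; simp
  have hpos' : 0 < ∫ y, (wkRho z₀ h y * M - wkRho z₀ h y * wkDens O S y) := by
    refine hF.integral_pos_of_hasCompactSupport_nonneg_nonzero hFc hF0 (x := w) ?_
    have h1 : 0 < wkRho z₀ h w := wk_rho_pos z₀ hh (by rw [hq]; positivity) (by rw [hq]; nlinarith)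
    have : 0 < wkRho z₀ h w * (M - wkDens O S w) := mul_pos h1 (by linarith)
    intro h0
    nlinarith
  have hi1 : Integrable (fun y => wkRho z₀ h y * M) :=
    (show Continuous fun y => wkRho z₀ h y * M from
      (wk_rho_continuous z₀ h).mul continuous_const).integrable_of_hasCompactSupport ht.comp.mul_right
  rw [integral_sub hi1 (wk_mul_dens_integrable hS hO ht), integral_mul_const, wk_rho_integral z₀ hh,
    ← wk_mean hS hO hh hb, hz₀M] at hpos'
  linarith

theorem WkHarm.neg {O : Set (ℝ × ℝ)} {S : (ℝ × ℝ → ℝ) → ℝ} (hS : WkHarm O S) : WkHarm O (fun g => - S g) where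
  add := fun g g' h h' => by rw [hS.add g g' h h']; ring
  smul := fun c g h => by rw [hS.smul c g h]; ring
  bdd := fun K hK hKO => by
    obtain ⟨C, hC0, hC⟩ := hS.bdd K hK hKO
    exact ⟨C, hC0, fun g M hg hs hM => by rw [abs_neg]; exact hC g M hg hs hM⟩
  harm := fun φ h1 h2 h3 => by rw [hS.harm φ h1 h2 h3, neg_zero]

theorem wk_dens_neg {O : Set (ℝ × ℝ)} {S : (ℝ × ℝ → ℝ) → ℝ} (hS : WkHarm O S) (hO : IsOpen O) {z : ℝ × ℝ} (hz : z ∈ O) :
    wkDens O (fun g => - S g) z = - wkDens O S z := by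
  obtain ⟨h, hh, hb⟩ := wk_exists_ball hO hz
  rw [wk_dens_eq hS.neg hh hb, wk_dens_eq hS hh hb]

/-- **(W-e)** maximum principle: a weakly harmonic functional whose density tends to `0` at the boundary vanishes -/
theorem wk_max {O : Set (ℝ × ℝ)} {S : (ℝ × ℝ → ℝ) → ℝ} (hS : WkHarm O S) (hO : IsOpen O)
    (hbd : ∀ ε : ℝ, 0 < ε → ∃ K, IsCompact K ∧ K ⊆ O ∧ ∀ z ∈ O, z ∉ K → |wkDens O S z| ≤ ε) :
    ∀ z ∈ O, wkDens O S z = 0 := by
  intro z hz
  have h1 := wk_max_le hS hO (fun ε hε => by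
    obtain ⟨K, hK, hKO, h⟩ := hbd ε hε
    exact ⟨K, hK, hKO, fun y hy hyK => (le_abs_self _).trans (h y hy hyK)⟩) z hz
  have h2 := wk_max_le hS.neg hO (fun ε hε => by
    obtain ⟨K, hK, hKO, h⟩ := hbd ε hε
    exact ⟨K, hK, hKO, fun y hy hyK => by
      rw [wk_dens_neg hS hO hy]; exact (neg_le_abs _).trans (h y hy hyK)⟩) z hz
  rw [wk_dens_neg hS hO hz] at h2
  linarith

/-- **exit of step W** : the functional itself vanishes -/
theorem wk_vanish {O : Set (ℝ × ℝ)} {S : (ℝ × ℝ → ℝ) → ℝ} (hS : WkHarm O S) (hO : IsOpen O)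
    (hbd : ∀ ε : ℝ, 0 < ε → ∃ K, IsCompact K ∧ K ⊆ O ∧ ∀ z ∈ O, z ∉ K → |wkDens O S z| ≤ ε)
    {g : ℝ × ℝ → ℝ} (hg : WkTest O g) : S g = 0 := by
  rw [wk_repr hS hO hg]
  have : (fun z => g z * wkDens O S z) = fun _ => 0 := by
    funext z
    by_cases hz : z ∈ O
    · rw [wk_max hS hO hbd z hz, mul_zero]
    · rw [image_eq_zero_of_notMem_tsupport fun h => hz (hg.sub h), zero_mul]
  rw [this, integral_zero]

end Claimed.Agent.R291
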