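import Mathlib
import Claimed.Agent.R291.Defs.Frozen

/-!
# Row 291 (S0539), Wick/Green : CALCULUS OF THE FROZEN `lap2` AND GREEN'S IDENTITY      (owner helper86; prefix `wkg_`, defs `wkg*`)      complete, 0 sorry

Mathlib + the frozen `lap2` only.
* `wkgDx`, `wkgDy` the two partial derivatives (`deriv` along the coordinate lines); `wkg_lap_eq : lap2 φ = Dx (Dx φ) + Dy (Dy φ)` is `rfl`
* `wkg_Dx_fderiv`, `wkg_Dx_contDiff`, ... link with `fderiv`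
* locality `wkg_lap_congr`, support `wkg_lap_tsupport`, continuity `wkg_lap_continuous`
* algebra: `wkg_lap_add`, `wkg_lap_smul`, `wkg_lap_mul` (Leibniz), `wkg_lap_affine` (translation + dilation)
* **`wkg_green`** : `D` open, `u ∈ C²(D)`, `φ ∈ C²_c`, `tsupport φ ⊆ D`  ⟹  `∫ u lap2 φ = ∫ φ lap2 u`
* **`wkg_green_poisson`** : if moreover `-lap2 u = f` on `D` then `∫ u lap2 φ = - ∫ φ f`
-/

set_option autoImplicit false

namespace Claimed.Agent.R291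

open MeasureTheory Filter Topology Set
open scoped ContDiff
open Claims Claims.C0467

/-- partial derivative in the first coordinate -/
noncomputable def wkgDx (φ : ℝ × ℝ → ℝ) (z : ℝ × ℝ) : ℝ := deriv (fun t => φ (t, z.2)) z.1

/-- partial derivative in the second coordinate -/
noncomputable def wkgDy (φ : ℝ × ℝ → ℝ) (z : ℝ × ℝ) : ℝ := deriv (fun t => φ (z.1, t)) z.2

theorem wkgDx_eqns_cite (φ : ℝ × ℝ → ℝ) (z : ℝ × ℝ) : wkgDx φ z = deriv (fun t => φ (t, z.2)) z.1 := rfl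

theorem wkgDy_eqns_cite (φ : ℝ × ℝ → ℝ) (z : ℝ × ℝ) : wkgDy φ z = deriv (fun t => φ (z.1, t)) z.2 := rfl

theorem wkg_lap_eq (φ : ℝ × ℝ → ℝ) (z : ℝ × ℝ) :
    lap2 φ z = wkgDx (wkgDx φ) z + wkgDy (wkgDy φ) z := rfl

theorem wkg_Dx_fderiv {φ : ℝ × ℝ → ℝ} {z : ℝ × ℝ} (h : DifferentiableAt ℝ φ z) :
    wkgDx φ z = fderiv ℝ φ z (1, 0) := by
  have h1 : HasDerivAt (fun t : ℝ => (t, z.2)) ((1 : ℝ), (0 : ℝ)) z.1 :=
    (hasDerivAt_id _).prodMk (hasDerivAt_const _ _)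
  have h2 : HasFDerivAt φ (fderiv ℝ φ z) ((fun t : ℝ => (t, z.2)) z.1) := h.hasFDerivAt
  exact (h2.comp_hasDerivAt z.1 h1).deriv

theorem wkg_Dy_fderiv {φ : ℝ × ℝ → ℝ} {z : ℝ × ℝ} (h : DifferentiableAt ℝ φ z) :
    wkgDy φ z = fderiv ℝ φ z (0, 1) := by
  have h1 : HasDerivAt (fun t : ℝ => (z.1, t)) ((0 : ℝ), (1 : ℝ)) z.2 :=
    (hasDerivAt_const _ _).prodMk (hasDerivAt_id _)
  have h2 : HasFDerivAt φ (fderiv ℝ φ z) ((fun t : ℝ => (z.1, t)) z.2) := h.hasFDerivAt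
  exact (h2.comp_hasDerivAt z.2 h1).deriv

/-! ### locality -/

theorem wkg_Dx_congr {φ ψ : ℝ × ℝ → ℝ} {z : ℝ × ℝ} (h : φ =ᶠ[𝓝 z] ψ) : wkgDx φ =ᶠ[𝓝 z] wkgDx ψ := by
  filter_upwards [h.eventually_nhds] with w hw
  have hc : Tendsto (fun t : ℝ => (t, w.2)) (𝓝 w.1) (𝓝 w) :=
    (Continuous.prodMk continuous_id continuous_const).tendsto' _ _ rfl
  have he : (fun t : ℝ => φ (t, w.2)) =ᶠ[𝓝 w.1] fun t => ψ (t, w.2) := hc.eventually hw
  exact he.deriv_eq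

theorem wkg_Dy_congr {φ ψ : ℝ × ℝ → ℝ} {z : ℝ × ℝ} (h : φ =ᶠ[𝓝 z] ψ) : wkgDy φ =ᶠ[𝓝 z] wkgDy ψ := by
  filter_upwards [h.eventually_nhds] with w hw
  have hc : Tendsto (fun t : ℝ => (w.1, t)) (𝓝 w.2) (𝓝 w) :=
    (Continuous.prodMk continuous_const continuous_id).tendsto' _ _ rfl
  have he : (fun t : ℝ => φ (w.1, t)) =ᶠ[𝓝 w.2] fun t => ψ (w.1, t) := hc.eventually hw
  exact he.deriv_eq

theorem wkg_lap_congr' {φ ψ : ℝ × ℝ → ℝ} {z : ℝ × ℝ} (h : φ =ᶠ[𝓝 z] ψ) : lap2 φ =ᶠ[𝓝 z] lap2 ψ := by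
  filter_upwards [wkg_Dx_congr (wkg_Dx_congr h), wkg_Dy_congr (wkg_Dy_congr h)] with w h1 h2
  rw [wkg_lap_eq, wkg_lap_eq, h1, h2]

theorem wkg_lap_congr {φ ψ : ℝ × ℝ → ℝ} {z : ℝ × ℝ} (h : φ =ᶠ[𝓝 z] ψ) : lap2 φ z = lap2 ψ z :=
  (wkg_lap_congr' h).self_of_nhds

theorem wkg_Dx_zero : wkgDx (fun _ => (0 : ℝ)) = fun _ => 0 := by
  funext z; simp [wkgDx]

theorem wkg_Dy_zero : wkgDy (fun _ => (0 : ℝ)) = fun _ => 0 := by
  funext z; simp [wkgDy]

theorem wkg_lap_zero : lap2 (fun _ => (0 : ℝ)) = fun _ => 0 := by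
  funext z; rw [wkg_lap_eq, wkg_Dx_zero, wkg_Dy_zero, wkg_Dx_zero, wkg_Dy_zero]; simp

theorem wkg_Dx_tsupport (φ : ℝ × ℝ → ℝ) : tsupport (wkgDx φ) ⊆ tsupport φ := by
  refine closure_minimal (fun z hz => ?_) (isClosed_tsupport φ)
  by_contra hn
  have h0 : φ =ᶠ[𝓝 z] fun _ => 0 := notMem_tsupport_iff_eventuallyEq.1 hn
  have := (wkg_Dx_congr h0).self_of_nhds
  rw [wkg_Dx_zero] at this
  exact hz this

theorem wkg_Dy_tsupport (φ : ℝ × ℝ → ℝ) : tsupport (wkgDy φ) ⊆ tsupport φ := by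
  refine closure_minimal (fun z hz => ?_) (isClosed_tsupport φ)
  by_contra hn
  have h0 : φ =ᶠ[𝓝 z] fun _ => 0 := notMem_tsupport_iff_eventuallyEq.1 hn
  have := (wkg_Dy_congr h0).self_of_nhds
  rw [wkg_Dy_zero] at this
  exact hz this

theorem wkg_lap_tsupport (φ : ℝ × ℝ → ℝ) : tsupport (lap2 φ) ⊆ tsupport φ := by
  refine closure_minimal (fun z hz => ?_) (isClosed_tsupport φ)
  by_contra hn
  have h0 : φ =ᶠ[𝓝 z] fun _ => 0 := notMem_tsupport_iff_eventuallyEq.1 hn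
  have := wkg_lap_congr h0
  rw [wkg_lap_zero] at this
  exact hz this

theorem wkg_Dx_compact {φ : ℝ × ℝ → ℝ} (h : HasCompactSupport φ) : HasCompactSupport (wkgDx φ) :=
  h.of_isClosed_subset (isClosed_tsupport _) (wkg_Dx_tsupport φ)

theorem wkg_Dy_compact {φ : ℝ × ℝ → ℝ} (h : HasCompactSupport φ) : HasCompactSupport (wkgDy φ) :=
  h.of_isClosed_subset (isClosed_tsupport _) (wkg_Dy_tsupport φ)

theorem wkg_lap_compact {φ : ℝ × ℝ → ℝ} (h : HasCompactSupport φ) : HasCompactSupport (lap2 φ) :=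
  h.of_isClosed_subset (isClosed_tsupport _) (wkg_lap_tsupport φ)

/-! ### regularity -/

theorem wkg_Dx_eq_fderiv {φ : ℝ × ℝ → ℝ} (h : Differentiable ℝ φ) :
    wkgDx φ = fun z => fderiv ℝ φ z (1, 0) := funext fun z => wkg_Dx_fderiv (h z)

theorem wkg_Dy_eq_fderiv {φ : ℝ × ℝ → ℝ} (h : Differentiable ℝ φ) :
    wkgDy φ = fun z => fderiv ℝ φ z (0, 1) := funext fun z => wkg_Dy_fderiv (h z)

theorem wkg_Dx_contDiff {n : WithTop ℕ∞} {φ : ℝ × ℝ → ℝ} (h : ContDiff ℝ (n + 1) φ) :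
    ContDiff ℝ n (wkgDx φ) := by
  rw [wkg_Dx_eq_fderiv (h.differentiable (by simp))]
  exact (h.fderiv_right le_rfl).clm_apply contDiff_const

theorem wkg_Dy_contDiff {n : WithTop ℕ∞} {φ : ℝ × ℝ → ℝ} (h : ContDiff ℝ (n + 1) φ) :
    ContDiff ℝ n (wkgDy φ) := by
  rw [wkg_Dy_eq_fderiv (h.differentiable (by simp))]
  exact (h.fderiv_right le_rfl).clm_apply contDiff_const

theorem wkg_lap_contDiff {n : WithTop ℕ∞} {φ : ℝ × ℝ → ℝ} (h : ContDiff ℝ (n + 2) φ) :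
    ContDiff ℝ n (lap2 φ) := by
  have h' : ContDiff ℝ (n + 1 + 1) φ := by
    have : n + 1 + 1 = n + 2 := by rw [add_assoc]; rfl
    rwa [this]
  exact (wkg_Dx_contDiff (wkg_Dx_contDiff h')).add (wkg_Dy_contDiff (wkg_Dy_contDiff h'))

theorem wkg_lap_continuous {φ : ℝ × ℝ → ℝ} (h : ContDiff ℝ 2 φ) : Continuous (lap2 φ) :=
  (wkg_lap_contDiff (n := 0) (by simpa using h)).continuous

theorem wkg_lap_smooth {φ : ℝ × ℝ → ℝ} (h : ContDiff ℝ ∞ φ) : ContDiff ℝ ∞ (lap2 φ) :=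
  wkg_lap_contDiff (n := ∞) (h.of_le (by
    have : (∞ : WithTop ℕ∞) + 2 = ∞ := rfl
    rw [this]))

/-! ### local regularity -/

theorem wkg_ev_diff {φ : ℝ × ℝ → ℝ} {z : ℝ × ℝ} (h : ContDiffAt ℝ 1 φ z) :
    ∀ᶠ w in 𝓝 z, DifferentiableAt ℝ φ w := by
  filter_upwards [h.eventually (by simp)] with w hw
  exact hw.differentiableAt (by simp)

theorem wkg_Dx_ev {φ : ℝ × ℝ → ℝ} {z : ℝ × ℝ} (h : ContDiffAt ℝ 1 φ z) :
    wkgDx φ =ᶠ[𝓝 z] fun w => fderiv ℝ φ w (1, 0) := by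
  filter_upwards [wkg_ev_diff h] with w hw
  exact wkg_Dx_fderiv hw

theorem wkg_Dy_ev {φ : ℝ × ℝ → ℝ} {z : ℝ × ℝ} (h : ContDiffAt ℝ 1 φ z) :
    wkgDy φ =ᶠ[𝓝 z] fun w => fderiv ℝ φ w (0, 1) := by
  filter_upwards [wkg_ev_diff h] with w hw
  exact wkg_Dy_fderiv hw

theorem wkg_Dx_contDiffAt {n : WithTop ℕ∞} {φ : ℝ × ℝ → ℝ} {z : ℝ × ℝ} (h : ContDiffAt ℝ (n + 1) φ z) :
    ContDiffAt ℝ n (wkgDx φ) z :=
  ((h.fderiv_right le_rfl).clm_apply contDiffAt_const).congr_of_eventuallyEq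
    (wkg_Dx_ev (h.of_le (by simp)))

theorem wkg_Dy_contDiffAt {n : WithTop ℕ∞} {φ : ℝ × ℝ → ℝ} {z : ℝ × ℝ} (h : ContDiffAt ℝ (n + 1) φ z) :
    ContDiffAt ℝ n (wkgDy φ) z :=
  ((h.fderiv_right le_rfl).clm_apply contDiffAt_const).congr_of_eventuallyEq
    (wkg_Dy_ev (h.of_le (by simp)))

theorem wkg_two_one {φ : ℝ × ℝ → ℝ} {z : ℝ × ℝ} (h : ContDiffAt ℝ 2 φ z) : ContDiffAt ℝ (1 + 1) φ z := by
  have : ((1 : WithTop ℕ∞) + 1) = 2 := by norm_num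
  rwa [this]

theorem wkg_two_le {φ : ℝ × ℝ → ℝ} {z : ℝ × ℝ} (h : ContDiffAt ℝ 2 φ z) : ContDiffAt ℝ 1 φ z :=
  h.of_le (by norm_num)

/-! ### algebra -/

theorem wkg_Dx_add {φ ψ : ℝ × ℝ → ℝ} {z : ℝ × ℝ} (h1 : DifferentiableAt ℝ φ z)
    (h2 : DifferentiableAt ℝ ψ z) : wkgDx (fun w => φ w + ψ w) z = wkgDx φ z + wkgDx ψ z := by
  rw [wkg_Dx_fderiv (h1.fun_add h2), wkg_Dx_fderiv h1, wkg_Dx_fderiv h2, fderiv_fun_add h1 h2]; rfl

theorem wkg_Dy_add {φ ψ : ℝ × ℝ → ℝ} {z : ℝ × ℝ} (h1 : DifferentiableAt ℝ φ z)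
    (h2 : DifferentiableAt ℝ ψ z) : wkgDy (fun w => φ w + ψ w) z = wkgDy φ z + wkgDy ψ z := by
  rw [wkg_Dy_fderiv (h1.fun_add h2), wkg_Dy_fderiv h1, wkg_Dy_fderiv h2, fderiv_fun_add h1 h2]; rfl

theorem wkg_Dx_mul {φ ψ : ℝ × ℝ → ℝ} {z : ℝ × ℝ} (h1 : DifferentiableAt ℝ φ z)
    (h2 : DifferentiableAt ℝ ψ z) :
    wkgDx (fun w => φ w * ψ w) z = wkgDx φ z * ψ z + φ z * wkgDx ψ z := by
  rw [wkg_Dx_fderiv (h1.fun_mul h2), wkg_Dx_fderiv h1, wkg_Dx_fderiv h2, fderiv_fun_mul h1 h2]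
  simp [mul_comm]; ring

theorem wkg_Dy_mul {φ ψ : ℝ × ℝ → ℝ} {z : ℝ × ℝ} (h1 : DifferentiableAt ℝ φ z)
    (h2 : DifferentiableAt ℝ ψ z) :
    wkgDy (fun w => φ w * ψ w) z = wkgDy φ z * ψ z + φ z * wkgDy ψ z := by
  rw [wkg_Dy_fderiv (h1.fun_mul h2), wkg_Dy_fderiv h1, wkg_Dy_fderiv h2, fderiv_fun_mul h1 h2]
  simp [mul_comm]; ring

theorem wkg_Dx_smul (c : ℝ) (φ : ℝ × ℝ → ℝ) : wkgDx (fun w => c * φ w) = fun z => c * wkgDx φ z := by
  funext z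
  simp only [wkgDx]
  exact deriv_const_mul_field c

theorem wkg_Dy_smul (c : ℝ) (φ : ℝ × ℝ → ℝ) : wkgDy (fun w => c * φ w) = fun z => c * wkgDy φ z := by
  funext z
  simp only [wkgDy]
  exact deriv_const_mul_field c

theorem wkg_lap_smul (c : ℝ) (φ : ℝ × ℝ → ℝ) (z : ℝ × ℝ) : lap2 (fun w => c * φ w) z = c * lap2 φ z := by
  rw [wkg_lap_eq, wkg_lap_eq, wkg_Dx_smul, wkg_Dy_smul, wkg_Dx_smul, wkg_Dy_smul]; ring

theorem wkg_lap_neg (φ : ℝ × ℝ → ℝ) (z : ℝ × ℝ) : lap2 (fun w => - φ w) z = - lap2 φ z := by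
  have := wkg_lap_smul (-1) φ z
  simpa using this

theorem wkg_lap_add {φ ψ : ℝ × ℝ → ℝ} {z : ℝ × ℝ} (h1 : ContDiffAt ℝ 2 φ z) (h2 : ContDiffAt ℝ 2 ψ z) :
    lap2 (fun w => φ w + ψ w) z = lap2 φ z + lap2 ψ z := by
  have e1 : wkgDx (fun w => φ w + ψ w) =ᶠ[𝓝 z] fun w => wkgDx φ w + wkgDx ψ w := by
    filter_upwards [wkg_ev_diff (wkg_two_le h1), wkg_ev_diff (wkg_two_le h2)] with w a b
    exact wkg_Dx_add a b
  have e2 : wkgDy (fun w => φ w + ψ w) =ᶠ[𝓝 z] fun w => wkgDy φ w + wkgDy ψ w := by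
    filter_upwards [wkg_ev_diff (wkg_two_le h1), wkg_ev_diff (wkg_two_le h2)] with w a b
    exact wkg_Dy_add a b
  have d1 := (wkg_Dx_contDiffAt (wkg_two_one h1)).differentiableAt (by simp)
  have d2 := (wkg_Dx_contDiffAt (wkg_two_one h2)).differentiableAt (by simp)
  have d3 := (wkg_Dy_contDiffAt (wkg_two_one h1)).differentiableAt (by simp)
  have d4 := (wkg_Dy_contDiffAt (wkg_two_one h2)).differentiableAt (by simp)
  rw [wkg_lap_eq, (wkg_Dx_congr e1).self_of_nhds, (wkg_Dy_congr e2).self_of_nhds, wkg_Dx_add d1 d2,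
    wkg_Dy_add d3 d4, wkg_lap_eq, wkg_lap_eq]
  ring

theorem wkg_lap_sub {φ ψ : ℝ × ℝ → ℝ} {z : ℝ × ℝ} (h1 : ContDiffAt ℝ 2 φ z) (h2 : ContDiffAt ℝ 2 ψ z) :
    lap2 (fun w => φ w - ψ w) z = lap2 φ z - lap2 ψ z := by
  have h3 : ContDiffAt ℝ 2 (fun w => - ψ w) z := h2.neg
  have := wkg_lap_add h1 h3
  rw [wkg_lap_neg] at this
  simpa [sub_eq_add_neg] using this

/-- **Leibniz rule** for the frozen Laplacian. -/
theorem wkg_lap_mul {φ ψ : ℝ × ℝ → ℝ} {z : ℝ × ℝ} (h1 : ContDiffAt ℝ 2 φ z) (h2 : ContDiffAt ℝ 2 ψ z) :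
    lap2 (fun w => φ w * ψ w) z =
      lap2 φ z * ψ z + 2 * (wkgDx φ z * wkgDx ψ z + wkgDy φ z * wkgDy ψ z) + φ z * lap2 ψ z := by
  have e1 : wkgDx (fun w => φ w * ψ w) =ᶠ[𝓝 z] fun w => wkgDx φ w * ψ w + φ w * wkgDx ψ w := by
    filter_upwards [wkg_ev_diff (wkg_two_le h1), wkg_ev_diff (wkg_two_le h2)] with w a b
    exact wkg_Dx_mul a b
  have e2 : wkgDy (fun w => φ w * ψ w) =ᶠ[𝓝 z] fun w => wkgDy φ w * ψ w + φ w * wkgDy ψ w := by
    filter_upwards [wkg_ev_diff (wkg_two_le h1), wkg_ev_diff (wkg_two_le h2)] with w a b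
    exact wkg_Dy_mul a b
  have c1 := (wkg_two_le h1).differentiableAt (by simp)
  have c2 := (wkg_two_le h2).differentiableAt (by simp)
  have d1 := (wkg_Dx_contDiffAt (wkg_two_one h1)).differentiableAt (by simp)
  have d2 := (wkg_Dx_contDiffAt (wkg_two_one h2)).differentiableAt (by simp)
  have d3 := (wkg_Dy_contDiffAt (wkg_two_one h1)).differentiableAt (by simp)
  have d4 := (wkg_Dy_contDiffAt (wkg_two_one h2)).differentiableAt (by simp)
  rw [wkg_lap_eq, (wkg_Dx_congr e1).self_of_nhds, (wkg_Dy_congr e2).self_of_nhds,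
    wkg_Dx_add (d1.fun_mul c2) (c1.fun_mul d2), wkg_Dy_add (d3.fun_mul c2) (c1.fun_mul d4),
    wkg_Dx_mul d1 c2, wkg_Dx_mul c1 d2, wkg_Dy_mul d3 c2, wkg_Dy_mul c1 d4, wkg_lap_eq, wkg_lap_eq]
  ring

/-! ### translations and dilations (no regularity needed) -/

theorem wkg_Dx_affine (c : ℝ) (y : ℝ × ℝ) (φ : ℝ × ℝ → ℝ) :
    wkgDx (fun x => φ (c • (x - y))) = fun z => c * wkgDx φ (c • (z - y)) := by
  funext z
  simp only [wkgDx, Prod.fst_sub, Prod.snd_sub, smul_eq_mul, Prod.smul_fst, Prod.smul_snd]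
  have h1 := deriv_comp_sub_const (f := fun t => φ (c * t, c * (z.2 - y.2))) (x := z.1) (a := y.1)
  have h2 := deriv_comp_mul_left c (fun t => φ (t, c * (z.2 - y.2))) (z.1 - y.1)
  have h0 : (fun t => φ (c • ((t, z.2) - y))) = fun t => φ (c * (t - y.1), c * (z.2 - y.2)) := by
    funext t; rfl
  rw [h0, h1, h2]; rfl

theorem wkg_Dy_affine (c : ℝ) (y : ℝ × ℝ) (φ : ℝ × ℝ → ℝ) :
    wkgDy (fun x => φ (c • (x - y))) = fun z => c * wkgDy φ (c • (z - y)) := by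
  funext z
  simp only [wkgDy, Prod.fst_sub, Prod.snd_sub, smul_eq_mul, Prod.smul_fst, Prod.smul_snd]
  have h1 := deriv_comp_sub_const (f := fun t => φ (c * (z.1 - y.1), c * t)) (x := z.2) (a := y.2)
  have h2 := deriv_comp_mul_left c (fun t => φ (c * (z.1 - y.1), t)) (z.2 - y.2)
  have h0 : (fun t => φ (c • ((z.1, t) - y))) = fun t => φ (c * (z.1 - y.1), c * (t - y.2)) := by
    funext t; rfl
  rw [h0, h1, h2]; rfl

theorem wkg_lap_affine (c : ℝ) (y : ℝ × ℝ) (φ : ℝ × ℝ → ℝ) (z : ℝ × ℝ) :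
    lap2 (fun x => φ (c • (x - y))) z = c ^ 2 * lap2 φ (c • (z - y)) := by
  rw [wkg_lap_eq, wkg_lap_eq, wkg_Dx_affine, wkg_Dy_affine, wkg_Dx_smul, wkg_Dy_smul,
    wkg_Dx_affine c y (wkgDx φ), wkg_Dy_affine c y (wkgDy φ)]
  ring

/-! ### Green's identity -/

/-- product of a function continuous on the open set `D` with a continuous function supported in `D` -/
theorem wkg_mul_continuous {D : Set (ℝ × ℝ)} (hD : IsOpen D) {p q : ℝ × ℝ → ℝ} (hp : ContinuousOn p D)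
    (hq : Continuous q) (hs : tsupport q ⊆ D) : Continuous fun z => p z * q z := by
  rw [continuous_iff_continuousAt]
  intro z
  by_cases hz : z ∈ D
  · exact (hp.continuousAt (hD.mem_nhds hz)).mul hq.continuousAt
  · have h0 : q =ᶠ[𝓝 z] fun _ => 0 := notMem_tsupport_iff_eventuallyEq.1 fun h => hz (hs h)
    have h1 : (fun z => p z * q z) =ᶠ[𝓝 z] fun _ => 0 := by
      filter_upwards [h0] with w hw
      rw [hw, mul_zero]
    exact continuousAt_const.congr h1.symm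

theorem wkg_mul_integrable {D : Set (ℝ × ℝ)} (hD : IsOpen D) {p q : ℝ × ℝ → ℝ} (hp : ContinuousOn p D)
    (hq : Continuous q) (hc : HasCompactSupport q) (hs : tsupport q ⊆ D) :
    Integrable fun z => p z * q z :=
  (wkg_mul_continuous hD hp hq hs).integrable_of_hasCompactSupport hc.mul_left

theorem wkg_green_dir {D : Set (ℝ × ℝ)} (hD : IsOpen D) {u φ : ℝ × ℝ → ℝ} (hu : ContDiffOn ℝ 2 u D)
    (hφ : ContDiff ℝ 2 φ) (hc : HasCompactSupport φ) (hs : tsupport φ ⊆ D) (v : ℝ × ℝ) :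
    ∫ z, u z * fderiv ℝ (fun w => fderiv ℝ φ w v) z v =
      ∫ z, fderiv ℝ (fun w => fderiv ℝ u w v) z v * φ z := by
  have hφ1 : ContDiff ℝ 1 (fun w => fderiv ℝ φ w v) :=
    (hφ.fderiv_right (m := 1) (by norm_num)).clm_apply contDiff_const
  have hφ0 : Continuous fun z => fderiv ℝ (fun w => fderiv ℝ φ w v) z v :=
    ((hφ1.fderiv_right (m := 0) (by norm_num)).clm_apply contDiff_const).continuous
  have hu1 : ContDiffOn ℝ 1 (fun w => fderiv ℝ u w v) D :=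
    (hu.fderiv_of_isOpen hD (m := 1) (by norm_num)).clm_apply contDiffOn_const
  have hu0 : ContinuousOn (fun z => fderiv ℝ (fun w => fderiv ℝ u w v) z v) D :=
    ((hu1.fderiv_of_isOpen hD (m := 0) (by norm_num)).clm_apply contDiffOn_const).continuousOn
  have hs1 : tsupport (fun w => fderiv ℝ φ w v) ⊆ tsupport φ := tsupport_fderiv_apply_subset ℝ v
  have hs2 : tsupport (fun z => fderiv ℝ (fun w => fderiv ℝ φ w v) z v) ⊆ tsupport φ :=
    (tsupport_fderiv_apply_subset ℝ v).trans hs1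
  have hc1 : HasCompactSupport (fun w => fderiv ℝ φ w v) := hc.fderiv_apply ℝ v
  have hc2 : HasCompactSupport (fun z => fderiv ℝ (fun w => fderiv ℝ φ w v) z v) := hc1.fderiv_apply ℝ v
  have s1 := integral_mul_fderiv_eq_neg_fderiv_mul_of_integrable (μ := (volume : Measure (ℝ × ℝ)))
    (f := u) (g := fun w => fderiv ℝ φ w v) (v := v)
    (wkg_mul_integrable hD hu1.continuousOn hφ1.continuous hc1 (hs1.trans hs))
    (wkg_mul_integrable hD hu.continuousOn hφ0 hc2 (hs2.trans hs))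
    (wkg_mul_integrable hD hu.continuousOn hφ1.continuous hc1 (hs1.trans hs))
    (fun x hx => (hu.contDiffAt (hD.mem_nhds (hs (hs1 hx)))).differentiableAt (by norm_num))
    (fun x _ => hφ1.differentiable (by norm_num) x)
  have s2 := integral_mul_fderiv_eq_neg_fderiv_mul_of_integrable (μ := (volume : Measure (ℝ × ℝ)))
    (f := fun w => fderiv ℝ u w v) (g := φ) (v := v)
    (wkg_mul_integrable hD hu0 hφ.continuous hc hs)
    (wkg_mul_integrable hD hu1.continuousOn hφ1.continuous hc1 (hs1.trans hs))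
    (wkg_mul_integrable hD hu1.continuousOn hφ.continuous hc hs)
    (fun x hx => (hu1.contDiffAt (hD.mem_nhds (hs hx))).differentiableAt (by norm_num))
    (fun x _ => hφ.differentiable (by norm_num) x)
  rw [s1, s2, neg_neg]

/-- **Green's identity** for the frozen Laplacian. -/
theorem wkg_green {D : Set (ℝ × ℝ)} (hD : IsOpen D) {u φ : ℝ × ℝ → ℝ} (hu : ContDiffOn ℝ 2 u D)
    (hφ : ContDiff ℝ 2 φ) (hc : HasCompactSupport φ) (hs : tsupport φ ⊆ D) :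
    ∫ z, u z * lap2 φ z = ∫ z, φ z * lap2 u z := by
  have hφ1 : ∀ v : ℝ × ℝ, ContDiff ℝ 1 (fun w => fderiv ℝ φ w v) := fun v =>
    (hφ.fderiv_right (m := 1) (by norm_num)).clm_apply contDiff_const
  have hφ0 : ∀ v : ℝ × ℝ, Continuous fun z => fderiv ℝ (fun w => fderiv ℝ φ w v) z v := fun v =>
    (((hφ1 v).fderiv_right (m := 0) (by norm_num)).clm_apply contDiff_const).continuous
  have hu1 : ∀ v : ℝ × ℝ, ContDiffOn ℝ 1 (fun w => fderiv ℝ u w v) D := fun v =>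
    (hu.fderiv_of_isOpen hD (m := 1) (by norm_num)).clm_apply contDiffOn_const
  have hu0 : ∀ v : ℝ × ℝ, ContinuousOn (fun z => fderiv ℝ (fun w => fderiv ℝ u w v) z v) D := fun v =>
    (((hu1 v).fderiv_of_isOpen hD (m := 0) (by norm_num)).clm_apply contDiffOn_const).continuousOn
  have hs2 : ∀ v : ℝ × ℝ, tsupport (fun z => fderiv ℝ (fun w => fderiv ℝ φ w v) z v) ⊆ tsupport φ :=
    fun v => (tsupport_fderiv_apply_subset ℝ v).trans (tsupport_fderiv_apply_subset ℝ v)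
  have hc2 : ∀ v : ℝ × ℝ, HasCompactSupport (fun z => fderiv ℝ (fun w => fderiv ℝ φ w v) z v) :=
    fun v => (hc.fderiv_apply ℝ v).fderiv_apply ℝ v
  -- the Laplacian of `φ`
  have Lφ : ∀ z, lap2 φ z = fderiv ℝ (fun w => fderiv ℝ φ w (1, 0)) z (1, 0)
      + fderiv ℝ (fun w => fderiv ℝ φ w (0, 1)) z (0, 1) := by
    intro z
    rw [wkg_lap_eq, wkg_Dx_eq_fderiv (hφ.differentiable (by norm_num)),
      wkg_Dy_eq_fderiv (hφ.differentiable (by norm_num)),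
      wkg_Dx_fderiv ((hφ1 _).differentiable (by norm_num) z),
      wkg_Dy_fderiv ((hφ1 _).differentiable (by norm_num) z)]
  -- the Laplacian of `u` on `D`
  have Lu : ∀ z ∈ D, lap2 u z = fderiv ℝ (fun w => fderiv ℝ u w (1, 0)) z (1, 0)
      + fderiv ℝ (fun w => fderiv ℝ u w (0, 1)) z (0, 1) := by
    intro z hz
    have h2 : ContDiffAt ℝ 2 u z := hu.contDiffAt (hD.mem_nhds hz)
    rw [wkg_lap_eq, (wkg_Dx_congr (wkg_Dx_ev (wkg_two_le h2))).self_of_nhds,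
      (wkg_Dy_congr (wkg_Dy_ev (wkg_two_le h2))).self_of_nhds,
      wkg_Dx_fderiv (((hu1 _).contDiffAt (hD.mem_nhds hz)).differentiableAt (by norm_num)),
      wkg_Dy_fderiv (((hu1 _).contDiffAt (hD.mem_nhds hz)).differentiableAt (by norm_num))]
  have e1 : ∫ z, u z * lap2 φ z = (∫ z, u z * fderiv ℝ (fun w => fderiv ℝ φ w (1, 0)) z (1, 0))
      + ∫ z, u z * fderiv ℝ (fun w => fderiv ℝ φ w (0, 1)) z (0, 1) := by
    rw [← integral_add (wkg_mul_integrable hD hu.continuousOn (hφ0 _) (hc2 _) ((hs2 _).trans hs))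
      (wkg_mul_integrable hD hu.continuousOn (hφ0 _) (hc2 _) ((hs2 _).trans hs))]
    refine integral_congr_ae (Eventually.of_forall fun z => ?_)
    simp only [Lφ z]; ring
  have e2 : ∫ z, φ z * lap2 u z = (∫ z, fderiv ℝ (fun w => fderiv ℝ u w (1, 0)) z (1, 0) * φ z)
      + ∫ z, fderiv ℝ (fun w => fderiv ℝ u w (0, 1)) z (0, 1) * φ z := by
    rw [← integral_add (wkg_mul_integrable hD (hu0 _) hφ.continuous hc hs)
      (wkg_mul_integrable hD (hu0 _) hφ.continuous hc hs)]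
    refine integral_congr_ae (Eventually.of_forall fun z => ?_)
    by_cases hz : z ∈ D
    · simp only [Lu z hz]; ring
    · have : φ z = 0 := image_eq_zero_of_notMem_tsupport fun h => hz (hs h)
      simp only [this]; ring
  rw [e1, e2, wkg_green_dir hD hu hφ hc hs, wkg_green_dir hD hu hφ hc hs]

/-- Green's identity against the solution of the Poisson problem GIVEN by the frozen statement. -/
theorem wkg_green_poisson {D : Set (ℝ × ℝ)} (hD : IsOpen D) {u f φ : ℝ × ℝ → ℝ} (hu : ContDiffOn ℝ 2 u D)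
    (hf : ∀ z ∈ D, -lap2 u z = f z)
    (hφ : ContDiff ℝ 2 φ) (hc : HasCompactSupport φ) (hs : tsupport φ ⊆ D) :
    ∫ z, u z * lap2 φ z = - ∫ z, φ z * f z := by
  rw [wkg_green hD hu hφ hc hs, ← integral_neg]
  refine integral_congr_ae (Eventually.of_forall fun z => ?_)
  by_cases hz : z ∈ D
  · simp only [← hf z hz]; ring
  · have : φ z = 0 := image_eq_zero_of_notMem_tsupport fun h => hz (hs h)
    simp only [this]; ring

end Claimed.Agent.R291
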