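import Mathlib
import Claimed.Agent.R291.Defs.Frozen
import Claimed.Agent.R291.Wick.Green

/-!
# Row 291 (S0539), Wick/Green2 : TAYLOR (five point stencil), SUP BOUNDS, THE CUTOFF      (owner helper86; prefix `wkg_`, defs `wkg*`)      complete, 0 sorry

Mathlib + the frozen `lap2`, `sqDist` + Wick/Green.
* `wkg_Dx_hasDerivAt`, `wkg_Dy_hasDerivAt`
* `wkg_bdd` : a continuous compactly supported function is bounded
* `wkg_taylor1` : `|g(a+t) + g(a-t) - 2 g(a) - t² g''(a)| ≤ 2 B |t|³` if `|g'''| ≤ B`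
* **`wkg_stencil`** : `φ ∈ C³_c` ⟹ `∃ B, ∀ x t, |φ(x+te₁)+φ(x-te₁)+φ(x+te₂)+φ(x-te₂) - 4 φ x - t² lap2 φ x| ≤ B |t|³`
* `wkgEta0` : smooth radial cutoff, `= 1` on `sqDist x 0 ≤ 4`, `= 0` on `9 ≤ sqDist x 0`, values in `[0,1]`;
  `wkgEta y r x = wkgEta0 (r⁻¹ • (x - y))` with `wkg_eta_bounds` : `|Dx|, |Dy| ≤ C / r`, `|lap2| ≤ C / r²`
-/

set_option autoImplicit false

namespace Claimed.Agent.R291

open MeasureTheory Filter Topology Set
open scoped ContDiff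
open Claims Claims.C0467

theorem wkg_Dx_hasDerivAt {φ : ℝ × ℝ → ℝ} {z : ℝ × ℝ} (h : DifferentiableAt ℝ φ z) :
    HasDerivAt (fun t => φ (t, z.2)) (wkgDx φ z) z.1 := by
  have h1 : HasDerivAt (fun t : ℝ => (t, z.2)) ((1 : ℝ), (0 : ℝ)) z.1 :=
    (hasDerivAt_id _).prodMk (hasDerivAt_const _ _)
  have h2 : HasFDerivAt φ (fderiv ℝ φ z) ((fun t : ℝ => (t, z.2)) z.1) := h.hasFDerivAt
  rw [wkg_Dx_fderiv h]
  exact h2.comp_hasDerivAt z.1 h1

theorem wkg_Dy_hasDerivAt {φ : ℝ × ℝ → ℝ} {z : ℝ × ℝ} (h : DifferentiableAt ℝ φ z) :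
    HasDerivAt (fun t => φ (z.1, t)) (wkgDy φ z) z.2 := by
  have h1 : HasDerivAt (fun t : ℝ => (z.1, t)) ((0 : ℝ), (1 : ℝ)) z.2 :=
    (hasDerivAt_const _ _).prodMk (hasDerivAt_id _)
  have h2 : HasFDerivAt φ (fderiv ℝ φ z) ((fun t : ℝ => (z.1, t)) z.2) := h.hasFDerivAt
  rw [wkg_Dy_fderiv h]
  exact h2.comp_hasDerivAt z.2 h1

/-- a continuous compactly supported function is bounded -/
theorem wkg_bdd {q : ℝ × ℝ → ℝ} (hq : Continuous q) (hc : HasCompactSupport q) :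
    ∃ B : ℝ, 0 ≤ B ∧ ∀ z, |q z| ≤ B := by
  obtain ⟨C, hC⟩ := hc.exists_bound_of_continuous hq
  exact ⟨max C 0, le_max_right _ _, fun z => (hC z).trans (le_max_left _ _)⟩

/-- one dimensional second order symmetric Taylor estimate -/
theorem wkg_taylor1 {g g1 g2 g3 : ℝ → ℝ} (h0 : ∀ s, HasDerivAt g (g1 s) s)
    (h1 : ∀ s, HasDerivAt g1 (g2 s) s) (h2 : ∀ s, HasDerivAt g2 (g3 s) s) {B : ℝ}
    (hB : ∀ s, |g3 s| ≤ B) (a t : ℝ) :
    |g (a + t) + g (a - t) - 2 * g a - t ^ 2 * g2 a| ≤ 2 * B * |t| ^ 3 := by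
  have hB0 : 0 ≤ B := (abs_nonneg _).trans (hB 0)
  -- Lipschitz bound for `g2`
  have L2 : ∀ p q : ℝ, |g2 q - g2 p| ≤ B * |q - p| := by
    intro p q
    have := Convex.norm_image_sub_le_of_norm_hasDerivWithin_le (f := g2) (f' := g3) (C := B)
      (s := univ) (x := p) (y := q) (fun x _ => (h2 x).hasDerivWithinAt) (fun x _ => hB x) convex_univ
      (mem_univ _) (mem_univ _)
    simpa [Real.norm_eq_abs] using this
  set G : ℝ → ℝ := fun s => g (a + s) + g (a - s) - 2 * g a - s ^ 2 * g2 a with hG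
  set G1 : ℝ → ℝ := fun s => g1 (a + s) - g1 (a - s) - 2 * s * g2 a with hG1
  set G2 : ℝ → ℝ := fun s => g2 (a + s) + g2 (a - s) - 2 * g2 a with hG2
  have dG : ∀ s, HasDerivAt G (G1 s) s := by
    intro s
    have e1 : HasDerivAt (fun s => g (a + s)) (g1 (a + s)) s := by
      simpa using (h0 (a + s)).comp_const_add a s
    have e2 : HasDerivAt (fun s => g (a - s)) (- g1 (a - s)) s := by
      simpa using (h0 (a - s)).comp_const_sub a s
    have e3 : HasDerivAt (fun s : ℝ => s ^ 2 * g2 a) (2 * s * g2 a) s := by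
      simpa using (hasDerivAt_pow 2 s).mul_const (g2 a)
    have := ((e1.add e2).sub_const (2 * g a)).sub e3
    exact this.congr_deriv (by simp only [hG1]; ring)
  have dG1 : ∀ s, HasDerivAt G1 (G2 s) s := by
    intro s
    have e1 : HasDerivAt (fun s => g1 (a + s)) (g2 (a + s)) s := by
      simpa using (h1 (a + s)).comp_const_add a s
    have e2 : HasDerivAt (fun s => g1 (a - s)) (- g2 (a - s)) s := by
      simpa using (h1 (a - s)).comp_const_sub a s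
    have e3 : HasDerivAt (fun s : ℝ => 2 * s * g2 a) (2 * g2 a) s := by
      simpa using ((hasDerivAt_id s).const_mul 2).mul_const (g2 a)
    have := (e1.sub e2).sub e3
    exact this.congr_deriv (by simp only [hG2]; ring)
  set C : Set ℝ := Icc (-|t|) |t| with hC
  have hCc : Convex ℝ C := convex_Icc _ _
  have h0C : (0 : ℝ) ∈ C := ⟨by simp, abs_nonneg t⟩
  have htC : t ∈ C := ⟨neg_abs_le t, le_abs_self t⟩
  have absC : ∀ s ∈ C, |s| ≤ |t| := fun s hs => abs_le.2 hs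
  have b2 : ∀ s ∈ C, ‖G2 s‖ ≤ 2 * B * |t| := by
    intro s hs
    have u1 := L2 a (a + s)
    have u2 := L2 a (a - s)
    have v1 : |a + s - a| = |s| := by congr 1; ring
    have v2 : |a - s - a| = |s| := by rw [← abs_neg s]; congr 1; ring
    rw [v1] at u1
    rw [v2] at u2
    have w : B * |s| ≤ B * |t| := mul_le_mul_of_nonneg_left (absC s hs) hB0
    have : G2 s = (g2 (a + s) - g2 a) + (g2 (a - s) - g2 a) := by simp only [hG2]; ring
    rw [Real.norm_eq_abs, this]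
    calc _ ≤ |g2 (a + s) - g2 a| + |g2 (a - s) - g2 a| := abs_add_le _ _
      _ ≤ 2 * B * |t| := by linarith
  have b1 : ∀ s ∈ C, ‖G1 s‖ ≤ 2 * B * |t| * |t| := by
    intro s hs
    have := Convex.norm_image_sub_le_of_norm_hasDerivWithin_le (f := G1) (f' := G2)
      (C := 2 * B * |t|) (s := C) (x := 0) (y := s) (fun x _ => (dG1 x).hasDerivWithinAt) b2 hCc h0C hs
    have z : G1 0 = 0 := by simp [hG1]
    rw [z, sub_zero, sub_zero, Real.norm_eq_abs s] at this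
    exact this.trans (mul_le_mul_of_nonneg_left (absC s hs) (by positivity))
  have := Convex.norm_image_sub_le_of_norm_hasDerivWithin_le (f := G) (f' := G1)
    (C := 2 * B * |t| * |t|) (s := C) (x := 0) (y := t) (fun x _ => (dG x).hasDerivWithinAt) b1 hCc h0C htC
  have z : G 0 = 0 := by simp [hG]; ring
  rw [z, sub_zero, sub_zero, Real.norm_eq_abs, Real.norm_eq_abs] at this
  calc _ = |G t| := rfl
    _ ≤ 2 * B * |t| * |t| * |t| := this
    _ = 2 * B * |t| ^ 3 := by ring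

/-- **five point stencil**: uniform Taylor estimate for the frozen Laplacian. -/
theorem wkg_stencil {φ : ℝ × ℝ → ℝ} (hφ : ContDiff ℝ 3 φ) (hc : HasCompactSupport φ) :
    ∃ B : ℝ, 0 ≤ B ∧ ∀ (x : ℝ × ℝ) (t : ℝ),
      |φ (x.1 + t, x.2) + φ (x.1 - t, x.2) + φ (x.1, x.2 + t) + φ (x.1, x.2 - t) - 4 * φ x
        - t ^ 2 * lap2 φ x| ≤ B * |t| ^ 3 := by
  have h3 : ContDiff ℝ (2 + 1) φ := by
    have : ((2 : WithTop ℕ∞) + 1) = 3 := by norm_num
    rwa [this]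
  have hx1 : ContDiff ℝ (1 + 1) (wkgDx φ) := by
    have : ((1 : WithTop ℕ∞) + 1) = 2 := by norm_num
    rw [this]; exact wkg_Dx_contDiff h3
  have hy1 : ContDiff ℝ (1 + 1) (wkgDy φ) := by
    have : ((1 : WithTop ℕ∞) + 1) = 2 := by norm_num
    rw [this]; exact wkg_Dy_contDiff h3
  have hx2 : ContDiff ℝ (0 + 1) (wkgDx (wkgDx φ)) := by
    have : ((0 : WithTop ℕ∞) + 1) = 1 := by norm_num
    rw [this]; exact wkg_Dx_contDiff hx1
  have hy2 : ContDiff ℝ (0 + 1) (wkgDy (wkgDy φ)) := by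
    have : ((0 : WithTop ℕ∞) + 1) = 1 := by norm_num
    rw [this]; exact wkg_Dy_contDiff hy1
  have hx3 : Continuous (wkgDx (wkgDx (wkgDx φ))) := (wkg_Dx_contDiff hx2).continuous
  have hy3 : Continuous (wkgDy (wkgDy (wkgDy φ))) := (wkg_Dy_contDiff hy2).continuous
  obtain ⟨B1, hB1, b1⟩ := wkg_bdd hx3 (wkg_Dx_compact (wkg_Dx_compact (wkg_Dx_compact hc)))
  obtain ⟨B2, hB2, b2⟩ := wkg_bdd hy3 (wkg_Dy_compact (wkg_Dy_compact (wkg_Dy_compact hc)))
  refine ⟨2 * B1 + 2 * B2, by positivity, fun x t => ?_⟩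
  have t1 := wkg_taylor1 (g := fun s => φ (s, x.2)) (g1 := fun s => wkgDx φ (s, x.2))
    (g2 := fun s => wkgDx (wkgDx φ) (s, x.2)) (g3 := fun s => wkgDx (wkgDx (wkgDx φ)) (s, x.2))
    (fun s => wkg_Dx_hasDerivAt (z := (s, x.2)) (hφ.differentiable (by norm_num) _))
    (fun s => wkg_Dx_hasDerivAt (z := (s, x.2)) (hx1.differentiable (by norm_num) _))
    (fun s => wkg_Dx_hasDerivAt (z := (s, x.2)) (hx2.differentiable (by norm_num) _))
    (fun s => b1 _) x.1 t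
  have t2 := wkg_taylor1 (g := fun s => φ (x.1, s)) (g1 := fun s => wkgDy φ (x.1, s))
    (g2 := fun s => wkgDy (wkgDy φ) (x.1, s)) (g3 := fun s => wkgDy (wkgDy (wkgDy φ)) (x.1, s))
    (fun s => wkg_Dy_hasDerivAt (z := (x.1, s)) (hφ.differentiable (by norm_num) _))
    (fun s => wkg_Dy_hasDerivAt (z := (x.1, s)) (hy1.differentiable (by norm_num) _))
    (fun s => wkg_Dy_hasDerivAt (z := (x.1, s)) (hy2.differentiable (by norm_num) _))
    (fun s => b2 _) x.2 t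
  simp only [Prod.mk.eta] at t1 t2
  rw [wkg_lap_eq]
  have e : φ (x.1 + t, x.2) + φ (x.1 - t, x.2) + φ (x.1, x.2 + t) + φ (x.1, x.2 - t) - 4 * φ x
        - t ^ 2 * (wkgDx (wkgDx φ) x + wkgDy (wkgDy φ) x)
      = (φ (x.1 + t, x.2) + φ (x.1 - t, x.2) - 2 * φ x - t ^ 2 * wkgDx (wkgDx φ) x)
        + (φ (x.1, x.2 + t) + φ (x.1, x.2 - t) - 2 * φ x - t ^ 2 * wkgDy (wkgDy φ) x) := by ring
  rw [e]
  calc _ ≤ _ := abs_add_le _ _
    _ ≤ 2 * B1 * |t| ^ 3 + 2 * B2 * |t| ^ 3 := add_le_add t1 t2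
    _ = _ := by ring

/-! ### the cutoff -/

/-- smooth radial cutoff: `1` on the closed disc of radius `2`, `0` off the open disc of radius `3` -/
noncomputable def wkgEta0 (x : ℝ × ℝ) : ℝ := Real.smoothTransition ((9 - sqDist x 0) / 5)

theorem wkgEta0_eqns_cite (x : ℝ × ℝ) : wkgEta0 x = Real.smoothTransition ((9 - sqDist x 0) / 5) := rfl

theorem wkg_eta0_contDiff : ContDiff ℝ ∞ wkgEta0 := by
  have h : ContDiff ℝ ∞ fun x : ℝ × ℝ => (9 - sqDist x 0) / 5 := by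
    unfold sqDist
    fun_prop
  exact Real.smoothTransition.contDiff.comp h

theorem wkg_eta0_nonneg (x : ℝ × ℝ) : 0 ≤ wkgEta0 x := Real.smoothTransition.nonneg _

theorem wkg_eta0_le_one (x : ℝ × ℝ) : wkgEta0 x ≤ 1 := Real.smoothTransition.le_one _

theorem wkg_eta0_one {x : ℝ × ℝ} (h : sqDist x 0 ≤ 4) : wkgEta0 x = 1 :=
  Real.smoothTransition.one_of_one_le (by linarith)

theorem wkg_eta0_zero {x : ℝ × ℝ} (h : 9 ≤ sqDist x 0) : wkgEta0 x = 0 :=
  Real.smoothTransition.zero_of_nonpos (by linarith)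

theorem wkg_sq_closedBall {x : ℝ × ℝ} {r : ℝ} (hr : 0 ≤ r) (h : sqDist x 0 ≤ r ^ 2) :
    x ∈ Metric.closedBall (0 : ℝ × ℝ) r := by
  rw [mem_closedBall_zero_iff, Prod.norm_def, max_le_iff, Real.norm_eq_abs, Real.norm_eq_abs]
  simp only [sqDist, Prod.fst_zero, Prod.snd_zero, sub_zero] at h
  exact ⟨abs_le_of_sq_le_sq (by nlinarith [sq_nonneg x.2]) hr,
    abs_le_of_sq_le_sq (by nlinarith [sq_nonneg x.1]) hr⟩

theorem wkg_eta0_tsupport : tsupport wkgEta0 ⊆ {x | sqDist x 0 ≤ 9} := by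
  have hcl : IsClosed {x : ℝ × ℝ | sqDist x 0 ≤ 9} := by
    have : Continuous fun x : ℝ × ℝ => sqDist x 0 := by unfold sqDist; fun_prop
    exact isClosed_le this continuous_const
  refine closure_minimal (fun x hx => ?_) hcl
  by_contra hn
  exact hx (wkg_eta0_zero (le_of_lt (not_le.1 hn)))

theorem wkg_eta0_compact : HasCompactSupport wkgEta0 := by
  refine HasCompactSupport.of_support_subset_isCompact (isCompact_closedBall (0 : ℝ × ℝ) 3) ?_
  intro x hx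
  refine wkg_sq_closedBall (by norm_num) ?_
  have := wkg_eta0_tsupport (subset_tsupport _ hx)
  simp only [Set.mem_ofPred_eq] at this
  linarith

/-- the cutoff at `y`, scale `r`: `1` on the closed disc of radius `2r`, `0` off the open disc of radius `3r` -/
noncomputable def wkgEta (y : ℝ × ℝ) (r : ℝ) (x : ℝ × ℝ) : ℝ := wkgEta0 (r⁻¹ • (x - y))

theorem wkgEta_eqns_cite (y : ℝ × ℝ) (r : ℝ) (x : ℝ × ℝ) : wkgEta y r x = wkgEta0 (r⁻¹ • (x - y)) := rfl

theorem wkg_sq_scale (y x : ℝ × ℝ) (r : ℝ) : sqDist (r⁻¹ • (x - y)) 0 = (r ^ 2)⁻¹ * sqDist x y := by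
  simp only [sqDist, Prod.smul_fst, Prod.smul_snd, Prod.fst_sub, Prod.snd_sub, smul_eq_mul, Prod.fst_zero,
    Prod.snd_zero, sub_zero]
  rw [← inv_pow]; ring

theorem wkg_eta_contDiff (y : ℝ × ℝ) (r : ℝ) : ContDiff ℝ ∞ (wkgEta y r) :=
  wkg_eta0_contDiff.comp (by fun_prop)

theorem wkg_eta_nonneg (y : ℝ × ℝ) (r : ℝ) (x : ℝ × ℝ) : 0 ≤ wkgEta y r x := wkg_eta0_nonneg _

theorem wkg_eta_le_one (y : ℝ × ℝ) (r : ℝ) (x : ℝ × ℝ) : wkgEta y r x ≤ 1 := wkg_eta0_le_one _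

theorem wkg_eta_one {y x : ℝ × ℝ} {r : ℝ} (hr : 0 < r) (h : sqDist x y ≤ (2 * r) ^ 2) : wkgEta y r x = 1 := by
  refine wkg_eta0_one ?_
  rw [wkg_sq_scale, inv_mul_le_iff₀ (by positivity)]
  nlinarith

theorem wkg_eta_zero {y x : ℝ × ℝ} {r : ℝ} (hr : 0 < r) (h : (3 * r) ^ 2 ≤ sqDist x y) : wkgEta y r x = 0 := by
  refine wkg_eta0_zero ?_
  rw [wkg_sq_scale, le_inv_mul_iff₀ (by positivity)]
  nlinarith

theorem wkg_eta_tsupport (y : ℝ × ℝ) {r : ℝ} (hr : 0 < r) :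
    tsupport (wkgEta y r) ⊆ {x | sqDist x y ≤ (3 * r) ^ 2} := by
  have hcl : IsClosed {x : ℝ × ℝ | sqDist x y ≤ (3 * r) ^ 2} := by
    have : Continuous fun x : ℝ × ℝ => sqDist x y := by unfold sqDist; fun_prop
    exact isClosed_le this continuous_const
  refine closure_minimal (fun x hx => ?_) hcl
  by_contra hn
  exact hx (wkg_eta_zero hr (le_of_lt (not_le.1 hn)))

theorem wkg_eta_compact (y : ℝ × ℝ) {r : ℝ} (hr : 0 < r) : HasCompactSupport (wkgEta y r) := by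
  refine HasCompactSupport.of_support_subset_isCompact (isCompact_closedBall y (3 * r)) ?_
  intro x hx
  have h1 := wkg_eta_tsupport y hr (subset_tsupport _ hx)
  simp only [Set.mem_ofPred_eq] at h1
  have h2 : x - y ∈ Metric.closedBall (0 : ℝ × ℝ) (3 * r) := by
    refine wkg_sq_closedBall (by positivity) ?_
    simpa [sqDist] using h1
  rw [mem_closedBall_zero_iff] at h2
  rw [Metric.mem_closedBall, dist_eq_norm]
  exact h2

/-- **scaling bounds of the cutoff** (one constant for all centres and radii) -/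
theorem wkg_eta_bounds : ∃ C : ℝ, 0 ≤ C ∧ ∀ (y : ℝ × ℝ) (r : ℝ), 0 < r → ∀ x,
    |wkgDx (wkgEta y r) x| ≤ C / r ∧ |wkgDy (wkgEta y r) x| ≤ C / r ∧ |lap2 (wkgEta y r) x| ≤ C / r ^ 2 := by
  have h1 : ContDiff ℝ (0 + 1) wkgEta0 := wkg_eta0_contDiff.of_le (by
    have : ((0 : WithTop ℕ∞) + 1) = 1 := by norm_num
    rw [this]; exact mod_cast le_top)
  obtain ⟨C1, hC1, c1⟩ := wkg_bdd (wkg_Dx_contDiff h1).continuous (wkg_Dx_compact wkg_eta0_compact)
  obtain ⟨C2, hC2, c2⟩ := wkg_bdd (wkg_Dy_contDiff h1).continuous (wkg_Dy_compact wkg_eta0_compact)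
  obtain ⟨C3, hC3, c3⟩ := wkg_bdd (wkg_lap_continuous (wkg_eta0_contDiff.of_le (WithTop.coe_le_coe.2 le_top)))
    (wkg_lap_compact wkg_eta0_compact)
  refine ⟨C1 + C2 + C3, by positivity, fun y r hr x => ?_⟩
  have e1 : wkgDx (wkgEta y r) x = r⁻¹ * wkgDx wkgEta0 (r⁻¹ • (x - y)) :=
    congrFun (wkg_Dx_affine r⁻¹ y wkgEta0) x
  have e2 : wkgDy (wkgEta y r) x = r⁻¹ * wkgDy wkgEta0 (r⁻¹ • (x - y)) :=
    congrFun (wkg_Dy_affine r⁻¹ y wkgEta0) x
  have e3 : lap2 (wkgEta y r) x = r⁻¹ ^ 2 * lap2 wkgEta0 (r⁻¹ • (x - y)) := wkg_lap_affine r⁻¹ y wkgEta0 x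
  have hi : 0 < r⁻¹ := inv_pos.2 hr
  refine ⟨?_, ?_, ?_⟩
  · rw [e1, abs_mul, abs_of_pos hi, div_eq_mul_inv, mul_comm]
    exact mul_le_mul_of_nonneg_right ((c1 _).trans (by linarith)) hi.le
  · rw [e2, abs_mul, abs_of_pos hi, div_eq_mul_inv, mul_comm]
    exact mul_le_mul_of_nonneg_right ((c2 _).trans (by linarith)) hi.le
  · rw [e3, abs_mul, abs_of_pos (by positivity), div_eq_mul_inv, mul_comm, inv_pow]
    exact mul_le_mul_of_nonneg_right ((c3 _).trans (by linarith)) (by positivity)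

end Claimed.Agent.R291
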