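import Claimed.Agent.R291.Wick.Coll

/-!
# Row 291 (S0539), Wick/Diag : all collisions on the diagonal, THE ABSTRACT WICK IDENTITY      (statements helper108; proofs + owner helper175; prefix `wk_`)      complete (0 own sorry; cites `WkData.sc`, `WkData.lin` of Wick/Coll)

* `WkData.mc_bd2`, `WkData.mc_bd1`, `WkData.mc_core`   the combinatorial core: peeling `f = a + b` in `T (L, f^(m+1))` up to second order in `a`
* `WkData.mc_near`   quantitative form `≤ C ε (1 + log 1/ε)³` for the centres in a compact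
* **`WkData.mc`**     `T (Δρ_{w,ε}, f^(m+1)) + v (m+1) (∫ ρ_{w,ε} f) T (f^m) → 0` uniformly in `w`
* **`wk_main`**       `T (f^(j+2)) = (j+1) v (∫_D f u) T (f^j)`      (`wk_main_of` of Wick/Tools = `wk_l2g` + `wk_end` + `wk_bdry_rho`)
-/

set_option autoImplicit false

namespace Claimed.Agent.R291

open MeasureTheory Filter Topology Set
open scoped ContDiff
open Claims Claims.C0467

variable {D : Set (ℝ × ℝ)} {v : ℝ} {T : Multiset (ℝ × ℝ → ℝ) → ℝ}

/-! ### 3. all collisions on the diagonal -/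

/-- second order terms of the peeling -/
theorem WkData.mc_bd2 (W : WkData D v T) {a b f L : ℝ × ℝ → ℝ} {Ba Bf BL : ℝ} {m l i : ℕ} (hli : l + i + 1 = m)
    (ha : WkSz D T (m + 2) a Ba) (hb : WkSz D T (m + 2) b Bf) (hf : WkSz D T (m + 2) f Bf)
    (hL : WkSz D T (m + 2) L BL) :
    |T (a ::ₘ a ::ₘ (Multiset.replicate l b + Multiset.replicate i f + {L}))| ≤ Ba * Ba * Bf ^ (m - 1) * BL := by
  have hcard : Multiset.card ((a, Ba) ::ₘ (a, Ba) ::ₘ (Multiset.replicate l (b, Bf) + Multiset.replicate i (f, Bf)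
      + {(L, BL)})) = m + 2 := by
    simp only [Multiset.card_cons, Multiset.card_add, Multiset.card_replicate, Multiset.card_singleton]
    omega
  have h := W.bd ((a, Ba) ::ₘ (a, Ba) ::ₘ (Multiset.replicate l (b, Bf) + Multiset.replicate i (f, Bf) + {(L, BL)}))
    (fun p hp => by
      rw [hcard]
      simp only [Multiset.mem_cons, Multiset.mem_add, Multiset.mem_singleton] at hp
      rcases hp with rfl | rfl | (hp | hp) | rfl
      · exact ha
      · exact ha
      · rw [Multiset.eq_of_mem_replicate hp]; exact hb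
      · rw [Multiset.eq_of_mem_replicate hp]; exact hf
      · exact hL)
  simp only [Multiset.map_cons, Multiset.map_add, Multiset.map_replicate, Multiset.map_singleton, Multiset.prod_cons,
    Multiset.prod_add, Multiset.prod_replicate, Multiset.prod_singleton] at h
  refine h.trans (le_of_eq ?_)
  have : m - 1 = l + i := by omega
  rw [this, pow_add]
  ring

/-- first order terms of the peeling -/
theorem WkData.mc_bd1 (W : WkData D v T) {a b f : ℝ × ℝ → ℝ} {Ba Bf : ℝ} {m l i : ℕ} (hli : l + i + 1 = m)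
    (ha : WkSz D T m a Ba) (hb : WkSz D T m b Bf) (hf : WkSz D T m f Bf) :
    |T (a ::ₘ (Multiset.replicate l b + Multiset.replicate i f + 0))| ≤ Ba * Bf ^ (m - 1) := by
  have hcard : Multiset.card ((a, Ba) ::ₘ (Multiset.replicate l (b, Bf) + Multiset.replicate i (f, Bf))) = m := by
    simp only [Multiset.card_cons, Multiset.card_add, Multiset.card_replicate]
    omega
  have h := W.bd ((a, Ba) ::ₘ (Multiset.replicate l (b, Bf) + Multiset.replicate i (f, Bf)))
    (fun p hp => by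
      rw [hcard]
      simp only [Multiset.mem_cons, Multiset.mem_add] at hp
      rcases hp with rfl | hp | hp
      · exact ha
      · rw [Multiset.eq_of_mem_replicate hp]; exact hb
      · rw [Multiset.eq_of_mem_replicate hp]; exact hf)
  simp only [Multiset.map_cons, Multiset.map_add, Multiset.map_replicate, Multiset.prod_cons,
    Multiset.prod_add, Multiset.prod_replicate] at h
  rw [add_zero]
  refine h.trans (le_of_eq ?_)
  have : m - 1 = l + i := by omega
  rw [this, pow_add]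

/-- the combinatorial core of `MC'` -/
theorem WkData.mc_core (W : WkData D v T) {a b f L : ℝ × ℝ → ℝ} (hab : (fun y => a y + b y) = f) (m : ℕ)
    {Ba2 Bf2 BL Ba1 Bf1 I : ℝ}
    (ha2 : WkSz D T (m + 2) a Ba2) (hb2 : WkSz D T (m + 2) b Bf2) (hf2 : WkSz D T (m + 2) f Bf2)
    (hL2 : WkSz D T (m + 2) L BL)
    (ha1 : WkSz D T m a Ba1) (hb1 : WkSz D T m b Bf1) (hf1 : WkSz D T m f Bf1)
    (h0 : T (L ::ₘ Multiset.replicate (m + 1) b) = 0)
    (h1 : T (L ::ₘ a ::ₘ Multiset.replicate m b) = -(v * I * T (Multiset.replicate m b))) :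
    |T (L ::ₘ Multiset.replicate (m + 1) f) + v * (m + 1) * I * T (Multiset.replicate m f)|
      ≤ (m + 1) * (m * (Ba2 * Ba2 * Bf2 ^ (m - 1) * BL)) + |v * (m + 1) * I| * (m * (Ba1 * Bf1 ^ (m - 1))) := by
  have hB0 : 0 ≤ Ba2 * Ba2 * Bf2 ^ (m - 1) * BL := by
    have := ha2.2.1; have := hb2.2.1; have := hL2.2.1
    positivity
  have p2 := W.peel2 ha2.1 hb2.1 (s := {L}) (fun k hk => by rw [Multiset.mem_singleton.1 hk]; exact hL2.1) m hB0
    (fun l i hli => by rw [hab]; exact W.mc_bd2 hli ha2 hb2 hf2 hL2)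
  have p1 := W.peel1 ha1.1 hb1.1 (s := 0) (fun k hk => absurd hk (Multiset.notMem_zero k)) m
    (fun l i hli => by rw [hab]; exact W.mc_bd1 hli ha1 hb1 hf1)
  rw [hab] at p1 p2
  have e1 : Multiset.replicate (m + 1) f + {L} = L ::ₘ Multiset.replicate (m + 1) f := by
    rw [add_comm, Multiset.singleton_add]
  have e2 : Multiset.replicate (m + 1) b + {L} = L ::ₘ Multiset.replicate (m + 1) b := by
    rw [add_comm, Multiset.singleton_add]
  have e3 : a ::ₘ (Multiset.replicate m b + {L}) = L ::ₘ a ::ₘ Multiset.replicate m b := by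
    rw [add_comm, Multiset.singleton_add, Multiset.cons_swap]
  rw [e1, e2, e3, h0, h1] at p2
  rw [add_zero, add_zero] at p1
  have e4 : T (L ::ₘ Multiset.replicate (m + 1) f) + v * (m + 1) * I * T (Multiset.replicate m f)
      = (T (L ::ₘ Multiset.replicate (m + 1) f) - 0 - (m + 1) * -(v * I * T (Multiset.replicate m b)))
        + v * (m + 1) * I * (T (Multiset.replicate m f) - T (Multiset.replicate m b)) := by ring
  rw [e4]
  refine (abs_add_le _ _).trans (add_le_add p2 ?_)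
  rw [abs_mul]
  exact mul_le_mul_of_nonneg_left p1 (abs_nonneg _)

theorem wk_num1 {C M A P ε l l3 : ℝ} (hC : 0 ≤ C) (_hM : 0 ≤ M) (hA : 0 ≤ A) (hP : 0 ≤ P) (hε : 0 < ε) (hε1 : ε ≤ 1)
    (h30 : 0 ≤ l3) (h3 : l3 ≤ l) :
    (C * (M * (3 * ε) ^ 2) * l3) * (C * (M * (3 * ε) ^ 2) * l3) * P * (C * (A / ε ^ 4 * ε ^ 2) * l)
      ≤ 81 * C ^ 3 * M ^ 2 * A * P * (ε * l ^ 3) := by
  have e : (C * (M * (3 * ε) ^ 2) * l3) * (C * (M * (3 * ε) ^ 2) * l3) * P * (C * (A / ε ^ 4 * ε ^ 2) * l)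
      = 81 * C ^ 3 * M ^ 2 * A * P * (ε ^ 2 * (l3 ^ 2 * l)) := by
    field_simp
    ring
  rw [e]
  have hl : 0 ≤ l := h30.trans h3
  refine mul_le_mul_of_nonneg_left ?_ (by positivity)
  have h1 : ε ^ 2 ≤ ε := by nlinarith
  have h2 : l3 ^ 2 * l ≤ l ^ 3 := by
    have : l3 ^ 2 ≤ l ^ 2 := pow_le_pow_left₀ h30 h3 2
    calc l3 ^ 2 * l ≤ l ^ 2 * l := mul_le_mul_of_nonneg_right this hl
      _ = l ^ 3 := by ring
  exact mul_le_mul h1 h2 (by positivity) hε.le

theorem wk_num2 {C M P ε l l3 : ℝ} (hC : 0 ≤ C) (hM : 0 ≤ M) (hP : 0 ≤ P) (hε : 0 < ε) (hε1 : ε ≤ 1)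
    (h30 : 0 ≤ l3) (h3 : l3 ≤ l) (hl1 : 1 ≤ l) :
    (C * (M * (3 * ε) ^ 2) * l3) * P ≤ 9 * C * M * P * (ε * l ^ 3) := by
  have e : (C * (M * (3 * ε) ^ 2) * l3) * P = 9 * C * M * P * (ε ^ 2 * l3) := by ring
  rw [e]
  refine mul_le_mul_of_nonneg_left ?_ (by positivity)
  have h1 : ε ^ 2 ≤ ε := by nlinarith
  have h2 : l3 ≤ l ^ 3 := h3.trans (le_self_pow₀ hl1 (by norm_num))
  exact mul_le_mul h1 h2 h30 hε.le

/-- `MC'` for the centres in a compact: quantitative form -/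
theorem WkData.mc_near (W : WkData D v T) (hD : IsOpen D) {f : ℝ × ℝ → ℝ} (hf : WkTest D f) (m : ℕ)
    {K : Set (ℝ × ℝ)} (hK : IsCompact K) (hKD : K ⊆ D) :
    ∃ C r1 : ℝ, 0 ≤ C ∧ 0 < r1 ∧ ∀ w ∈ K, ∀ ε, 0 < ε → ε < r1 → wkBall w ε ⊆ D →
      |T (lap2 (wkRho w ε) ::ₘ Multiset.replicate (m + 1) f)
        + v * (m + 1) * (∫ x, wkRho w ε x * f x) * T (Multiset.replicate m f)| ≤ C * (ε * wkL ε ^ 3) := by
  obtain ⟨M, hM0, hM⟩ := hf.bound
  obtain ⟨A, hA0, hA⟩ := wk_rho_sizes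
  obtain ⟨C1, hC1, fix2⟩ := W.sz_fix (m + 2) hf.comp.isCompact hf.sub
  obtain ⟨C2, r2, hC2, hr2, hr21, small2⟩ := W.sz_small (m + 2) hK hKD
  obtain ⟨C3, hC3, fix1⟩ := W.sz_fix m hf.comp.isCompact hf.sub
  obtain ⟨C4, r4, hC4, hr4, hr41, small1⟩ := W.sz_small m hK hKD
  refine ⟨(m + 1) * (m * (81 * C2 ^ 3 * M ^ 2 * A * (C1 * M) ^ (m - 1)))
      + |v| * (m + 1) * M * (m * (9 * C4 * M * (C3 * M) ^ (m - 1))), min (r2 / 3) (r4 / 3), by positivity,
    by positivity, fun w hw ε hε hlt hball => ?_⟩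
  have h32 : 3 * ε ≤ r2 := by have := hlt.trans_le (min_le_left _ _); linarith
  have h34 : 3 * ε ≤ r4 := by have := hlt.trans_le (min_le_right _ _); linarith
  have hε1 : ε ≤ 1 := by linarith
  have h3ε : 0 < 3 * ε := by positivity
  have hl3 : 1 ≤ wkL (3 * ε) := wk_L_one_le h3ε (h32.trans hr21)
  have hl3l : wkL (3 * ε) ≤ wkL ε := wk_L_anti hε (by linarith)
  have hzf : ∀ y, y ∉ tsupport f → f y = 0 := fun y hy => image_eq_zero_of_notMem_tsupport hy
  have ha2 := small2 w hw (3 * ε) h3ε h32 M _ (wk_near_test hf w ε) (wk_near_abs_le hM w ε)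
    (fun y hy => wk_near_zero f w hε hy)
  have hb2 := fix2 M _ (wk_far_test hf w ε) (wk_far_abs_le hM w ε) (fun y hy => wk_far_zero_off w ε hy)
  have hf2 := fix2 M f hf hM hzf
  have hL2 := small2 w hw ε hε (by linarith) (A / ε ^ 4) _ (wk_test_rho_lap hε hball) (fun y => (hA w y ε hε).2)
    (fun y hy => wk_rho_lap_zero w hε hy)
  have ha1 := small1 w hw (3 * ε) h3ε h34 M _ (wk_near_test hf w ε) (wk_near_abs_le hM w ε)
    (fun y hy => wk_near_zero f w hε hy)
  have hb1 := fix1 M _ (wk_far_test hf w ε) (wk_far_abs_le hM w ε) (fun y hy => wk_far_zero_off w ε hy)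
  have hf1 := fix1 M f hf hM hzf
  have hsub : tsupport (wkRho w ε) ⊆ D := (wk_rho_tsupport w hε).trans hball
  have h0 : T (lap2 (wkRho w ε) ::ₘ Multiset.replicate (m + 1) (fun y => f y * (1 - wkgEta w ε y))) = 0 :=
    W.harm_glob hD (wk_rho_contDiff w ε) (wk_rho_compact w hε) hsub (fun g hg => by
      rw [Multiset.eq_of_mem_replicate hg]; exact ⟨wk_far_test hf w ε, wk_far_disjoint f w hε⟩)
  have h1 : T (lap2 (wkRho w ε) ::ₘ (fun y => f y * wkgEta w ε y) ::ₘ
        Multiset.replicate m (fun y => f y * (1 - wkgEta w ε y)))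
      = -(v * (∫ x, wkRho w ε x * f x) * T (Multiset.replicate m (fun y => f y * (1 - wkgEta w ε y)))) := by
    rw [← wk_rho_near f w hε]
    exact W.sc hD (wk_rho_contDiff w ε) (wk_rho_compact w hε) hsub (wk_near_test hf w ε) (fun g hg => by
      rw [Multiset.eq_of_mem_replicate hg]; exact ⟨wk_far_test hf w ε, wk_far_disjoint f w hε⟩)
  have core := W.mc_core (wk_near_add_far f w ε) m ha2 hb2 hf2 hL2 ha1 hb1 hf1 h0 h1
  refine core.trans ?_
  have n1 := wk_num1 (P := (C1 * M) ^ (m - 1)) hC2.le hM0 hA0 (by positivity) hε hε1 (zero_le_one.trans hl3) hl3l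
  have n2 := wk_num2 (P := (C3 * M) ^ (m - 1)) hC4.le hM0 (by positivity) hε hε1 (zero_le_one.trans hl3) hl3l
    (hl3.trans hl3l)
  have hI : |v * (m + 1) * ∫ x, wkRho w ε x * f x| ≤ |v| * (m + 1) * M := by
    rw [abs_mul, abs_mul, abs_of_pos (by positivity : (0 : ℝ) < (m : ℝ) + 1)]
    exact mul_le_mul_of_nonneg_left (wk_rho_avg_abs_le hM w hε) (by positivity)
  have hX : 0 ≤ ε * wkL ε ^ 3 := by
    have : 0 ≤ wkL ε := zero_le_one.trans (hl3.trans hl3l)
    positivity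
  have t1 : ((m : ℝ) + 1) * (m * (C2 * (M * (3 * ε) ^ 2) * wkL (3 * ε) * (C2 * (M * (3 * ε) ^ 2) * wkL (3 * ε))
        * (C1 * M) ^ (m - 1) * (C2 * (A / ε ^ 4 * ε ^ 2) * wkL ε)))
      ≤ ((m : ℝ) + 1) * (m * (81 * C2 ^ 3 * M ^ 2 * A * (C1 * M) ^ (m - 1) * (ε * wkL ε ^ 3))) :=
    mul_le_mul_of_nonneg_left (mul_le_mul_of_nonneg_left n1 (by positivity)) (by positivity)
  have t2 : |v * (m + 1) * ∫ x, wkRho w ε x * f x| * (m * (C4 * (M * (3 * ε) ^ 2) * wkL (3 * ε) * (C3 * M) ^ (m - 1)))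
      ≤ |v| * (m + 1) * M * (m * (9 * C4 * M * (C3 * M) ^ (m - 1) * (ε * wkL ε ^ 3))) :=
    mul_le_mul hI (mul_le_mul_of_nonneg_left n2 (by positivity))
      (by have := zero_le_one.trans hl3; positivity) (by positivity)
  calc _ ≤ ((m : ℝ) + 1) * (m * (81 * C2 ^ 3 * M ^ 2 * A * (C1 * M) ^ (m - 1) * (ε * wkL ε ^ 3)))
        + |v| * (m + 1) * M * (m * (9 * C4 * M * (C3 * M) ^ (m - 1) * (ε * wkL ε ^ 3))) := add_le_add t1 t2
    _ = _ := by ring

/-- **MC'.**  Near/far splitting `f = f η_{w,ε} + f (1 - η_{w,ε})`, `peel2` (+ `peel1` for `T (f^m)`): order 0 = (A2), order 1 = SC, order ≥ 2 = `O(ε² L³)`. -/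
theorem WkData.mc (W : WkData D v T) (hD : IsOpen D) {f : ℝ × ℝ → ℝ} (hf : WkTest D f) (m : ℕ) {e : ℝ} (he : 0 < e) :
    ∃ e0 : ℝ, 0 < e0 ∧ ∀ ε, 0 < ε → ε < e0 → ∀ w, wkBall w ε ⊆ D →
      |T (lap2 (wkRho w ε) ::ₘ Multiset.replicate (m + 1) f)
        + v * (m + 1) * (∫ x, wkRho w ε x * f x) * T (Multiset.replicate m f)| ≤ e := by
  obtain ⟨d, hd, hKc, hKD, -⟩ := wk_room hD hf.comp.isCompact hf.sub
  obtain ⟨C, r1, hC, hr1, H⟩ := W.mc_near hD hf m hKc hKD
  obtain ⟨r0, hr0, hsmall⟩ := wk_L_small 3 (div_pos he (by positivity : 0 < C + 1))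
  refine ⟨min d (min r1 r0), by positivity, fun ε hε hlt w hball => ?_⟩
  by_cases hw : w ∈ Metric.cthickening d (tsupport f)
  · refine (H w hw ε hε (hlt.trans_le ((min_le_right _ _).trans (min_le_left _ _))) hball).trans ?_
    have h1 := hsmall ε hε (hlt.trans_le ((min_le_right _ _).trans (min_le_right _ _)))
    calc C * (ε * wkL ε ^ 3) ≤ C * (e / (C + 1)) := mul_le_mul_of_nonneg_left h1 hC
      _ ≤ e := by
        rw [← mul_div_assoc, div_le_iff₀ (by positivity)]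
        nlinarith
  · have hdis := wk_far_centre hε (hlt.le.trans (min_le_left _ _)) hw
    have h0 : T (lap2 (wkRho w ε) ::ₘ Multiset.replicate (m + 1) f) = 0 :=
      W.harm_glob hD (wk_rho_contDiff w ε) (wk_rho_compact w hε) ((wk_rho_tsupport w hε).trans hball) (fun g hg => by
        rw [Multiset.eq_of_mem_replicate hg]; exact ⟨hf, hdis.mono_right (wk_rho_tsupport w hε)⟩)
    rw [h0, wk_rho_mul_eq_zero hε hdis]
    simp only [mul_zero, zero_mul, add_zero, abs_zero]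
    exact he.le

/-! ### 4. the identity -/

/-- **THE ABSTRACT WICK IDENTITY.** -/
theorem wk_main (W : WkData D v T) (hD : IsOpen D) (hb : Bornology.IsBounded D) {f u : ℝ × ℝ → ℝ}
    (hf : Continuous f) (hfc : HasCompactSupport f) (hfD : tsupport f ⊆ D)
    (hu : ContDiffOn ℝ 2 u D) (huc : ContinuousOn u (closure D)) (hu0 : ∀ z ∈ frontier D, u z = 0)
    (hlap : ∀ z ∈ D, -lap2 u z = f z) (j : ℕ) :
    T (Multiset.replicate (j + 2) f) = ((j : ℝ) + 1) * v * (∫ z in D, f z * u z) * T (Multiset.replicate j f) := by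
  have hft : WkTest D f := ⟨hf, hfc, hfD⟩
  have hs : ∀ k ∈ Multiset.replicate (j + 1) f, WkTest D k := fun k hk => by
    rw [Multiset.eq_of_mem_replicate hk]; exact hft
  refine wk_main_of W hD hb hft hu huc hu0 hlap j (W.lin hs) fun K hK hKD ε hε => ?_
  obtain ⟨δ, K', hδ, -, hK'D, -, hroom⟩ := wk_exists_room hD hK hKD
  obtain ⟨e1, he1, h1⟩ := W.mc hD hft j (half_pos hε)
  have hc0 : 0 < |v * (j + 1) * T (Multiset.replicate j f)| + 1 := by positivity
  obtain ⟨e2, he2, h2⟩ := wk_rho_avg_tendsto hf hfc (div_pos (half_pos hε) hc0)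
  refine ⟨min δ (min e1 e2), by positivity, fun e he hlt y hy => ?_⟩
  have a1 := h1 e he (hlt.trans_le ((min_le_right _ _).trans (min_le_left _ _))) y
    ((hroom y hy e he (hlt.le.trans (min_le_left _ _))).trans hK'D)
  have a2 := h2 e he (hlt.trans_le ((min_le_right _ _).trans (min_le_right _ _))) y
  have e3 : T (lap2 (wkRho y e) ::ₘ Multiset.replicate (j + 1) f) + v * (j + 1) * T (Multiset.replicate j f) * f y
      = (T (lap2 (wkRho y e) ::ₘ Multiset.replicate (j + 1) f)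
          + v * (j + 1) * (∫ x, wkRho y e x * f x) * T (Multiset.replicate j f))
        + -(v * (j + 1) * T (Multiset.replicate j f)) * ((∫ x, wkRho y e x * f x) - f y) := by ring
  rw [e3]
  refine (abs_add_le _ _).trans ?_
  have a3 : |-(v * (j + 1) * T (Multiset.replicate j f)) * ((∫ x, wkRho y e x * f x) - f y)| ≤ ε / 2 := by
    rw [abs_mul, abs_neg]
    calc |v * (j + 1) * T (Multiset.replicate j f)| * |(∫ x, wkRho y e x * f x) - f y|
        ≤ |v * (j + 1) * T (Multiset.replicate j f)| * (ε / 2 / (|v * (j + 1) * T (Multiset.replicate j f)| + 1)) :=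
          mul_le_mul_of_nonneg_left a2 (abs_nonneg _)
      _ ≤ ε / 2 := by
        rw [← mul_div_assoc, div_le_iff₀ hc0]
        nlinarith [abs_nonneg (v * (j + 1) * T (Multiset.replicate j f))]
  linarith

end Claimed.Agent.R291
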