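import Claimed.Agent.R291.Defs.Wick

/-!
# Row 291 (S0539), Wick/Multi : multilinear kit of `T`, sizes, peeling, localisation, GLOBAL weak harmonicity (A2)      (owner helper108; prefix `wk_`)

* `WkTest.zero'`, `.mul_right'`, `.mul_left'`, `.lap'`, `wk_test_of_ball`
* `WkData.zero`, `.sub`, `.neg`
* `WkSz D T j g B` : `g` is a test of size `B` in `L^{2j}`;  `WkData.sz_fix`, `WkData.sz_small` (roots removed once and for all)
* `WkData.peel1`, `WkData.peel2` : replace `a + b` by `b` in `n` slots up to first / second order in `a`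
* `wk_localize` : localisation principle without partition of unity (induction on a finite cover, `φ = φ (1 - ψ) + φ ψ`)
* **`WkData.harm_glob`** : (A2) `T (lap2 φ ::ₘ s) = 0` as soon as `tsupport φ` is disjoint from the supports of all the spectators
-/

set_option autoImplicit false

namespace Claimed.Agent.R291

open MeasureTheory Filter Topology Set
open scoped ContDiff
open Claims Claims.C0467

variable {D : Set (ℝ × ℝ)} {v : ℝ} {T : Multiset (ℝ × ℝ → ℝ) → ℝ}

/-! ### 1. tests -/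

theorem WkTest.zero' (D : Set (ℝ × ℝ)) : WkTest D (fun _ => (0 : ℝ)) :=
  ⟨continuous_const, HasCompactSupport.zero, by
    have : tsupport (fun _ : ℝ × ℝ => (0 : ℝ)) = ∅ := by
      have h0 : Function.support (fun _ : ℝ × ℝ => (0 : ℝ)) = ∅ := Function.support_eq_empty_iff.2 rfl
      rw [tsupport, h0, closure_empty]
    rw [this]; exact empty_subset _⟩

theorem WkTest.mul_right' {g k : ℝ × ℝ → ℝ} (h : WkTest D g) (hk : Continuous k) : WkTest D (fun y => g y * k y) :=
  ⟨h.cont.mul hk, h.comp.mul_right, tsupport_mul_subset_left.trans h.sub⟩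

theorem WkTest.mul_left' {g k : ℝ × ℝ → ℝ} (h : WkTest D g) (hk : Continuous k) : WkTest D (fun y => k y * g y) :=
  ⟨hk.mul h.cont, h.comp.mul_left, tsupport_mul_subset_right.trans h.sub⟩

theorem WkTest.neg' {g : ℝ × ℝ → ℝ} (h : WkTest D g) : WkTest D (fun y => - g y) := by
  have := h.smul' (-1)
  simpa using this

theorem WkTest.lap' {φ : ℝ × ℝ → ℝ} (h : WkTest D φ) (hs : ContDiff ℝ ∞ φ) : WkTest D (lap2 φ) :=
  ⟨(wkg_lap_smooth hs).continuous, wkg_lap_compact h.comp, (wkg_lap_tsupport φ).trans h.sub⟩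

theorem wk_tsupport_of_ball {g : ℝ × ℝ → ℝ} {z : ℝ × ℝ} {r : ℝ} (h0 : ∀ y, y ∉ wkBall z r → g y = 0) : tsupport g ⊆ wkBall z r :=
  closure_minimal (fun y hy => by
    by_contra hn
    exact hy (h0 y hn)) (wk_ball_closed z r)

theorem wk_zero_of_tsupport {g : ℝ × ℝ → ℝ} {A : Set (ℝ × ℝ)} (h : tsupport g ⊆ A) : ∀ y, y ∉ A → g y = 0 := fun _ hy =>
  image_eq_zero_of_notMem_tsupport fun hc => hy (h hc)

theorem wk_test_of_ball {g : ℝ × ℝ → ℝ} {z : ℝ × ℝ} {r : ℝ} (hr : 0 ≤ r) (hg : Continuous g) (h0 : ∀ y, y ∉ wkBall z r → g y = 0)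
    (hD : wkBall z r ⊆ D) : WkTest D g :=
  ⟨hg, HasCompactSupport.of_support_subset_isCompact (wk_ball_compact z hr) ((subset_tsupport g).trans (wk_tsupport_of_ball h0)),
    (wk_tsupport_of_ball h0).trans hD⟩

theorem WkTest.bound {g : ℝ × ℝ → ℝ} (h : WkTest D g) : ∃ M : ℝ, 0 ≤ M ∧ ∀ y, |g y| ≤ M := wkg_bdd h.cont h.comp

theorem WkTest.integrable {g : ℝ × ℝ → ℝ} (h : WkTest D g) : Integrable g := h.cont.integrable_of_hasCompactSupport h.comp

/-! ### 2. multilinearity -/

theorem WkData.zero (W : WkData D v T) {s : Multiset (ℝ × ℝ → ℝ)} (hs : ∀ k ∈ s, WkTest D k) : T ((fun _ => (0 : ℝ)) ::ₘ s) = 0 := by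
  have := W.smul 0 (fun _ => (0 : ℝ)) s (WkTest.zero' D) hs
  simpa using this

theorem WkData.zero_of (W : WkData D v T) {g : ℝ × ℝ → ℝ} (hg : ∀ y, g y = 0) {s : Multiset (ℝ × ℝ → ℝ)} (hs : ∀ k ∈ s, WkTest D k) :
    T (g ::ₘ s) = 0 := by
  have : g = fun _ => (0 : ℝ) := funext hg
  rw [this]; exact W.zero hs

theorem WkData.neg (W : WkData D v T) {g : ℝ × ℝ → ℝ} {s : Multiset (ℝ × ℝ → ℝ)} (h : WkTest D g) (hs : ∀ k ∈ s, WkTest D k) :
    T ((fun y => - g y) ::ₘ s) = - T (g ::ₘ s) := by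
  have := W.smul (-1) g s h hs
  simpa using this

theorem WkData.sub (W : WkData D v T) {g g' : ℝ × ℝ → ℝ} {s : Multiset (ℝ × ℝ → ℝ)} (h : WkTest D g) (h' : WkTest D g')
    (hs : ∀ k ∈ s, WkTest D k) : T ((fun y => g y - g' y) ::ₘ s) = T (g ::ₘ s) - T (g' ::ₘ s) := by
  have e : (fun y => g y - g' y) = fun y => g y + (fun y => - g' y) y := by funext y; ring
  rw [e, W.add _ _ s h h'.neg' hs, W.neg h' hs]
  ring

/-! ### 3. sizes -/

/-- `g` is a test whose `2j`-th moment is at most `B^(2j)` -/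
def WkSz (D : Set (ℝ × ℝ)) (T : Multiset (ℝ × ℝ → ℝ) → ℝ) (j : ℕ) (g : ℝ × ℝ → ℝ) (B : ℝ) : Prop :=
  WkTest D g ∧ 0 ≤ B ∧ T (Multiset.replicate (2 * j) g) ≤ B ^ (2 * j)

theorem WkSz.mono {j : ℕ} {g : ℝ × ℝ → ℝ} {B B' : ℝ} (h : WkSz D T j g B) (hB : B ≤ B') : WkSz D T j g B' :=
  ⟨h.1, h.2.1.trans hB, h.2.2.trans (pow_le_pow_left₀ h.2.1 hB _)⟩

theorem WkData.T_nil_le (W : WkData D v T) : T 0 ≤ 1 := by
  have := W.hol 0 (by simp)
  simp only [Multiset.map_zero, Multiset.prod_zero] at this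
  exact (le_abs_self _).trans this

/-- Hoelder in terms of sizes -/
theorem WkData.bd (W : WkData D v T) (s : Multiset ((ℝ × ℝ → ℝ) × ℝ)) (h : ∀ p ∈ s, WkSz D T (Multiset.card s) p.1 p.2) :
    |T (s.map Prod.fst)| ≤ (s.map Prod.snd).prod := W.hol s h

/-- (A0) as a size -/
theorem WkData.sz_fix (W : WkData D v T) (j : ℕ) {K : Set (ℝ × ℝ)} (hK : IsCompact K) (hKD : K ⊆ D) : ∃ C : ℝ, 0 < C ∧
    ∀ (M : ℝ) (g : ℝ × ℝ → ℝ), WkTest D g → (∀ y, |g y| ≤ M) → (∀ y, y ∉ K → g y = 0) → WkSz D T j g (C * M) := by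
  obtain ⟨C, hC, h⟩ := W.mom_fix j K hK hKD
  refine ⟨max C 1, lt_of_lt_of_le one_pos (le_max_right _ _), fun M g hg hM h0 => ?_⟩
  have hM0 : 0 ≤ M := (abs_nonneg _).trans (hM 0)
  have h1 : (1 : ℝ) ≤ max C 1 := le_max_right _ _
  refine ⟨hg, by positivity, ?_⟩
  rcases Nat.eq_zero_or_pos j with rfl | hj
  · simpa using W.T_nil_le
  · refine (h M g hg hM h0).trans ?_
    rw [mul_pow]
    refine mul_le_mul_of_nonneg_right ?_ (by positivity)
    calc C ≤ max C 1 := le_max_left _ _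
      _ = (max C 1) ^ 1 := (pow_one _).symm
      _ ≤ (max C 1) ^ (2 * j) := pow_le_pow_right₀ h1 (by omega)

/-- the logarithmic loss -/
noncomputable def wkL (r : ℝ) : ℝ := 1 + Real.log (1 / r)

theorem wk_L_one_le {r : ℝ} (h0 : 0 < r) (h1 : r ≤ 1) : 1 ≤ wkL r := by
  unfold wkL
  have : 0 ≤ Real.log (1 / r) := Real.log_nonneg (by rw [le_div_iff₀ h0]; linarith)
  linarith

theorem wk_L_anti {r r' : ℝ} (h0 : 0 < r) (h : r ≤ r') : wkL r' ≤ wkL r := by
  unfold wkL
  have : Real.log (1 / r') ≤ Real.log (1 / r) :=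
    Real.log_le_log (by have := lt_of_lt_of_le h0 h; positivity) (one_div_le_one_div_of_le h0 h)
  linarith

/-- (A1) as a size -/
theorem WkData.sz_small (W : WkData D v T) (j : ℕ) {K : Set (ℝ × ℝ)} (hK : IsCompact K) (hKD : K ⊆ D) : ∃ C r0 : ℝ, 0 < C ∧ 0 < r0 ∧ r0 ≤ 1 ∧
    ∀ z ∈ K, ∀ r : ℝ, 0 < r → r ≤ r0 → ∀ (M : ℝ) (g : ℝ × ℝ → ℝ), WkTest D g → (∀ y, |g y| ≤ M) → (∀ y, y ∉ wkBall z r → g y = 0) →
      WkSz D T j g (C * (M * r ^ 2) * wkL r) := by
  obtain ⟨C, r0, hC, hr0, hr1, h⟩ := W.mom_small j K hK hKD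
  refine ⟨max C 1, r0, lt_of_lt_of_le one_pos (le_max_right _ _), hr0, hr1, fun z hz r hr hrr M g hg hM h0 => ?_⟩
  have hM0 : 0 ≤ M := (abs_nonneg _).trans (hM 0)
  have h1 : (1 : ℝ) ≤ max C 1 := le_max_right _ _
  have hL : 1 ≤ wkL r := wk_L_one_le hr (hrr.trans hr1)
  have hL0 : 0 ≤ wkL r := zero_le_one.trans hL
  refine ⟨hg, by positivity, ?_⟩
  rcases Nat.eq_zero_or_pos j with rfl | hj
  · simpa using W.T_nil_le
  · refine (h z hz r hr hrr M g hg hM h0).trans ?_
    have a1 : C ≤ (max C 1) ^ (2 * j) :=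
      calc C ≤ max C 1 := le_max_left _ _
        _ = (max C 1) ^ 1 := (pow_one _).symm
        _ ≤ (max C 1) ^ (2 * j) := pow_le_pow_right₀ h1 (by omega)
    have a2 : (1 + Real.log (1 / r)) ^ j ≤ wkL r ^ (2 * j) := pow_le_pow_right₀ hL (by omega)
    have a3 : 0 ≤ (M * r ^ 2) ^ (2 * j) := by positivity
    calc C * (M * r ^ 2) ^ (2 * j) * (1 + Real.log (1 / r)) ^ j
        ≤ (max C 1) ^ (2 * j) * (M * r ^ 2) ^ (2 * j) * wkL r ^ (2 * j) := by
          refine mul_le_mul (mul_le_mul_of_nonneg_right a1 a3) a2 ?_ (by positivity)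
          exact pow_nonneg hL0 _
      _ = _ := by rw [mul_pow _ (wkL r), mul_pow (max C 1)]

/-! ### 4. peeling -/

theorem wk_mem_peel {a b : ℝ × ℝ → ℝ} (ha : WkTest D a) (hb : WkTest D b) {s : Multiset (ℝ × ℝ → ℝ)}
    (hs : ∀ k ∈ s, WkTest D k) (l i : ℕ) :
    ∀ k ∈ Multiset.replicate l b + Multiset.replicate i (fun y => a y + b y) + s, WkTest D k := by
  intro k hk
  rw [Multiset.mem_add, Multiset.mem_add] at hk
  rcases hk with (hk | hk) | hk
  · rw [Multiset.eq_of_mem_replicate hk]; exact hb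
  · rw [Multiset.eq_of_mem_replicate hk]; exact ha.add' hb
  · exact hs k hk

/-- one step: expand one slot `a + b` -/
theorem WkData.peel_step (W : WkData D v T) {a b : ℝ × ℝ → ℝ} (ha : WkTest D a) (hb : WkTest D b) {s : Multiset (ℝ × ℝ → ℝ)}
    (hs : ∀ k ∈ s, WkTest D k) (l i : ℕ) :
    T (Multiset.replicate l b + Multiset.replicate (i + 1) (fun y => a y + b y) + s)
      = T (a ::ₘ (Multiset.replicate l b + Multiset.replicate i (fun y => a y + b y) + s))
        + T (Multiset.replicate (l + 1) b + Multiset.replicate i (fun y => a y + b y) + s) := by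
  have e1 : Multiset.replicate l b + Multiset.replicate (i + 1) (fun y => a y + b y) + s
      = (fun y => a y + b y) ::ₘ (Multiset.replicate l b + Multiset.replicate i (fun y => a y + b y) + s) := by
    rw [Multiset.replicate_succ, Multiset.add_cons, Multiset.cons_add]
  have e2 : Multiset.replicate (l + 1) b + Multiset.replicate i (fun y => a y + b y) + s
      = b ::ₘ (Multiset.replicate l b + Multiset.replicate i (fun y => a y + b y) + s) := by
    rw [Multiset.replicate_succ, Multiset.cons_add, Multiset.cons_add]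
  rw [e1, e2]
  exact W.add a b _ ha hb (wk_mem_peel ha hb hs l i)

/-- first order peeling, general position -/
theorem WkData.peel1g (W : WkData D v T) {a b : ℝ × ℝ → ℝ} (ha : WkTest D a) (hb : WkTest D b) {s : Multiset (ℝ × ℝ → ℝ)}
    (hs : ∀ k ∈ s, WkTest D k) (n : ℕ) {B : ℝ}
    (hB : ∀ l i : ℕ, l + i + 1 = n → |T (a ::ₘ (Multiset.replicate l b + Multiset.replicate i (fun y => a y + b y) + s))| ≤ B) :
    ∀ i l : ℕ, l + i = n →
      |T (Multiset.replicate l b + Multiset.replicate i (fun y => a y + b y) + s) - T (Multiset.replicate n b + s)| ≤ i * B := by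
  intro i
  induction i with
  | zero =>
    intro l hl
    have : l = n := by omega
    subst this
    simp
  | succ i ih =>
    intro l hl
    rw [W.peel_step ha hb hs l i]
    have h1 := hB l i (by omega)
    have h2 := ih (l + 1) (by omega)
    have h3 := abs_add_le (T (a ::ₘ (Multiset.replicate l b + Multiset.replicate i (fun y => a y + b y) + s)))
      (T (Multiset.replicate (l + 1) b + Multiset.replicate i (fun y => a y + b y) + s) - T (Multiset.replicate n b + s))
    rw [← add_sub_assoc] at h3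
    push_cast
    linarith

/-- first order peeling: replace `a + b` by `b` in `n` slots -/
theorem WkData.peel1 (W : WkData D v T) {a b : ℝ × ℝ → ℝ} (ha : WkTest D a) (hb : WkTest D b) {s : Multiset (ℝ × ℝ → ℝ)}
    (hs : ∀ k ∈ s, WkTest D k) (n : ℕ) {B : ℝ}
    (hB : ∀ l i : ℕ, l + i + 1 = n → |T (a ::ₘ (Multiset.replicate l b + Multiset.replicate i (fun y => a y + b y) + s))| ≤ B) :
    |T (Multiset.replicate n (fun y => a y + b y) + s) - T (Multiset.replicate n b + s)| ≤ n * B := by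
  have := W.peel1g ha hb hs n hB n 0 (by omega)
  simpa using this

/-- second order peeling -/
theorem WkData.peel2 (W : WkData D v T) {a b : ℝ × ℝ → ℝ} (ha : WkTest D a) (hb : WkTest D b) {s : Multiset (ℝ × ℝ → ℝ)}
    (hs : ∀ k ∈ s, WkTest D k) (n : ℕ) {B : ℝ} (hB0 : 0 ≤ B)
    (hB : ∀ l i : ℕ, l + i + 1 = n → |T (a ::ₘ a ::ₘ (Multiset.replicate l b + Multiset.replicate i (fun y => a y + b y) + s))| ≤ B) :
    |T (Multiset.replicate (n + 1) (fun y => a y + b y) + s) - T (Multiset.replicate (n + 1) b + s)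
      - (n + 1) * T (a ::ₘ (Multiset.replicate n b + s))| ≤ (n + 1) * (n * B) := by
  have hs' : ∀ k ∈ a ::ₘ s, WkTest D k := by
    intro k hk
    rcases Multiset.mem_cons.1 hk with rfl | hk
    · exact ha
    · exact hs k hk
  have key : ∀ l i : ℕ, l + i = n →
      |T (a ::ₘ (Multiset.replicate l b + Multiset.replicate i (fun y => a y + b y) + s)) - T (a ::ₘ (Multiset.replicate n b + s))| ≤ n * B := by
    intro l i hl
    have h := W.peel1g ha hb hs' n (B := B) (fun l' i' h' => by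
      have := hB l' i' h'
      rwa [Multiset.add_cons]) i l hl
    rw [Multiset.add_cons, Multiset.add_cons] at h
    refine h.trans (mul_le_mul_of_nonneg_right ?_ hB0)
    exact_mod_cast (by omega : i ≤ n)
  have main : ∀ i l : ℕ, l + i = n + 1 →
      |T (Multiset.replicate l b + Multiset.replicate i (fun y => a y + b y) + s) - T (Multiset.replicate (n + 1) b + s)
        - i * T (a ::ₘ (Multiset.replicate n b + s))| ≤ i * (n * B) := by
    intro i
    induction i with
    | zero =>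
      intro l hl
      have : l = n + 1 := by omega
      subst this
      simp
    | succ i ih =>
      intro l hl
      rw [W.peel_step ha hb hs l i]
      have h1 := key l i (by omega)
      have h2 := ih (l + 1) (by omega)
      have h3 := abs_add_le (T (a ::ₘ (Multiset.replicate l b + Multiset.replicate i (fun y => a y + b y) + s)) - T (a ::ₘ (Multiset.replicate n b + s)))
        (T (Multiset.replicate (l + 1) b + Multiset.replicate i (fun y => a y + b y) + s) - T (Multiset.replicate (n + 1) b + s)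
          - i * T (a ::ₘ (Multiset.replicate n b + s)))
      push_cast
      have e : T (a ::ₘ (Multiset.replicate l b + Multiset.replicate i (fun y => a y + b y) + s)) +
            T (Multiset.replicate (l + 1) b + Multiset.replicate i (fun y => a y + b y) + s) - T (Multiset.replicate (n + 1) b + s)
            - ((i : ℝ) + 1) * T (a ::ₘ (Multiset.replicate n b + s))
          = T (a ::ₘ (Multiset.replicate l b + Multiset.replicate i (fun y => a y + b y) + s)) - T (a ::ₘ (Multiset.replicate n b + s))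
            + (T (Multiset.replicate (l + 1) b + Multiset.replicate i (fun y => a y + b y) + s) - T (Multiset.replicate (n + 1) b + s)
              - i * T (a ::ₘ (Multiset.replicate n b + s))) := by ring
      rw [e]
      linarith
  have := main (n + 1) 0 (by omega)
  simpa using this

/-! ### 5. localisation -/

/-- **Localisation principle** (no partition of unity): induction on a finite cover by sup balls, `φ = φ (1 - ψ) + φ ψ`, `ψ : ContDiffBump`.
`C` = the class of functions under consideration, stable under products with smooth functions. -/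
theorem wk_localize (C P : (ℝ × ℝ → ℝ) → Prop) (hCmul : ∀ φ ψ, C φ → ContDiff ℝ ∞ ψ → C (fun y => φ y * ψ y))
    (hP0 : ∀ φ, (∀ y, φ y = 0) → P φ) (hPadd : ∀ φ ψ, C φ → C ψ → P φ → P ψ → P (fun y => φ y + ψ y))
    {φ : ℝ × ℝ → ℝ} (hφ : C φ) (hc : HasCompactSupport φ) {d : ℝ} (hd : 0 < d)
    (hloc : ∀ z ∈ tsupport φ, ∀ ψ, C ψ → tsupport ψ ⊆ wkBall z d → P ψ) : P φ := by
  obtain ⟨t, htK, hcov⟩ := hc.isCompact.elim_nhds_subcover (fun z => Metric.ball z (d / 4))
    (fun z _ => Metric.ball_mem_nhds z (by positivity))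
  have main : ∀ t' : Finset (ℝ × ℝ), (∀ z ∈ t', z ∈ tsupport φ) → ∀ φ', C φ' →
      (∀ y, φ' y ≠ 0 → y ∈ ⋃ z ∈ t', Metric.ball z (d / 4)) → P φ' := by
    intro t'
    induction t' using Finset.induction_on with
    | empty =>
      intro _ φ' _ h
      refine hP0 φ' fun y => ?_
      by_contra hy
      simpa using h y hy
    | insert z t'' hz ih =>
      intro hK φ' hφ' h
      let ψ : ContDiffBump z := ⟨d / 4, d / 2, by positivity, by linarith⟩
      have hψs : ContDiff ℝ ∞ (ψ : ℝ × ℝ → ℝ) := ψ.contDiff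
      have h1 : P (fun y => φ' y * ψ y) := by
        refine hloc z (hK z (Finset.mem_insert_self _ _)) _ (hCmul _ _ hφ' hψs) ?_
        refine tsupport_mul_subset_right.trans ?_
        rw [ψ.tsupport_eq]
        intro y hy
        have := wk_sq_le_of_dist (Metric.mem_closedBall.1 hy)
        show sqDist y z ≤ d ^ 2
        have e : (2 * (d / 2)) = d := by ring
        have e' : ψ.rOut = d / 2 := rfl
        rw [e', e] at this
        exact this
      have h2 : P (fun y => φ' y * (1 - ψ y)) := by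
        refine ih (fun w hw => hK w (Finset.mem_insert_of_mem hw)) _ (hCmul _ _ hφ' (contDiff_const.sub hψs)) fun y hy => ?_
        have hy1 : φ' y ≠ 0 := left_ne_zero_of_mul hy
        have hy2 : 1 - ψ y ≠ 0 := right_ne_zero_of_mul hy
        have := h y hy1
        rw [Finset.set_biUnion_insert] at this
        rcases this with hb | hb
        · exfalso
          apply hy2
          have : ψ y = 1 := ψ.one_of_mem_closedBall (Metric.ball_subset_closedBall hb)
          rw [this, sub_self]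
        · exact hb
      have h3 := hPadd _ _ (hCmul _ _ hφ' (contDiff_const.sub hψs)) (hCmul _ _ hφ' hψs) h2 h1
      have e : (fun y => φ' y * (1 - ψ y) + φ' y * ψ y) = φ' := by funext y; ring
      rwa [e] at h3
  exact main t htK φ hφ fun y hy => hcov (subset_tsupport φ hy)

/-! ### 6. room and gaps -/

/-- uniform room around a compact of an open set, with a compact neighbourhood -/
theorem wk_room {K : Set (ℝ × ℝ)} (hD : IsOpen D) (hK : IsCompact K) (hKD : K ⊆ D) :
    ∃ d : ℝ, 0 < d ∧ IsCompact (Metric.cthickening d K) ∧ Metric.cthickening d K ⊆ D ∧ ∀ z ∈ K, wkBall z d ⊆ Metric.cthickening d K := by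
  obtain ⟨d, hd, h⟩ := hK.exists_cthickening_subset_open hD hKD
  exact ⟨d, hd, hK.cthickening, h, fun z hz => (wk_ball_subset z hd.le).trans (Metric.closedBall_subset_cthickening hz d)⟩

/-- uniform gap between a compact and a disjoint closed set -/
theorem wk_gap {K A : Set (ℝ × ℝ)} (hK : IsCompact K) (hA : IsClosed A) (hd : Disjoint K A) :
    ∃ d : ℝ, 0 < d ∧ ∀ z ∈ K, ∀ c ∈ A, d ^ 2 < sqDist c z := by
  obtain ⟨d, hd0, h⟩ := hK.exists_cthickening_subset_open hA.isOpen_compl (disjoint_left.1 hd)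
  refine ⟨d, hd0, fun z hz c hc => ?_⟩
  by_contra hn
  exact h (Metric.closedBall_subset_cthickening hz d (wk_ball_subset z hd0.le (not_lt.1 hn))) hc

/-- a common positive parameter for the finitely many members of a multiset -/
theorem wk_multiset_unif {α : Type*} (s : Multiset α) (Q : α → ℝ → Prop) (hmono : ∀ g d d', 0 < d' → d' ≤ d → Q g d → Q g d')
    (h : ∀ g ∈ s, ∃ d : ℝ, 0 < d ∧ Q g d) : ∃ d : ℝ, 0 < d ∧ ∀ g ∈ s, Q g d := by
  induction s using Multiset.induction_on with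
  | empty => exact ⟨1, one_pos, by simp⟩
  | cons a s ih =>
    obtain ⟨d1, h1, q1⟩ := ih fun g hg => h g (Multiset.mem_cons_of_mem hg)
    obtain ⟨d2, h2, q2⟩ := h a (Multiset.mem_cons_self a s)
    refine ⟨min d1 d2, lt_min h1 h2, fun g hg => ?_⟩
    rcases Multiset.mem_cons.1 hg with rfl | hg
    · exact hmono _ _ _ (lt_min h1 h2) (min_le_right _ _) q2
    · exact hmono _ _ _ (lt_min h1 h2) (min_le_left _ _) (q1 g hg)

/-! ### 7. global weak harmonicity -/

/-- (A2) with a small insertion and arbitrary far spectators: the spectators are localised one at a time -/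
theorem WkData.harm_far (W : WkData D v T) {z0 : ℝ × ℝ} {ρ rs : ℝ} {q : ℕ} (hρ : 0 < ρ) (hball : wkBall z0 ρ ⊆ D) (hrs : 0 < rs)
    (hrs' : rs < ρ / (4000 * ((q : ℝ) + 1))) {φ : ℝ × ℝ → ℝ} (hφ : ContDiff ℝ ∞ φ) (hsupp : tsupport φ ⊆ wkBall z0 (ρ / 2000))
    (sb : Multiset (ℝ × ℝ → ℝ)) :
    (∀ g ∈ sb, WkTest D g ∧ ∀ c ∈ tsupport g, (2 * ρ) ^ 2 ≤ sqDist c z0 ∧ wkBall c rs ⊆ D) →
    ∀ ss : Multiset (ℝ × ℝ → ℝ), (∀ g ∈ ss, WkTest D g ∧ ∃ (c : ℝ × ℝ) (r : ℝ), 0 < r ∧ r < ρ / (4000 * ((q : ℝ) + 1)) ∧ wkBall c r ⊆ D ∧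
      (2 * ρ) ^ 2 ≤ sqDist c z0 ∧ ∀ y, y ∉ wkBall c r → g y = 0) →
    Multiset.card sb + Multiset.card ss = q → T (lap2 φ ::ₘ (ss + sb)) = 0 := by
  have hφt : WkTest D φ := by
    have h1 : wkBall z0 (ρ / 2000) ⊆ wkBall z0 ρ := wk_ball_mono z0 (by positivity) (by linarith)
    exact ⟨hφ.continuous, HasCompactSupport.of_support_subset_isCompact (wk_ball_compact z0 (by positivity : (0:ℝ) ≤ ρ / 2000))
      ((subset_tsupport φ).trans hsupp), hsupp.trans (h1.trans hball)⟩
  have hlt : WkTest D (lap2 φ) := hφt.lap' hφ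
  induction sb using Multiset.induction_on with
  | empty =>
    intro _ ss hss hcard
    rw [add_zero]
    have hq : Multiset.card ss = q := by simpa using hcard
    exact W.harm z0 ρ φ ss hρ hball hφ hsupp (by rw [hq]; exact hss)
  | cons g sb ih =>
    intro hsb ss hss hcard
    have hg := hsb g (Multiset.mem_cons_self g sb)
    have hsb' : ∀ k ∈ sb, WkTest D k ∧ ∀ c ∈ tsupport k, (2 * ρ) ^ 2 ≤ sqDist c z0 ∧ wkBall c rs ⊆ D :=
      fun k hk => hsb k (Multiset.mem_cons_of_mem hk)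
    have hrest : ∀ k ∈ lap2 φ ::ₘ (ss + sb), WkTest D k := by
      intro k hk
      rcases Multiset.mem_cons.1 hk with rfl | hk
      · exact hlt
      · rcases Multiset.mem_add.1 hk with hk | hk
        · exact (hss k hk).1
        · exact (hsb' k hk).1
    have hre : ∀ g' : ℝ × ℝ → ℝ, lap2 φ ::ₘ (ss + g' ::ₘ sb) = g' ::ₘ (lap2 φ ::ₘ (ss + sb)) := by
      intro g'
      rw [Multiset.add_cons, Multiset.cons_swap]
    refine wk_localize (fun g' => WkTest D g' ∧ tsupport g' ⊆ tsupport g) (fun g' => T (lap2 φ ::ₘ (ss + g' ::ₘ sb)) = 0)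
      (fun a ψ ha hψ => ⟨ha.1.mul_right' hψ.continuous, tsupport_mul_subset_left.trans ha.2⟩)
      (fun a ha => by rw [hre]; exact W.zero_of ha hrest)
      (fun a b ha hb pa pb => by
        rw [hre] at pa pb ⊢
        rw [W.add a b _ ha.1 hb.1 hrest, pa, pb, add_zero])
      ⟨hg.1, subset_rfl⟩ hg.1.comp hrs ?_
    intro c hc ψ hψ hψs
    have e : ss + ψ ::ₘ sb = (ψ ::ₘ ss) + sb := by rw [Multiset.add_cons, Multiset.cons_add]
    show T (lap2 φ ::ₘ (ss + ψ ::ₘ sb)) = 0
    rw [e]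
    refine ih hsb' (ψ ::ₘ ss) ?_ ?_
    · intro k hk
      rcases Multiset.mem_cons.1 hk with rfl | hk
      · exact ⟨hψ.1, c, rs, hrs, hrs', (hg.2 c hc).2, (hg.2 c hc).1, wk_zero_of_tsupport hψs⟩
      · exact hss k hk
    · rw [Multiset.card_cons] at hcard ⊢
      omega

/-- **(A2) global.** -/
theorem WkData.harm_glob (W : WkData D v T) (hD : IsOpen D) {φ : ℝ × ℝ → ℝ} (hφ : ContDiff ℝ ∞ φ) (hc : HasCompactSupport φ)
    (hsub : tsupport φ ⊆ D) {s : Multiset (ℝ × ℝ → ℝ)} (hs : ∀ g ∈ s, WkTest D g ∧ Disjoint (tsupport g) (tsupport φ)) :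
    T (lap2 φ ::ₘ s) = 0 := by
  obtain ⟨d2, hd2, h2⟩ := wk_multiset_unif s (fun g d => ∀ z ∈ tsupport φ, ∀ c ∈ tsupport g, d ^ 2 < sqDist c z)
    (fun g d d' h0 hle h z hz c hc => lt_of_le_of_lt (pow_le_pow_left₀ h0.le hle 2) (h z hz c hc))
    (fun g hg => wk_gap hc.isCompact (isClosed_tsupport g) (hs g hg).2.symm)
  obtain ⟨d3, hd3, h3⟩ := wk_multiset_unif s (fun g d => ∀ c ∈ tsupport g, wkBall c d ⊆ D)
    (fun g d d' h0 hle h c hc => (wk_ball_mono c h0.le hle).trans (h c hc))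
    (fun g hg => by
      obtain ⟨d, hd, -, hsubD, h⟩ := wk_room hD (hs g hg).1.comp.isCompact (hs g hg).1.sub
      exact ⟨d, hd, fun c hc => (h c hc).trans hsubD⟩)
  obtain ⟨d1', hd1', hd1D⟩ : ∃ d : ℝ, 0 < d ∧ ∀ z ∈ tsupport φ, wkBall z d ⊆ D := by
    obtain ⟨d, hd, -, hsubD, h⟩ := wk_room hD hc.isCompact hsub
    exact ⟨d, hd, fun c hc => (h c hc).trans hsubD⟩
  set ρ : ℝ := min d1' (d2 / 2) with hρdef
  have hρ : 0 < ρ := lt_min hd1' (by positivity)
  set q : ℕ := Multiset.card s with hq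
  have hq0 : (0 : ℝ) < 4000 * ((q : ℝ) + 1) := by positivity
  set rs : ℝ := min d3 (ρ / (4000 * ((q : ℝ) + 1)) / 2) with hrsdef
  have hrs : 0 < rs := lt_min hd3 (by positivity)
  have hrs' : rs < ρ / (4000 * ((q : ℝ) + 1)) :=
    lt_of_le_of_lt (min_le_right _ _) (half_lt_self (by positivity))
  have hst : ∀ k ∈ s, WkTest D k := fun k hk => (hs k hk).1
  refine wk_localize (fun φ' => ContDiff ℝ ∞ φ' ∧ WkTest D φ') (fun φ' => T (lap2 φ' ::ₘ s) = 0)
    (fun a ψ ha hψ => ⟨ha.1.mul hψ, ha.2.mul_right' hψ.continuous⟩)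
    (fun a ha => by
      have : a = fun _ => (0 : ℝ) := funext ha
      rw [this, wkg_lap_zero]
      exact W.zero hst)
    (fun a b ha hb pa pb => by
      have e : lap2 (fun y => a y + b y) = fun y => lap2 a y + lap2 b y := by
        funext y
        exact wkg_lap_add (ha.1.of_le (WithTop.coe_le_coe.2 le_top)).contDiffAt (hb.1.of_le (WithTop.coe_le_coe.2 le_top)).contDiffAt
      rw [e, W.add _ _ s (ha.2.lap' ha.1) (hb.2.lap' hb.1) hst, pa, pb, add_zero])
    ⟨hφ, hφ.continuous, hc, hsub⟩ hc (d := ρ / 2000) (by positivity) ?_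
  intro z0 hz0 ψ hψ hψs
  have := W.harm_far (z0 := z0) (q := q) hρ ((wk_ball_mono z0 hρ.le (min_le_left _ _)).trans (hd1D z0 hz0)) hrs hrs' hψ.1 hψs s
    (fun g hg => ⟨hst g hg, fun c hc => ⟨?_, (wk_ball_mono c hrs.le (min_le_left _ _)).trans (h3 g hg c hc)⟩⟩) 0 (by simp) (by simp [hq])
  · simpa using this
  · have a1 := h2 g hg z0 hz0 c hc
    have a2 : 2 * ρ ≤ d2 := by
      have := min_le_right d1' (d2 / 2)
      linarith
    exact (pow_le_pow_left₀ (by positivity) a2 2).trans a1.le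

end Claimed.Agent.R291
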