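import Mathlib
import Claimed.Agent.R291.Defs.Frozen

/-!
# Row 291 (S0539), Wick/Bump : THE EXPLICIT RADIAL BUMP FAMILY (step W of BOX:WICK-ID, design helper128)      (owner helper175; prefix `wk_`, defs `wk*`)      complete

Mathlib + the frozen `sqDist`, `lap2` only.      No parametric integral, no polar coordinates.
* `wkK` profile `k ≥ 0` (smooth, positive exactly on `(0,1)`), `wkKap` its primitive (zero on `[1,∞)`), `wkM = (t k)'`
* `wkBall z h` closed EUCLIDEAN disk `{x | sqDist x z ≤ h²}` (compact; `wk_ball_add` triangle inequality; `wk_ball_subset` inside the sup-metric ball)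
* `wk_lap_radial`   `lap2 (F (a |x-z|²)) = 4 a (F' + τ F'')(τ)`, `τ = a |x-z|²`
* `wkRa z a` bump in the parameter `a = 1/h²`, `wkPa z a` its potential, `wkDa z a`:
      **`wk_Pa_lap : lap2 (wkPa z a) = wkDa z a`**,  **`wk_Ra_hasDerivAt : ∂_a wkRa = wkDa`**,
      **`wk_Ra_taylor`** : `|wkRa z a' x - wkRa z a x - (a'-a) wkDa z a x| ≤ (N/a₀) (a'-a)²` UNIFORMLY in `z, x`, `a, a' ≥ a₀`
* **`wkRho z h`** = THE unit radial bump of radius `h` (smooth, `≥ 0`, support in `wkBall z h`, integral `1`, positive on the punctured open disk, symmetric in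
  (centre, point), Lipschitz in the centre uniformly in the point, `wk_rho_scale`)
-/

set_option autoImplicit false

namespace Claimed.Agent.R291

open MeasureTheory Filter Topology Set
open scoped ContDiff
open Claims Claims.C0467

/-! ### the one dimensional profiles -/

/-- the profile `k ≥ 0`, smooth, positive exactly on `(0,1)` -/
noncomputable def wkK (t : ℝ) : ℝ := expNegInvGlue t * expNegInvGlue (1 - t)

theorem wk_K_contDiff : ContDiff ℝ ∞ wkK :=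
  expNegInvGlue.contDiff.mul (expNegInvGlue.contDiff.comp (contDiff_const.sub contDiff_id))

theorem wk_K_nonneg (t : ℝ) : 0 ≤ wkK t := mul_nonneg (expNegInvGlue.nonneg _) (expNegInvGlue.nonneg _)

theorem wk_K_pos {t : ℝ} (h0 : 0 < t) (h1 : t < 1) : 0 < wkK t :=
  mul_pos (expNegInvGlue.pos_of_pos h0) (expNegInvGlue.pos_of_pos (by linarith))

theorem wk_K_zero_of_nonpos {t : ℝ} (h : t ≤ 0) : wkK t = 0 := by
  simp [wkK, expNegInvGlue.zero_of_nonpos h]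

theorem wk_K_zero_of_one_le {t : ℝ} (h : 1 ≤ t) : wkK t = 0 := by
  simp [wkK, expNegInvGlue.zero_of_nonpos (by linarith : 1 - t ≤ 0)]

theorem wk_K_continuous : Continuous wkK := wk_K_contDiff.continuous

/-- the primitive of `k` which vanishes on `[1, ∞)` -/
noncomputable def wkKap (t : ℝ) : ℝ := ∫ s in (1 : ℝ)..t, wkK s

theorem wk_Kap_hasDerivAt (t : ℝ) : HasDerivAt wkKap (wkK t) t :=
  intervalIntegral.integral_hasDerivAt_right (wk_K_continuous.intervalIntegrable _ _)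
    (wk_K_continuous.stronglyMeasurableAtFilter _ _) wk_K_continuous.continuousAt

theorem wk_Kap_deriv : deriv wkKap = wkK := funext fun t => (wk_Kap_hasDerivAt t).deriv

theorem wk_Kap_contDiff : ContDiff ℝ ∞ wkKap := by
  rw [contDiff_infty_iff_deriv]
  exact ⟨fun t => (wk_Kap_hasDerivAt t).differentiableAt, by rw [wk_Kap_deriv]; exact wk_K_contDiff⟩

theorem wk_Kap_zero {t : ℝ} (h : 1 ≤ t) : wkKap t = 0 := by
  unfold wkKap
  rw [intervalIntegral.integral_congr (g := fun _ => (0 : ℝ))]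
  · simp
  · intro s hs
    rw [uIcc_of_le h] at hs
    exact wk_K_zero_of_one_le hs.1

/-- `k'` -/
noncomputable def wkK1 (t : ℝ) : ℝ := deriv wkK t

theorem wk_K_hasDerivAt (t : ℝ) : HasDerivAt wkK (wkK1 t) t :=
  (wk_K_contDiff.differentiable (by simp) t).hasDerivAt

theorem wk_K1_contDiff : ContDiff ℝ ∞ wkK1 := by
  have := (contDiff_infty_iff_deriv.1 wk_K_contDiff).2
  exact this

theorem wk_K1_zero {t : ℝ} (h : 1 < t) : wkK1 t = 0 := by
  have : wkK =ᶠ[𝓝 t] fun _ => 0 := by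
    filter_upwards [lt_mem_nhds h] with s hs
    exact wk_K_zero_of_one_le hs.le
  unfold wkK1
  rw [this.deriv_eq]; simp

theorem wk_K1_zero' {t : ℝ} (h : t < 0) : wkK1 t = 0 := by
  have : wkK =ᶠ[𝓝 t] fun _ => 0 := by
    filter_upwards [gt_mem_nhds h] with s hs
    exact wk_K_zero_of_nonpos hs.le
  unfold wkK1
  rw [this.deriv_eq]; simp

/-- `m = (t k)' = k + t k'` -/
noncomputable def wkM (t : ℝ) : ℝ := wkK t + t * wkK1 t

theorem wk_M_contDiff : ContDiff ℝ ∞ wkM := wk_K_contDiff.add (contDiff_id.mul wk_K1_contDiff)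

theorem wk_M_zero {t : ℝ} (h : 1 < t) : wkM t = 0 := by
  simp [wkM, wk_K_zero_of_one_le h.le, wk_K1_zero h]

theorem wk_M_zero' {t : ℝ} (h : t < 0) : wkM t = 0 := by
  simp [wkM, wk_K_zero_of_nonpos h.le, wk_K1_zero' h]

/-- `m'` -/
noncomputable def wkM1 (t : ℝ) : ℝ := deriv wkM t

theorem wk_M_hasDerivAt (t : ℝ) : HasDerivAt wkM (wkM1 t) t :=
  (wk_M_contDiff.differentiable (by simp) t).hasDerivAt

theorem wk_M1_continuous : Continuous wkM1 := by
  have := (contDiff_infty_iff_deriv.1 wk_M_contDiff).2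
  exact this.continuous

theorem wk_M1_zero {t : ℝ} (h : 1 < t) : wkM1 t = 0 := by
  have : wkM =ᶠ[𝓝 t] fun _ => 0 := by
    filter_upwards [lt_mem_nhds h] with s hs
    exact wk_M_zero hs
  unfold wkM1
  rw [this.deriv_eq]; simp

theorem wk_M1_zero' {t : ℝ} (h : t < 0) : wkM1 t = 0 := by
  have : wkM =ᶠ[𝓝 t] fun _ => 0 := by
    filter_upwards [gt_mem_nhds h] with s hs
    exact wk_M_zero' hs
  unfold wkM1
  rw [this.deriv_eq]; simp

/-- `t m'(t)` is bounded -/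
theorem wk_tM1_bdd : ∃ N : ℝ, 0 ≤ N ∧ ∀ t, |t * wkM1 t| ≤ N := by
  have hc : Continuous fun t => |t * wkM1 t| := (continuous_id.mul wk_M1_continuous).abs
  obtain ⟨x, -, hx⟩ := (isCompact_Icc (a := (0 : ℝ)) (b := 1)).exists_isMaxOn (nonempty_Icc.2 zero_le_one) hc.continuousOn
  refine ⟨|x * wkM1 x|, abs_nonneg _, fun t => ?_⟩
  by_cases h0 : t < 0
  · rw [wk_M1_zero' h0, mul_zero, abs_zero]; exact abs_nonneg _
  by_cases h1 : 1 < t
  · rw [wk_M1_zero h1, mul_zero, abs_zero]; exact abs_nonneg _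
  exact hx ⟨not_lt.1 h0, not_lt.1 h1⟩

/-! ### radial functions on `ℝ × ℝ` -/

theorem wk_sq_nonneg (x z : ℝ × ℝ) : 0 ≤ sqDist x z := add_nonneg (sq_nonneg _) (sq_nonneg _)

theorem wk_sq_contDiff (z : ℝ × ℝ) : ContDiff ℝ ∞ fun x : ℝ × ℝ => sqDist x z := by
  unfold sqDist
  fun_prop

theorem wk_sq_continuous (z : ℝ × ℝ) : Continuous fun x : ℝ × ℝ => sqDist x z := (wk_sq_contDiff z).continuous

theorem wk_sq_sub (x z : ℝ × ℝ) : sqDist (x - z) 0 = sqDist x z := by simp [sqDist]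

theorem wk_sq_smul (c : ℝ) (y : ℝ × ℝ) : sqDist (c • y) 0 = c ^ 2 * sqDist y 0 := by
  simp [sqDist]; ring

theorem wk_sq_comm (x z : ℝ × ℝ) : sqDist x z = sqDist z x := by simp [sqDist]; ring

/-- the closed Euclidean disk -/
def wkBall (z : ℝ × ℝ) (h : ℝ) : Set (ℝ × ℝ) := {x | sqDist x z ≤ h ^ 2}

theorem wk_ball_closed (z : ℝ × ℝ) (h : ℝ) : IsClosed (wkBall z h) := isClosed_le (wk_sq_continuous z) continuous_const

theorem wk_ball_subset (z : ℝ × ℝ) {h : ℝ} (hh : 0 ≤ h) : wkBall z h ⊆ Metric.closedBall z h := by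
  intro x hx
  have hx' : (x.1 - z.1) ^ 2 + (x.2 - z.2) ^ 2 ≤ h ^ 2 := hx
  rw [Metric.mem_closedBall, Prod.dist_eq, Real.dist_eq, Real.dist_eq]
  exact max_le (abs_le_of_sq_le_sq (by nlinarith [sq_nonneg (x.2 - z.2)]) hh)
    (abs_le_of_sq_le_sq (by nlinarith [sq_nonneg (x.1 - z.1)]) hh)

theorem wk_ball_compact (z : ℝ × ℝ) {h : ℝ} (hh : 0 ≤ h) : IsCompact (wkBall z h) :=
  (isCompact_closedBall z h).of_isClosed_subset (wk_ball_closed z h) (wk_ball_subset z hh)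

theorem wk_ball_mono (z : ℝ × ℝ) {h h' : ℝ} (h0 : 0 ≤ h) (hh : h ≤ h') : wkBall z h ⊆ wkBall z h' := fun x hx =>
  le_trans (show sqDist x z ≤ h ^ 2 from hx) (pow_le_pow_left₀ h0 hh 2)

/-- `lap2` of a radial function -/
theorem wk_lap_radial {F F1 F2 : ℝ → ℝ} (hF : ∀ t, HasDerivAt F (F1 t) t) (hF1 : ∀ t, HasDerivAt F1 (F2 t) t)
    (a : ℝ) (z x : ℝ × ℝ) :
    lap2 (fun y => F (a * sqDist y z)) x
      = 4 * a * (F1 (a * sqDist x z) + (a * sqDist x z) * F2 (a * sqDist x z)) := by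
  have q1 : ∀ (c s : ℝ), HasDerivAt (fun t : ℝ => a * sqDist (t, c) z) (a * (2 * (s - z.1))) s := by
    intro c s
    have : HasDerivAt (fun t : ℝ => (t - z.1) ^ 2 + (c - z.2) ^ 2) (2 * (s - z.1)) s := by
      have h := (((hasDerivAt_id s).sub_const z.1).pow 2).add_const ((c - z.2) ^ 2)
      simpa using h
    exact this.const_mul a
  have q2 : ∀ (c s : ℝ), HasDerivAt (fun t : ℝ => a * sqDist (c, t) z) (a * (2 * (s - z.2))) s := by
    intro c s
    have : HasDerivAt (fun t : ℝ => (c - z.1) ^ 2 + (t - z.2) ^ 2) (2 * (s - z.2)) s := by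
      have h := (((hasDerivAt_id s).sub_const z.2).pow 2).const_add ((c - z.1) ^ 2)
      simpa using h
    exact this.const_mul a
  have d1 : (fun s => deriv (fun t => F (a * sqDist (t, x.2) z)) s)
      = fun s => F1 (a * sqDist (s, x.2) z) * (a * (2 * (s - z.1))) :=
    funext fun s => ((hF _).comp s (q1 x.2 s)).deriv
  have d2 : (fun s => deriv (fun t => F (a * sqDist (x.1, t) z)) s)
      = fun s => F1 (a * sqDist (x.1, s) z) * (a * (2 * (s - z.2))) :=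
    funext fun s => ((hF _).comp s (q2 x.1 s)).deriv
  have l1 : HasDerivAt (fun s : ℝ => a * (2 * (s - z.1))) (a * 2) x.1 := by
    have h := (((hasDerivAt_id x.1).sub_const z.1).const_mul 2).const_mul a
    simpa using h
  have l2 : HasDerivAt (fun s : ℝ => a * (2 * (s - z.2))) (a * 2) x.2 := by
    have h := (((hasDerivAt_id x.2).sub_const z.2).const_mul 2).const_mul a
    simpa using h
  have e1 := (((hF1 _).comp x.1 (q1 x.2 x.1)).mul l1).deriv
  have e2 := (((hF1 _).comp x.2 (q2 x.1 x.2)).mul l2).deriv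
  unfold lap2
  simp only [d1, d2]
  have e1' : deriv (fun s => F1 (a * sqDist (s, x.2) z) * (a * (2 * (s - z.1)))) x.1 = _ := e1
  have e2' : deriv (fun s => F1 (a * sqDist (x.1, s) z) * (a * (2 * (s - z.2)))) x.2 = _ := e2
  rw [e1', e2']
  simp only [Function.comp_apply, Prod.mk.eta]
  generalize F1 (a * sqDist x z) = A
  generalize F2 (a * sqDist x z) = B
  rw [show sqDist x z = (x.1 - z.1) ^ 2 + (x.2 - z.2) ^ 2 from rfl]
  ring

/-! ### the bump family -/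

theorem wk_prof_support {F : ℝ → ℝ} (hF : ∀ t, 1 < t → F t = 0) {a : ℝ} (ha : 0 < a) (z : ℝ × ℝ) :
    tsupport (fun x : ℝ × ℝ => F (a * sqDist x z)) ⊆ wkBall z (Real.sqrt a)⁻¹ := by
  refine closure_minimal (fun x hx => ?_) (wk_ball_closed z _)
  by_contra hc
  apply hx
  apply hF
  have h1 : ((Real.sqrt a)⁻¹) ^ 2 < sqDist x z := not_le.1 hc
  rw [inv_pow, Real.sq_sqrt ha.le] at h1
  have := mul_lt_mul_of_pos_left h1 ha
  rw [mul_inv_cancel₀ ha.ne'] at this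
  exact this

theorem wk_prof_compact {F : ℝ → ℝ} (hF : ∀ t, 1 < t → F t = 0) {a : ℝ} (ha : 0 < a) (z : ℝ × ℝ) :
    HasCompactSupport (fun x : ℝ × ℝ => F (a * sqDist x z)) :=
  (wk_ball_compact z (by positivity)).of_isClosed_subset (isClosed_tsupport _) (wk_prof_support hF ha z)

/-- the unnormalised mass -/
noncomputable def wkC : ℝ := ∫ y : ℝ × ℝ, wkK (sqDist y 0)

theorem wk_C_pos : 0 < wkC := by
  have hc : Continuous fun y : ℝ × ℝ => wkK (sqDist y 0) := wk_K_continuous.comp (wk_sq_continuous 0)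
  have hs := wk_prof_compact (F := wkK) (fun _ ht => wk_K_zero_of_one_le ht.le) one_pos 0
  simp only [one_mul] at hs
  refine hc.integral_pos_of_hasCompactSupport_nonneg_nonzero hs (fun y => wk_K_nonneg _) (x := ((1 / 2 : ℝ), (0 : ℝ))) ?_
  have : sqDist ((1 / 2 : ℝ), (0 : ℝ)) 0 = 1 / 4 := by simp [sqDist]; norm_num
  rw [this]
  exact (wk_K_pos (by norm_num) (by norm_num)).ne'

/-- the bump with centre `z`, in the parameter `a = 1 / h²` -/
noncomputable def wkRa (z : ℝ × ℝ) (a : ℝ) (x : ℝ × ℝ) : ℝ := a / wkC * wkK (a * sqDist x z)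

/-- its potential: `∂_a wkRa = lap2 wkPa` -/
noncomputable def wkPa (z : ℝ × ℝ) (a : ℝ) (x : ℝ × ℝ) : ℝ := 1 / (4 * a * wkC) * wkKap (a * sqDist x z)

/-- the common value `∂_a wkRa = lap2 wkPa` -/
noncomputable def wkDa (z : ℝ × ℝ) (a : ℝ) (x : ℝ × ℝ) : ℝ := 1 / wkC * wkM (a * sqDist x z)

theorem wk_Ra_contDiff (z : ℝ × ℝ) (a : ℝ) : ContDiff ℝ ∞ (wkRa z a) :=
  contDiff_const.mul (wk_K_contDiff.comp (contDiff_const.mul (wk_sq_contDiff z)))

theorem wk_Pa_contDiff (z : ℝ × ℝ) (a : ℝ) : ContDiff ℝ ∞ (wkPa z a) :=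
  contDiff_const.mul (wk_Kap_contDiff.comp (contDiff_const.mul (wk_sq_contDiff z)))

theorem wk_Ra_nonneg (z : ℝ × ℝ) {a : ℝ} (ha : 0 ≤ a) (x : ℝ × ℝ) : 0 ≤ wkRa z a x :=
  mul_nonneg (div_nonneg ha wk_C_pos.le) (wk_K_nonneg _)

theorem wk_Ra_pos (z : ℝ × ℝ) {a : ℝ} (ha : 0 < a) {x : ℝ × ℝ} (h0 : 0 < sqDist x z) (h1 : a * sqDist x z < 1) :
    0 < wkRa z a x :=
  mul_pos (div_pos ha wk_C_pos) (wk_K_pos (mul_pos ha h0) h1)

theorem wk_Ra_tsupport (z : ℝ × ℝ) {a : ℝ} (ha : 0 < a) : tsupport (wkRa z a) ⊆ wkBall z (Real.sqrt a)⁻¹ :=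
  (tsupport_mul_subset_right (f := fun _ => a / wkC)).trans
    (wk_prof_support (fun _ ht => wk_K_zero_of_one_le ht.le) ha z)

theorem wk_Pa_tsupport (z : ℝ × ℝ) {a : ℝ} (ha : 0 < a) : tsupport (wkPa z a) ⊆ wkBall z (Real.sqrt a)⁻¹ :=
  (tsupport_mul_subset_right (f := fun _ => 1 / (4 * a * wkC))).trans
    (wk_prof_support (fun _ ht => wk_Kap_zero ht.le) ha z)

theorem wk_Ra_compact (z : ℝ × ℝ) {a : ℝ} (ha : 0 < a) : HasCompactSupport (wkRa z a) :=
  (wk_ball_compact z (by positivity)).of_isClosed_subset (isClosed_tsupport _) (wk_Ra_tsupport z ha)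

theorem wk_Pa_compact (z : ℝ × ℝ) {a : ℝ} (ha : 0 < a) : HasCompactSupport (wkPa z a) :=
  (wk_ball_compact z (by positivity)).of_isClosed_subset (isClosed_tsupport _) (wk_Pa_tsupport z ha)

theorem wk_Da_continuous (z : ℝ × ℝ) (a : ℝ) : Continuous (wkDa z a) :=
  continuous_const.mul (wk_M_contDiff.continuous.comp (continuous_const.mul (wk_sq_continuous z)))

theorem wk_Da_tsupport (z : ℝ × ℝ) {a : ℝ} (ha : 0 < a) : tsupport (wkDa z a) ⊆ wkBall z (Real.sqrt a)⁻¹ :=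
  (tsupport_mul_subset_right (f := fun _ => 1 / wkC)).trans (wk_prof_support (fun _ ht => wk_M_zero ht) ha z)

theorem wk_Da_compact (z : ℝ × ℝ) {a : ℝ} (ha : 0 < a) : HasCompactSupport (wkDa z a) :=
  (wk_ball_compact z (by positivity)).of_isClosed_subset (isClosed_tsupport _) (wk_Da_tsupport z ha)

/-- **`lap2` of the potential** -/
theorem wk_Pa_lap (z : ℝ × ℝ) {a : ℝ} (ha : a ≠ 0) (x : ℝ × ℝ) : lap2 (wkPa z a) x = wkDa z a x := by
  have h := wk_lap_radial (F := fun t => 1 / (4 * a * wkC) * wkKap t) (F1 := fun t => 1 / (4 * a * wkC) * wkK t)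
    (F2 := fun t => 1 / (4 * a * wkC) * wkK1 t) (fun t => (wk_Kap_hasDerivAt t).const_mul _)
    (fun t => (wk_K_hasDerivAt t).const_mul _) a z x
  have hc := wk_C_pos.ne'
  unfold wkPa wkDa wkM
  rw [h]
  field_simp

/-- **derivative in the parameter** -/
theorem wk_Ra_hasDerivAt (z x : ℝ × ℝ) (a : ℝ) : HasDerivAt (fun a => wkRa z a x) (wkDa z a x) a := by
  have h1 : HasDerivAt (fun a : ℝ => a * sqDist x z) (sqDist x z) a := by
    simpa using (hasDerivAt_id a).mul_const (sqDist x z)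
  have h2 := ((hasDerivAt_id a).div_const wkC).mul ((wk_K_hasDerivAt _).comp a h1)
  refine h2.congr_deriv ?_
  simp only [wkDa, wkM, id, Function.comp_apply]
  ring

theorem wk_Da_hasDerivAt (z x : ℝ × ℝ) (a : ℝ) :
    HasDerivAt (fun a => wkDa z a x) (1 / wkC * (wkM1 (a * sqDist x z) * sqDist x z)) a := by
  have h1 : HasDerivAt (fun a : ℝ => a * sqDist x z) (sqDist x z) a := by
    simpa using (hasDerivAt_id a).mul_const (sqDist x z)
  exact ((wk_M_hasDerivAt _).comp a h1).const_mul _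

/-- **uniform second order estimate in the parameter** -/
theorem wk_Ra_taylor : ∃ N : ℝ, 0 ≤ N ∧ ∀ (z x : ℝ × ℝ) (a₀ a a' : ℝ), 0 < a₀ → a₀ ≤ a → a₀ ≤ a' →
    |wkRa z a' x - wkRa z a x - (a' - a) * wkDa z a x| ≤ N / a₀ * (a' - a) ^ 2 := by
  obtain ⟨N, hN0, hN⟩ := wk_tM1_bdd
  have hc := wk_C_pos
  refine ⟨N / wkC, by positivity, fun z x a₀ a a' h0 ha ha' => ?_⟩
  have hL : ∀ s, a₀ ≤ s → |1 / wkC * (wkM1 (s * sqDist x z) * sqDist x z)| ≤ N / wkC / a₀ := by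
    intro s hs
    have hs0 : 0 < s := lt_of_lt_of_le h0 hs
    have e : 1 / wkC * (wkM1 (s * sqDist x z) * sqDist x z)
        = (s * sqDist x z * wkM1 (s * sqDist x z)) / (wkC * s) := by field_simp
    rw [e, abs_div, abs_of_pos (mul_pos hc hs0), div_div]
    exact div_le_div₀ hN0 (hN _) (mul_pos hc h0) (mul_le_mul_of_nonneg_left hs hc.le)
  -- Lipschitz bound of the first derivative
  have hD : ∀ s, a₀ ≤ s → |wkDa z s x - wkDa z a x| ≤ N / wkC / a₀ * |s - a| := by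
    intro s hs
    have := Convex.norm_image_sub_le_of_norm_hasDerivWithin_le (f := fun s => wkDa z s x) (s := Ici a₀)
      (fun y _ => (wk_Da_hasDerivAt z x y).hasDerivWithinAt) (fun y hy => by simpa using hL y hy) (convex_Ici a₀) ha hs
    simpa using this
  have key := Convex.norm_image_sub_le_of_norm_hasDerivWithin_le
    (f := fun s => wkRa z s x - s * wkDa z a x) (f' := fun s => wkDa z s x - wkDa z a x) (s := uIcc a a')
    (C := N / wkC / a₀ * |a' - a|)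
    (fun y _ => ((wk_Ra_hasDerivAt z x y).sub (by simpa using (hasDerivAt_id y).mul_const (wkDa z a x))).hasDerivWithinAt)
    (fun y hy => by
      have hy0 : a₀ ≤ y := le_trans (le_min ha ha') hy.1
      refine (by simpa using hD y hy0 : ‖wkDa z y x - wkDa z a x‖ ≤ _).trans ?_
      refine mul_le_mul_of_nonneg_left ?_ (by positivity)
      exact abs_sub_left_of_mem_uIcc hy)
    (convex_uIcc a a') left_mem_uIcc right_mem_uIcc
  have e : wkRa z a' x - wkRa z a x - (a' - a) * wkDa z a x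
      = (wkRa z a' x - a' * wkDa z a x) - (wkRa z a x - a * wkDa z a x) := by ring
  rw [e]
  refine (by simpa using key : |_| ≤ _).trans (le_of_eq ?_)
  rw [mul_assoc, ← sq, sq_abs]

theorem wk_Ra_integral (z : ℝ × ℝ) {a : ℝ} (ha : 0 < a) : ∫ x, wkRa z a x = 1 := by
  have hc := wk_C_pos.ne'
  unfold wkRa
  rw [integral_const_mul]
  have e1 : ∫ x : ℝ × ℝ, wkK (a * sqDist x z) = ∫ y : ℝ × ℝ, wkK (a * sqDist y 0) := by
    rw [← integral_sub_right_eq_self (fun y : ℝ × ℝ => wkK (a * sqDist y 0)) z]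
    simp only [wk_sq_sub]
  have e2 : ∫ y : ℝ × ℝ, wkK (a * sqDist y 0) = a⁻¹ * wkC := by
    have h := Measure.integral_comp_smul (volume : Measure (ℝ × ℝ)) (fun y : ℝ × ℝ => wkK (sqDist y 0)) (Real.sqrt a)
    simp only [wk_sq_smul, Real.sq_sqrt ha.le] at h
    rw [h]
    have hf : Module.finrank ℝ (ℝ × ℝ) = 2 := by simp
    rw [hf, Real.sq_sqrt ha.le, abs_of_pos (inv_pos.2 ha), smul_eq_mul]
    rfl
  rw [e1, e2]
  field_simp

/-- the bump is symmetric in (centre, point) -/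
theorem wk_Ra_symm (z x : ℝ × ℝ) (a : ℝ) : wkRa z a x = wkRa x a z := by
  unfold wkRa; rw [wk_sq_comm]

theorem wk_Ra_translate (z x : ℝ × ℝ) (a : ℝ) : wkRa z a x = wkRa 0 a (x - z) := by
  unfold wkRa; rw [wk_sq_sub]

/-- Lipschitz in the centre, uniformly in the point -/
theorem wk_Ra_lip {a : ℝ} (ha : 0 < a) : ∃ L : ℝ, 0 ≤ L ∧ ∀ z z' x : ℝ × ℝ, |wkRa z a x - wkRa z' a x| ≤ L * dist z z' := by
  obtain ⟨C, hC⟩ := (wk_Ra_contDiff 0 a).lipschitzWith_of_hasCompactSupport (wk_Ra_compact 0 ha) (by simp)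
  refine ⟨C, C.2, fun z z' x => ?_⟩
  rw [wk_Ra_translate z, wk_Ra_translate z']
  have := hC.dist_le_mul (x - z) (x - z')
  rw [Real.dist_eq] at this
  refine this.trans (le_of_eq ?_)
  congr 1
  rw [dist_sub_left]

theorem wk_Ra_bdd {a : ℝ} (ha : 0 < a) : ∃ M : ℝ, 0 ≤ M ∧ ∀ z x : ℝ × ℝ, |wkRa z a x| ≤ M := by
  obtain ⟨M, hM⟩ := (wk_Ra_compact 0 ha).exists_bound_of_continuous (wk_Ra_contDiff 0 a).continuous
  refine ⟨M, (norm_nonneg _).trans (hM 0), fun z x => ?_⟩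
  rw [wk_Ra_translate z]
  simpa using hM (x - z)

theorem wk_Ra_continuous2 (a : ℝ) : Continuous fun p : (ℝ × ℝ) × (ℝ × ℝ) => wkRa p.1 a p.2 := by
  have : (fun p : (ℝ × ℝ) × (ℝ × ℝ) => wkRa p.1 a p.2) = fun p => wkRa 0 a (p.2 - p.1) :=
    funext fun p => wk_Ra_translate _ _ _
  rw [this]
  exact (wk_Ra_contDiff 0 a).continuous.comp (continuous_snd.sub continuous_fst)

/-! ### the same family in the radius `h` -/

/-- **the unit radial bump** of radius `h` centred at `z`: `(c h²)⁻¹ k(|x - z|² / h²)` -/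
noncomputable def wkRho (z : ℝ × ℝ) (h : ℝ) : ℝ × ℝ → ℝ := wkRa z (h ^ 2)⁻¹

theorem wk_rad {h : ℝ} (hh : 0 < h) : (Real.sqrt (h ^ 2)⁻¹)⁻¹ = h := by
  rw [Real.sqrt_inv, Real.sqrt_sq hh.le, inv_inv]

theorem wk_rho_contDiff (z : ℝ × ℝ) (h : ℝ) : ContDiff ℝ ∞ (wkRho z h) := wk_Ra_contDiff z _

theorem wk_rho_continuous (z : ℝ × ℝ) (h : ℝ) : Continuous (wkRho z h) := (wk_rho_contDiff z h).continuous

theorem wk_rho_nonneg (z : ℝ × ℝ) (h : ℝ) (x : ℝ × ℝ) : 0 ≤ wkRho z h x := wk_Ra_nonneg z (by positivity) x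

theorem wk_rho_tsupport (z : ℝ × ℝ) {h : ℝ} (hh : 0 < h) : tsupport (wkRho z h) ⊆ wkBall z h := by
  have := wk_Ra_tsupport z (a := (h ^ 2)⁻¹) (by positivity)
  rwa [wk_rad hh] at this

theorem wk_rho_compact (z : ℝ × ℝ) {h : ℝ} (hh : 0 < h) : HasCompactSupport (wkRho z h) :=
  wk_Ra_compact z (by positivity)

theorem wk_rho_integral (z : ℝ × ℝ) {h : ℝ} (hh : 0 < h) : ∫ x, wkRho z h x = 1 := wk_Ra_integral z (by positivity)

theorem wk_rho_pos (z : ℝ × ℝ) {h : ℝ} (hh : 0 < h) {x : ℝ × ℝ} (h0 : 0 < sqDist x z) (h1 : sqDist x z < h ^ 2) :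
    0 < wkRho z h x := by
  refine wk_Ra_pos z (by positivity) h0 ?_
  rw [inv_mul_lt_iff₀ (by positivity), mul_one]
  exact h1

theorem wk_rho_zero (z : ℝ × ℝ) {h : ℝ} (hh : 0 < h) {x : ℝ × ℝ} (hx : x ∉ wkBall z h) : wkRho z h x = 0 :=
  image_eq_zero_of_notMem_tsupport fun hc => hx (wk_rho_tsupport z hh hc)

theorem wk_rho_symm (z x : ℝ × ℝ) (h : ℝ) : wkRho z h x = wkRho x h z := wk_Ra_symm z x _

theorem wk_rho_translate (z x : ℝ × ℝ) (h : ℝ) : wkRho z h x = wkRho 0 h (x - z) := wk_Ra_translate z x _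

theorem wk_rho_scale (z x : ℝ × ℝ) (h : ℝ) : wkRho z h x = (h ^ 2)⁻¹ * wkRho 0 1 (h⁻¹ • (x - z)) := by
  unfold wkRho wkRa
  rw [wk_sq_smul, wk_sq_sub]
  simp only [one_pow, inv_one, one_mul, inv_pow]
  ring

theorem wk_rho_lip {h : ℝ} (hh : 0 < h) :
    ∃ L : ℝ, 0 ≤ L ∧ ∀ z z' x : ℝ × ℝ, |wkRho z h x - wkRho z' h x| ≤ L * dist z z' := wk_Ra_lip (by positivity)

theorem wk_rho_bdd {h : ℝ} (hh : 0 < h) : ∃ M : ℝ, 0 ≤ M ∧ ∀ z x : ℝ × ℝ, |wkRho z h x| ≤ M := wk_Ra_bdd (by positivity)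

theorem wk_rho_continuous2 (h : ℝ) : Continuous fun p : (ℝ × ℝ) × (ℝ × ℝ) => wkRho p.1 h p.2 := wk_Ra_continuous2 _

/-- triangle inequality for the Euclidean disks -/
theorem wk_ball_add {z z₀ : ℝ × ℝ} {h r : ℝ} (hh : 0 ≤ h) (hr : 0 ≤ r) (hz : sqDist z z₀ ≤ r ^ 2) :
    wkBall z h ⊆ wkBall z₀ (h + r) := by
  intro x hx
  have hx' : (x.1 - z.1) ^ 2 + (x.2 - z.2) ^ 2 ≤ h ^ 2 := hx
  have hz' : (z.1 - z₀.1) ^ 2 + (z.2 - z₀.2) ^ 2 ≤ r ^ 2 := hz
  show (x.1 - z₀.1) ^ 2 + (x.2 - z₀.2) ^ 2 ≤ (h + r) ^ 2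
  obtain ⟨u1, hu1⟩ : ∃ u, u = x.1 - z.1 := ⟨_, rfl⟩
  obtain ⟨u2, hu2⟩ : ∃ u, u = x.2 - z.2 := ⟨_, rfl⟩
  obtain ⟨w1, hw1⟩ : ∃ u, u = z.1 - z₀.1 := ⟨_, rfl⟩
  obtain ⟨w2, hw2⟩ : ∃ u, u = z.2 - z₀.2 := ⟨_, rfl⟩
  rw [← hu1, ← hu2] at hx'
  rw [← hw1, ← hw2] at hz'
  have e1 : x.1 - z₀.1 = u1 + w1 := by rw [hu1, hw1]; ring
  have e2 : x.2 - z₀.2 = u2 + w2 := by rw [hu2, hw2]; ring
  rw [e1, e2]
  have cs : (u1 * w1 + u2 * w2) ^ 2 ≤ (h * r) ^ 2 := by
    calc (u1 * w1 + u2 * w2) ^ 2 ≤ (u1 ^ 2 + u2 ^ 2) * (w1 ^ 2 + w2 ^ 2) := by nlinarith [sq_nonneg (u1 * w2 - u2 * w1)]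
      _ ≤ h ^ 2 * r ^ 2 := mul_le_mul hx' hz' (by positivity) (by positivity)
      _ = _ := by ring
  have cs' : u1 * w1 + u2 * w2 ≤ h * r := (abs_le_of_sq_le_sq' cs (by positivity)).2
  nlinarith

theorem wk_sq_le_of_dist {z z₀ : ℝ × ℝ} {r : ℝ} (h : dist z z₀ ≤ r) : sqDist z z₀ ≤ (2 * r) ^ 2 := by
  rw [Prod.dist_eq, Real.dist_eq, Real.dist_eq] at h
  have h1 := (le_max_left _ _).trans h
  have h2 := (le_max_right _ _).trans h
  have hr : 0 ≤ r := (abs_nonneg _).trans h1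
  have s1 : (z.1 - z₀.1) ^ 2 ≤ r ^ 2 := sq_le_sq' (by linarith [(abs_le.1 h1).1]) (abs_le.1 h1).2
  have s2 : (z.2 - z₀.2) ^ 2 ≤ r ^ 2 := sq_le_sq' (by linarith [(abs_le.1 h2).1]) (abs_le.1 h2).2
  show (z.1 - z₀.1) ^ 2 + (z.2 - z₀.2) ^ 2 ≤ (2 * r) ^ 2
  nlinarith

/-- every point of an open set carries a small disk -/
theorem wk_exists_ball {O : Set (ℝ × ℝ)} (hO : IsOpen O) {z : ℝ × ℝ} (hz : z ∈ O) : ∃ h : ℝ, 0 < h ∧ wkBall z h ⊆ O := by
  obtain ⟨ε, hε, hb⟩ := Metric.isOpen_iff.1 hO z hz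
  refine ⟨ε / 2, by positivity, fun x hx => hb ?_⟩
  have := wk_ball_subset z (by positivity : (0 : ℝ) ≤ ε / 2) hx
  rw [Metric.mem_closedBall] at this
  rw [Metric.mem_ball]
  linarith

end Claimed.Agent.R291
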