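import Claimed.Agent.R291.Wick.Tools

/-!
# Row 291 (S0539), Wick/Coll : flux, single collision      (owner helper108; prefix `wk_`)

* `WkData.exists_sz`, `wkSzF`, `WkData.bd_mix`   Hoelder with explicit sizes on some factors and canonical sizes on the spectators
* `WkData.lin`        one slot of `T` is a `WkLin`
* `WkData.flux`       `T (Δη_{y,r}, ρ_{y,r}, s) → - v T s` uniformly in the centre (A4 + A2: the second bump of `β` is invisible)
* `wk_protect`        protected compact neighbourhood of the support of the insertion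
* `WkData.sc_point`   `T (Δφ, ρ_{w,ε}, s) → - v T s φ(w)` uniformly in `w`
* **`WkData.sc`**     single collision `T (Δφ, g, s) = - v (∫ φ g) T s`, `g` ANY test, spectators `s` off `tsupport φ`
-/

set_option autoImplicit false

namespace Claimed.Agent.R291

open MeasureTheory Filter Topology Set
open scoped ContDiff
open Claims Claims.C0467

variable {D : Set (ℝ × ℝ)} {v : ℝ} {T : Multiset (ℝ × ℝ → ℝ) → ℝ}

/-! ### 0. sizes of spectators, one slot -/

/-- every test has a size -/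
theorem WkData.exists_sz (W : WkData D v T) (j : ℕ) {k : ℝ × ℝ → ℝ} (hk : WkTest D k) : ∃ B : ℝ, WkSz D T j k B := by
  obtain ⟨C, -, h⟩ := W.sz_fix j hk.comp.isCompact hk.sub
  obtain ⟨M, -, hM⟩ := hk.bound
  exact ⟨C * M, h M k hk hM (wk_zero_of_tsupport subset_rfl)⟩

/-- a canonical size -/
noncomputable def wkSzF (D : Set (ℝ × ℝ)) (T : Multiset (ℝ × ℝ → ℝ) → ℝ) (j : ℕ) (k : ℝ × ℝ → ℝ) : ℝ :=
  Classical.epsilon fun B => WkSz D T j k B

theorem WkData.szF_spec (W : WkData D v T) (j : ℕ) {k : ℝ × ℝ → ℝ} (hk : WkTest D k) : WkSz D T j k (wkSzF D T j k) :=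
  Classical.epsilon_spec (W.exists_sz j hk)

theorem WkData.szF_prod_nonneg (W : WkData D v T) (j : ℕ) {s : Multiset (ℝ × ℝ → ℝ)} (hs : ∀ k ∈ s, WkTest D k) :
    0 ≤ (s.map (wkSzF D T j)).prod := by
  refine Multiset.prod_nonneg fun a ha => ?_
  obtain ⟨k, hk, rfl⟩ := Multiset.mem_map.1 ha
  exact (W.szF_spec j (hs k hk)).2.1

/-- Hoelder with explicit sizes on a multiset `p` of pairs and canonical sizes on the spectators `s` -/
theorem WkData.bd_mix (W : WkData D v T) (p : Multiset ((ℝ × ℝ → ℝ) × ℝ)) (s : Multiset (ℝ × ℝ → ℝ)) (hs : ∀ k ∈ s, WkTest D k)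
    (hp : ∀ a ∈ p, WkSz D T (Multiset.card p + Multiset.card s) a.1 a.2) :
    |T (p.map Prod.fst + s)| ≤ (p.map Prod.snd).prod * (s.map (wkSzF D T (Multiset.card p + Multiset.card s))).prod := by
  set j := Multiset.card p + Multiset.card s with hj
  have hcard : Multiset.card (p + s.map fun k => (k, wkSzF D T j k)) = j := by
    rw [Multiset.card_add, Multiset.card_map]
  have h := W.bd (p + s.map fun k => (k, wkSzF D T j k)) (by
    rw [hcard]
    intro a ha
    rcases Multiset.mem_add.1 ha with ha | ha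
    · exact hp a ha
    · obtain ⟨k, hk, rfl⟩ := Multiset.mem_map.1 ha
      exact W.szF_spec j (hs k hk))
  rw [Multiset.map_add, Multiset.map_add, Multiset.map_map, Multiset.map_map, Multiset.prod_add] at h
  simpa using h

/-- one slot of `T` is a linear functional of order `0` -/
theorem WkData.lin (W : WkData D v T) {s : Multiset (ℝ × ℝ → ℝ)} (hs : ∀ k ∈ s, WkTest D k) : WkLin D (fun g => T (g ::ₘ s)) where
  add := fun g g' h h' => W.add g g' s h h' hs
  smul := fun c g h => W.smul c g s h hs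
  bdd := fun K hK hKD => by
    obtain ⟨C, hC, h⟩ := W.sz_fix (1 + Multiset.card s) hK hKD
    refine ⟨C * (s.map (wkSzF D T (1 + Multiset.card s))).prod, mul_nonneg hC.le (W.szF_prod_nonneg _ hs), fun g M hg hgK hM => ?_⟩
    have := W.bd_mix {(g, C * M)} s hs (by
      intro a ha
      rw [Multiset.mem_singleton] at ha
      subst ha
      simpa using h M g hg hM (wk_zero_of_tsupport hgK))
    simp only [Multiset.map_singleton, Multiset.singleton_add, Multiset.prod_singleton, Multiset.card_singleton] at this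
    calc |T (g ::ₘ s)| ≤ C * M * (s.map (wkSzF D T (1 + Multiset.card s))).prod := this
      _ = _ := by ring

/-! ### 1. flux -/

/-- the zero total profile of the collision: central bump minus a bump outside the cutoff -/
noncomputable def wkBeta (y : ℝ × ℝ) : ℝ := wkRho 0 1 y - wkRho (5, 0) 1 y

theorem wk_beta_contDiff : ContDiff ℝ ∞ wkBeta := (wk_rho_contDiff 0 1).sub (wk_rho_contDiff (5, 0) 1)

theorem wk_beta_compact : HasCompactSupport wkBeta :=
  ((wk_test_rho (O := univ) (z := 0) one_pos (subset_univ _)).sub' (wk_test_rho (O := univ) (z := (5, 0)) one_pos (subset_univ _))).comp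

theorem wk_beta_integral : ∫ y, wkBeta y = 0 := by
  unfold wkBeta
  rw [integral_sub ((wk_rho_continuous 0 1).integrable_of_hasCompactSupport (wk_rho_compact 0 one_pos))
    ((wk_rho_continuous (5, 0) 1).integrable_of_hasCompactSupport (wk_rho_compact (5, 0) one_pos)),
    wk_rho_integral 0 one_pos, wk_rho_integral (5, 0) one_pos, sub_self]

theorem wk_eta_beta (y : ℝ × ℝ) : wkgEta0 y * wkBeta y = wkRho 0 1 y := by
  unfold wkBeta
  by_cases h2 : y ∈ wkBall (5, 0) 1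
  · have h2' : (y.1 - 5) ^ 2 + (y.2 - 0) ^ 2 ≤ 1 ^ 2 := h2
    have h9 : 9 ≤ sqDist y 0 := by
      show 9 ≤ (y.1 - 0) ^ 2 + (y.2 - 0) ^ 2
      nlinarith [sq_nonneg (y.1 - 3), sq_nonneg (y.2 - 0)]
    have h1 : y ∉ wkBall 0 1 := by
      intro h1
      have h1' : sqDist y 0 ≤ 1 ^ 2 := h1
      linarith
    rw [wkg_eta0_zero h9, wk_rho_zero 0 one_pos h1, zero_mul]
  · rw [wk_rho_zero (5, 0) one_pos h2, sub_zero]
    by_cases h1 : y ∈ wkBall 0 1
    · have h1' : sqDist y 0 ≤ 1 ^ 2 := h1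
      rw [wkg_eta0_one (by linarith), one_mul]
    · rw [wk_rho_zero 0 one_pos h1, mul_zero]

theorem wk_eta_beta_integral : ∫ y, wkgEta0 y * wkBeta y = 1 := by
  simp only [wk_eta_beta]
  exact wk_rho_integral 0 one_pos

theorem wk_beta_scale (y0 : ℝ × ℝ) {r : ℝ} (hr : 0 < r) :
    (fun y => (r ^ 2)⁻¹ * limSc wkBeta y0 r y) = fun y => wkRho y0 r y - wkRho (y0 + r • ((5 : ℝ), (0 : ℝ))) r y := by
  funext y
  have e : r⁻¹ • (y - (y0 + r • ((5 : ℝ), (0 : ℝ)))) = r⁻¹ • (y - y0) - ((5 : ℝ), (0 : ℝ)) := by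
    rw [← sub_sub, smul_sub r⁻¹ (y - y0), inv_smul_smul₀ hr.ne']
  unfold limSc wkBeta
  rw [wk_rho_scale y0 y r, wk_rho_scale (y0 + r • ((5 : ℝ), (0 : ℝ))) y r, wk_rho_translate (5, 0) _ 1, e]
  ring

theorem wk_ball_shift_subset (y0 : ℝ × ℝ) {r : ℝ} (hr : 0 < r) : wkBall (y0 + r • ((5 : ℝ), (0 : ℝ))) r ⊆ wkBall y0 (6 * r) := by
  have h := wk_ball_add (z := y0 + r • ((5 : ℝ), (0 : ℝ))) (z₀ := y0) (h := r) (r := 5 * r) hr.le (by positivity) (by
    simp only [sqDist, Prod.fst_add, Prod.snd_add, Prod.smul_fst, Prod.smul_snd, smul_eq_mul]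
    nlinarith)
  have e : r + 5 * r = 6 * r := by ring
  rwa [e] at h

theorem wk_ball_shift_disjoint (y0 : ℝ × ℝ) {r : ℝ} (hr : 0 < r) : Disjoint (wkBall (y0 + r • ((5 : ℝ), (0 : ℝ))) r) (wkBall y0 (3 * r)) := by
  rw [Set.disjoint_left]
  intro x h1 h2
  have h1' : (x.1 - (y0 + r • ((5 : ℝ), (0 : ℝ))).1) ^ 2 + (x.2 - (y0 + r • ((5 : ℝ), (0 : ℝ))).2) ^ 2 ≤ r ^ 2 := h1
  have h2' : (x.1 - y0.1) ^ 2 + (x.2 - y0.2) ^ 2 ≤ (3 * r) ^ 2 := h2
  simp only [Prod.fst_add, Prod.snd_add, Prod.smul_fst, Prod.smul_snd, smul_eq_mul, mul_zero, add_zero] at h1'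
  obtain ⟨a, ha⟩ : ∃ a, a = x.1 - y0.1 := ⟨_, rfl⟩
  obtain ⟨b, hb⟩ : ∃ b, b = x.2 - y0.2 := ⟨_, rfl⟩
  have e1 : x.1 - (y0.1 + r * 5) = a - 5 * r := by rw [ha]; ring
  rw [e1, ← hb] at h1'
  rw [← ha, ← hb] at h2'
  nlinarith [sq_nonneg (a - 3 * r), sq_nonneg b, mul_pos hr hr]

/-- **F.**  (A4) for `η = wkgEta0`, `β = ρ_{0,1} - ρ_{(5,0),1}`; the second bump is killed by (A2). -/
theorem WkData.flux (W : WkData D v T) (hD : IsOpen D) {K0 : Set (ℝ × ℝ)} {R0 : ℝ} (hK0 : IsCompact K0) (hR0 : 0 < R0)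
    (hK0D : ∀ y0 ∈ K0, wkBall y0 R0 ⊆ D) {s : Multiset (ℝ × ℝ → ℝ)} (hs : ∀ k ∈ s, WkTest D k)
    (hs0 : ∀ k ∈ s, ∀ y0 ∈ K0, ∀ y ∈ wkBall y0 R0, k y = 0) {e : ℝ} (he : 0 < e) :
    ∃ r0 : ℝ, 0 < r0 ∧ ∀ y0 ∈ K0, ∀ r : ℝ, 0 < r → r < r0 → |T (lap2 (wkgEta y0 r) ::ₘ wkRho y0 r ::ₘ s) + v * T s| ≤ e := by
  obtain ⟨r0, hr0, h⟩ := W.coll K0 R0 hK0 hR0 hK0D s hs hs0 wkgEta0 wkBeta wkg_eta0_contDiff wkg_eta0_compact wk_beta_contDiff
    wk_beta_compact wk_beta_integral e he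
  refine ⟨min r0 (R0 / 7), lt_min hr0 (by positivity), fun y0 hy0 r hr hlt => ?_⟩
  have hr1 : r < r0 := lt_of_lt_of_le hlt (min_le_left _ _)
  have hr2 : 7 * r < R0 := by
    have := lt_of_lt_of_le hlt (min_le_right _ _)
    linarith
  have key := h y0 hy0 r hr hr1
  have e1 : limSc wkgEta0 y0 r = wkgEta y0 r := rfl
  rw [e1, wk_beta_scale y0 hr, wk_eta_beta_integral, mul_one] at key
  set y1 : ℝ × ℝ := y0 + r • ((5 : ℝ), (0 : ℝ)) with hy1
  have hB : wkBall y0 R0 ⊆ D := hK0D y0 hy0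
  have hηsupp : tsupport (wkgEta y0 r) ⊆ wkBall y0 (3 * r) := wkg_eta_tsupport y0 hr
  have hηD : tsupport (wkgEta y0 r) ⊆ D := hηsupp.trans ((wk_ball_mono y0 (by positivity) (by linarith)).trans hB)
  have tη : WkTest D (wkgEta y0 r) := ⟨(wkg_eta_contDiff y0 r).continuous, wkg_eta_compact y0 hr, hηD⟩
  have tL : WkTest D (lap2 (wkgEta y0 r)) := tη.lap' (wkg_eta_contDiff y0 r)
  have t1 : WkTest D (wkRho y0 r) := wk_test_rho hr ((wk_ball_mono y0 hr.le (by linarith)).trans hB)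
  have t2 : WkTest D (wkRho y1 r) :=
    wk_test_rho hr ((wk_ball_shift_subset y0 hr).trans ((wk_ball_mono y0 (by positivity) (by linarith)).trans hB))
  have hLs : ∀ k ∈ lap2 (wkgEta y0 r) ::ₘ s, WkTest D k := by
    intro k hk
    rcases Multiset.mem_cons.1 hk with rfl | hk
    · exact tL
    · exact hs k hk
  have hds : ∀ k ∈ (fun y => wkRho y0 r y - wkRho y1 r y) ::ₘ s, WkTest D k := by
    intro k hk
    rcases Multiset.mem_cons.1 hk with rfl | hk
    · exact t1.sub' t2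
    · exact hs k hk
  have z2 : T (lap2 (wkgEta y0 r) ::ₘ wkRho y1 r ::ₘ s) = 0 := by
    refine W.harm_glob hD (wkg_eta_contDiff y0 r) (wkg_eta_compact y0 hr) hηD ?_
    intro g hg
    rcases Multiset.mem_cons.1 hg with rfl | hg
    · exact ⟨t2, ((wk_ball_shift_disjoint y0 hr).mono (wk_rho_tsupport y1 hr) hηsupp)⟩
    · exact ⟨hs g hg, (wk_tsupport_disjoint_ball (hs0 g hg y0 hy0) (by positivity) (by linarith)).mono_right hηsupp⟩
  have e3 : T ((fun y => -lap2 (wkgEta y0 r) y) ::ₘ (fun y => wkRho y0 r y - wkRho y1 r y) ::ₘ s)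
      = -T (lap2 (wkgEta y0 r) ::ₘ wkRho y0 r ::ₘ s) := by
    rw [W.neg tL hds, Multiset.cons_swap, W.sub t1 t2 hLs, Multiset.cons_swap (wkRho y1 r), z2, sub_zero, Multiset.cons_swap]
  rw [e3] at key
  have : T (lap2 (wkgEta y0 r) ::ₘ wkRho y0 r ::ₘ s) + v * T s = -(-T (lap2 (wkgEta y0 r) ::ₘ wkRho y0 r ::ₘ s) - v * T s) := by ring
  rw [this, abs_neg]
  exact key

/-! ### 2. single collision -/

theorem wk_mem_ball_self (w : ℝ × ℝ) (r : ℝ) : w ∈ wkBall w r := by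
  show sqDist w w ≤ r ^ 2
  simp only [sqDist, sub_self]
  nlinarith [sq_nonneg r]

/-- a protected neighbourhood of the support of the insertion: compact `K0 ⊇ ` all points within `d0` of `tsupport φ`, discs of radius `d0` around `K0`
inside `D` and free of spectators -/
theorem wk_protect (hD : IsOpen D) {K : Set (ℝ × ℝ)} (hK : IsCompact K) (hKD : K ⊆ D) {s : Multiset (ℝ × ℝ → ℝ)}
    (hs : ∀ g ∈ s, Disjoint (tsupport g) K) :
    ∃ (d0 : ℝ) (K0 : Set (ℝ × ℝ)), 0 < d0 ∧ IsCompact K0 ∧ K0 ⊆ D ∧ (∀ w, ∀ p ∈ K, p ∈ wkBall w d0 → w ∈ K0) ∧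
      (∀ y0 ∈ K0, wkBall y0 d0 ⊆ D) ∧ ∀ k ∈ s, ∀ y0 ∈ K0, ∀ y ∈ wkBall y0 d0, k y = 0 := by
  obtain ⟨d1, hd1, -, hK1D, hK1⟩ := wk_room hD hK hKD
  obtain ⟨d2, hd2, h2⟩ := wk_multiset_unif s (fun g d => ∀ z ∈ K, ∀ c ∈ tsupport g, d ^ 2 < sqDist c z)
    (fun g d d' h0 hle h z hz c hc => lt_of_le_of_lt (pow_le_pow_left₀ h0.le hle 2) (h z hz c hc))
    (fun g hg => wk_gap hK (isClosed_tsupport g) (hs g hg).symm)
  set d0 : ℝ := min d1 d2 / 4 with hd0def
  have hd0 : 0 < d0 := by have := lt_min hd1 hd2; positivity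
  have h41 : 4 * d0 ≤ d1 := by have := min_le_left d1 d2; rw [hd0def]; linarith
  have h42 : 4 * d0 ≤ d2 := by have := min_le_right d1 d2; rw [hd0def]; linarith
  have G : ∀ y0 ∈ Metric.cthickening d0 K, ∀ x ∈ wkBall y0 d0, ∃ z ∈ K, sqDist x z ≤ (4 * d0) ^ 2 := by
    intro y0 hy0 x hx
    rw [hK.cthickening_eq_biUnion_closedBall hd0.le] at hy0
    obtain ⟨z, hz, hy0z⟩ := mem_iUnion₂.1 hy0
    refine ⟨z, hz, ?_⟩
    have a1 := Metric.mem_closedBall.1 (wk_ball_subset y0 hd0.le hx)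
    have a2 := Metric.mem_closedBall.1 hy0z
    have a3 : dist x z ≤ 2 * d0 := by
      have := dist_triangle x y0 z
      linarith
    have := wk_sq_le_of_dist a3
    have e : 2 * (2 * d0) = 4 * d0 := by ring
    rwa [e] at this
  have GD : ∀ y0 ∈ Metric.cthickening d0 K, wkBall y0 d0 ⊆ D := by
    intro y0 hy0 x hx
    obtain ⟨z, hz, hxz⟩ := G y0 hy0 x hx
    exact hK1D (hK1 z hz (hxz.trans (pow_le_pow_left₀ (by positivity) h41 2)))
  refine ⟨d0, Metric.cthickening d0 K, hd0, hK.cthickening, fun y0 hy0 => GD y0 hy0 (wk_mem_ball_self y0 d0), ?_, GD, ?_⟩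
  · intro w p hp hpw
    have := Metric.mem_closedBall.1 (wk_ball_subset w hd0.le hpw)
    rw [dist_comm] at this
    exact Metric.mem_cthickening_of_dist_le w p d0 K hp this
  · intro k hk y0 hy0 y hy
    obtain ⟨z, hz, hyz⟩ := G y0 hy0 y hy
    refine image_eq_zero_of_notMem_tsupport fun hc => ?_
    have := h2 k hk z hz y hc
    have := hyz.trans (pow_le_pow_left₀ (by positivity) h42 2)
    linarith

/-- pointwise form of the single collision, uniform in the centre -/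
theorem WkData.sc_point (W : WkData D v T) (hD : IsOpen D) {φ : ℝ × ℝ → ℝ} (hφ : ContDiff ℝ ∞ φ) (hc : HasCompactSupport φ)
    (hsub : tsupport φ ⊆ D) {s : Multiset (ℝ × ℝ → ℝ)} (hs : ∀ g ∈ s, WkTest D g ∧ Disjoint (tsupport g) (tsupport φ)) {e : ℝ} (he : 0 < e) :
    ∃ e0 : ℝ, 0 < e0 ∧ ∀ ε, 0 < ε → ε < e0 → ∀ w, wkBall w ε ⊆ D → |T (lap2 φ ::ₘ wkRho w ε ::ₘ s) + v * T s * φ w| ≤ e := by
  have hst : ∀ k ∈ s, WkTest D k := fun k hk => (hs k hk).1
  obtain ⟨d0, K0, hd0, hK0, hK0D, hnear, hball, hfree⟩ := wk_protect hD hc.isCompact hsub (fun g hg => (hs g hg).2)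
  obtain ⟨Cs, rs, hCs, hrs, hrs1, hsz⟩ := W.sz_small (2 + Multiset.card s) hK0 hK0D
  obtain ⟨A, hA, hAρ⟩ := wk_rho_sizes
  obtain ⟨CB, hCB, hLeib⟩ := wk_leibniz_rest hφ hc
  obtain ⟨Mφ, hMφ0, hMφ⟩ := wkg_bdd hφ.continuous hc
  set Pq : ℝ := (s.map (wkSzF D T (2 + Multiset.card s))).prod with hPq
  have hPq0 : 0 ≤ Pq := W.szF_prod_nonneg _ hst
  obtain ⟨r0, hr0, hflux⟩ := W.flux hD hK0 hd0 hball hst hfree (e := e / (2 * (Mφ + 1))) (by positivity)
  set C2 : ℝ := 9 * Cs ^ 2 * CB * A * Pq with hC2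
  have hC20 : 0 ≤ C2 := by positivity
  obtain ⟨eL, heL, hL⟩ := wk_L_small 2 (ε := e / (2 * (C2 + 1))) (by positivity)
  refine ⟨min (min (d0 / 3) (rs / 3)) (min (min r0 1) eL), by
    refine lt_min (lt_min (by positivity) (by positivity)) (lt_min (lt_min hr0 one_pos) heL), fun ε hε hlt w hwD => ?_⟩
  have l1 : 3 * ε < d0 := by
    have := lt_of_lt_of_le hlt ((min_le_left _ _).trans (min_le_left _ _)); linarith
  have l2 : 3 * ε < rs := by
    have := lt_of_lt_of_le hlt ((min_le_left _ _).trans (min_le_right _ _)); linarith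
  have l3 : ε < r0 := lt_of_lt_of_le hlt ((min_le_right _ _).trans ((min_le_left _ _).trans (min_le_left _ _)))
  have l4 : ε < 1 := lt_of_lt_of_le hlt ((min_le_right _ _).trans ((min_le_left _ _).trans (min_le_right _ _)))
  have l5 : ε < eL := lt_of_lt_of_le hlt ((min_le_right _ _).trans (min_le_right _ _))
  have tρ : WkTest D (wkRho w ε) := wk_test_rho hε hwD
  by_cases hcase : Disjoint (wkBall w ε) (tsupport φ)
  · -- far from the insertion: exact zero
    have z1 : T (lap2 φ ::ₘ wkRho w ε ::ₘ s) = 0 := by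
      refine W.harm_glob hD hφ hc hsub fun g hg => ?_
      rcases Multiset.mem_cons.1 hg with rfl | hg
      · exact ⟨tρ, hcase.mono_left (wk_rho_tsupport w hε)⟩
      · exact hs g hg
    have z2 : φ w = 0 := image_eq_zero_of_notMem_tsupport fun h => Set.disjoint_left.1 hcase (wk_mem_ball_self w ε) h
    rw [z1, z2]
    simpa using he.le
  · obtain ⟨p, hp1, hp2⟩ := Set.not_disjoint_iff.1 hcase
    have hwK0 : w ∈ K0 := hnear w p hp2 (wk_ball_mono w hε.le (by linarith) hp1)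
    have hB3 : wkBall w (3 * ε) ⊆ D := (wk_ball_mono w (by positivity) l1.le).trans (hball w hwK0)
    have hηs : ContDiff ℝ ∞ (wkgEta w ε) := wkg_eta_contDiff w ε
    have hηsupp : tsupport (wkgEta w ε) ⊆ wkBall w (3 * ε) := wkg_eta_tsupport w hε
    have tη : WkTest D (wkgEta w ε) := ⟨hηs.continuous, wkg_eta_compact w hε, hηsupp.trans hB3⟩
    have tL : WkTest D (lap2 (wkgEta w ε)) := tη.lap' hηs
    have tφ : WkTest D φ := ⟨hφ.continuous, hc, hsub⟩
    have s1 : ContDiff ℝ ∞ (fun y => φ y * wkgEta w ε y) := hφ.mul hηs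
    have s2 : ContDiff ℝ ∞ (fun y => φ y * (1 - wkgEta w ε y)) := hφ.mul (contDiff_const.sub hηs)
    have t1 : WkTest D (fun y => φ y * wkgEta w ε y) := tφ.mul_right' hηs.continuous
    have t2 : WkTest D (fun y => φ y * (1 - wkgEta w ε y)) := tφ.mul_right' (continuous_const.sub hηs.continuous)
    have hρs : ∀ k ∈ wkRho w ε ::ₘ s, WkTest D k := by
      intro k hk
      rcases Multiset.mem_cons.1 hk with rfl | hk
      · exact tρ
      · exact hst k hk
    -- the part of `φ` away from the bump is invisible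
    have z1 : T (lap2 (fun y => φ y * (1 - wkgEta w ε y)) ::ₘ wkRho w ε ::ₘ s) = 0 := by
      refine W.harm_glob hD s2 t2.comp t2.sub fun g hg => ?_
      rcases Multiset.mem_cons.1 hg with rfl | hg
      · refine ⟨tρ, ?_⟩
        have : Disjoint (tsupport fun y => φ y * (1 - wkgEta w ε y)) (wkBall w ε) :=
          wk_tsupport_disjoint_ball (r := 2 * ε) (fun y hy => by
            rw [wkg_eta_one hε hy, sub_self, mul_zero]) hε.le (by linarith)
        exact (this.mono_right (wk_rho_tsupport w hε)).symm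
      · exact ⟨hst g hg, (hs g hg).2.mono_right tsupport_mul_subset_left⟩
    have e1 : lap2 φ = fun y => lap2 (fun y => φ y * wkgEta w ε y) y + lap2 (fun y => φ y * (1 - wkgEta w ε y)) y := by
      funext y
      rw [← wkg_lap_add (s1.of_le (WithTop.coe_le_coe.2 le_top)).contDiffAt (s2.of_le (WithTop.coe_le_coe.2 le_top)).contDiffAt]
      congr 1
      funext x
      ring
    -- Leibniz
    obtain ⟨hBq, hBq0⟩ := hLeib w ε hε l4.le
    set Bq : ℝ × ℝ → ℝ := fun x => lap2 (fun y => φ y * wkgEta w ε y) x - φ w * lap2 (wkgEta w ε) x with hBqdef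
    have cBq : Continuous Bq := (t1.lap' s1).cont.sub (continuous_const.mul tL.cont)
    have tBq : WkTest D Bq := wk_test_of_ball (by positivity) cBq hBq0 hB3
    have e2 : lap2 (fun y => φ y * wkgEta w ε y) = fun y => Bq y + (fun y => φ w * lap2 (wkgEta w ε) y) y := by
      funext y
      simp only [hBqdef]
      ring
    have e3 : T (lap2 φ ::ₘ wkRho w ε ::ₘ s) = T (Bq ::ₘ wkRho w ε ::ₘ s) + φ w * T (lap2 (wkgEta w ε) ::ₘ wkRho w ε ::ₘ s) := by
      rw [e1, W.add _ _ _ (t1.lap' s1) (t2.lap' s2) hρs, z1, add_zero, e2, W.add _ _ _ tBq (tL.smul' _) hρs, W.smul _ _ _ tL hρs]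
    -- sizes
    have z3 : WkSz D T (2 + Multiset.card s) Bq (Cs * (CB / ε * (3 * ε) ^ 2) * wkL (3 * ε)) :=
      hsz w hwK0 (3 * ε) (by positivity) l2.le (CB / ε) Bq tBq hBq hBq0
    have z4 : WkSz D T (2 + Multiset.card s) (wkRho w ε) (Cs * (A / ε ^ 2 * ε ^ 2) * wkL ε) :=
      hsz w hwK0 ε hε (by linarith) (A / ε ^ 2) (wkRho w ε) tρ (fun y => (hAρ w y ε hε).1) (fun y hy => wk_rho_zero w hε hy)
    have b1 := W.bd_mix ((Bq, Cs * (CB / ε * (3 * ε) ^ 2) * wkL (3 * ε)) ::ₘ {(wkRho w ε, Cs * (A / ε ^ 2 * ε ^ 2) * wkL ε)}) s hst (by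
      intro a ha
      rcases Multiset.mem_cons.1 ha with rfl | ha
      · simpa using z3
      · rw [Multiset.mem_singleton] at ha
        subst ha
        simpa using z4)
    simp only [Multiset.map_cons, Multiset.map_singleton, Multiset.cons_add, Multiset.singleton_add, Multiset.prod_cons,
      Multiset.prod_singleton, Multiset.card_cons, Multiset.card_singleton] at b1
    have hL1 : 1 ≤ wkL ε := wk_L_one_le hε l4.le
    have hL3 : wkL (3 * ε) ≤ wkL ε := wk_L_anti hε (by linarith)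
    have hL30 : 0 ≤ wkL (3 * ε) := z3.2.1 |> fun h => by
      by_contra hn
      have : 1 ≤ wkL (3 * ε) := wk_L_one_le (by positivity) (by linarith)
      linarith
    have b2 : |T (Bq ::ₘ wkRho w ε ::ₘ s)| ≤ C2 * (ε * wkL ε ^ 2) := by
      refine b1.trans ?_
      have q1 : Cs * (CB / ε * (3 * ε) ^ 2) * wkL (3 * ε) ≤ 9 * Cs * CB * ε * wkL ε := by
        have : Cs * (CB / ε * (3 * ε) ^ 2) = 9 * Cs * CB * ε := by field_simp; ring
        rw [this]
        exact mul_le_mul_of_nonneg_left hL3 (by positivity)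
      have q2 : Cs * (A / ε ^ 2 * ε ^ 2) * wkL ε = Cs * A * wkL ε := by field_simp
      rw [q2]
      have hPq' : (s.map (wkSzF D T (1 + 1 + Multiset.card s))).prod = Pq := by
        rw [hPq]
      rw [hPq']
      calc Cs * (CB / ε * (3 * ε) ^ 2) * wkL (3 * ε) * (Cs * A * wkL ε) * Pq
          ≤ 9 * Cs * CB * ε * wkL ε * (Cs * A * wkL ε) * Pq := by
            refine mul_le_mul_of_nonneg_right (mul_le_mul_of_nonneg_right q1 ?_) hPq0
            have : 0 ≤ wkL ε := by linarith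
            positivity
        _ = C2 * (ε * wkL ε ^ 2) := by rw [hC2]; ring
    have b3 := hflux w hwK0 ε hε l3
    have b4 := hL ε hε l5
    have e4 : T (lap2 φ ::ₘ wkRho w ε ::ₘ s) + v * T s * φ w
        = T (Bq ::ₘ wkRho w ε ::ₘ s) + φ w * (T (lap2 (wkgEta w ε) ::ₘ wkRho w ε ::ₘ s) + v * T s) := by
      rw [e3]; ring
    rw [e4]
    have c1 : C2 * (ε * wkL ε ^ 2) ≤ e / 2 := by
      calc C2 * (ε * wkL ε ^ 2) ≤ C2 * (e / (2 * (C2 + 1))) := mul_le_mul_of_nonneg_left b4 hC20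
        _ ≤ e / 2 := by
          rw [← mul_div_assoc, div_le_div_iff₀ (by positivity) (by positivity)]
          nlinarith
    have c2 : |φ w * (T (lap2 (wkgEta w ε) ::ₘ wkRho w ε ::ₘ s) + v * T s)| ≤ e / 2 := by
      rw [abs_mul]
      calc |φ w| * |T (lap2 (wkgEta w ε) ::ₘ wkRho w ε ::ₘ s) + v * T s| ≤ Mφ * (e / (2 * (Mφ + 1))) :=
            mul_le_mul (hMφ w) b3 (abs_nonneg _) hMφ0
        _ ≤ e / 2 := by
          rw [← mul_div_assoc, div_le_div_iff₀ (by positivity) (by positivity)]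
          nlinarith
    calc |T (Bq ::ₘ wkRho w ε ::ₘ s) + φ w * (T (lap2 (wkgEta w ε) ::ₘ wkRho w ε ::ₘ s) + v * T s)|
        ≤ |T (Bq ::ₘ wkRho w ε ::ₘ s)| + |φ w * (T (lap2 (wkgEta w ε) ::ₘ wkRho w ε ::ₘ s) + v * T s)| := abs_add_le _ _
      _ ≤ e / 2 + e / 2 := add_le_add (b2.trans c1) c2
      _ = e := by ring

/-- **SC (single collision).** -/
theorem WkData.sc (W : WkData D v T) (hD : IsOpen D) {φ g : ℝ × ℝ → ℝ} (hφ : ContDiff ℝ ∞ φ) (hc : HasCompactSupport φ)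
    (hsub : tsupport φ ⊆ D) (hg : WkTest D g) {s : Multiset (ℝ × ℝ → ℝ)} (hs : ∀ g ∈ s, WkTest D g ∧ Disjoint (tsupport g) (tsupport φ)) :
    T (lap2 φ ::ₘ g ::ₘ s) = -(v * (∫ x, φ x * g x) * T s) := by
  have tφ : WkTest D φ := ⟨hφ.continuous, hc, hsub⟩
  have hLs : ∀ k ∈ lap2 φ ::ₘ s, WkTest D k := by
    intro k hk
    rcases Multiset.mem_cons.1 hk with rfl | hk
    · exact tφ.lap' hφ
    · exact (hs k hk).1
  have hS : WkLin D (fun g' => T (g' ::ₘ lap2 φ ::ₘ s)) := W.lin hLs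
  rw [Multiset.cons_swap]
  refine eq_of_forall_dist_le fun e' he' => ?_
  have hI : Integrable fun y => |g y| := hg.integrable.abs
  have hI0 : 0 ≤ ∫ y, |g y| := integral_nonneg fun y => abs_nonneg _
  obtain ⟨e0, he0, hpt⟩ := W.sc_point hD hφ hc hsub hs (e := e' / (2 * ((∫ y, |g y|) + 1))) (by positivity)
  obtain ⟨e1, he1, hmoll⟩ := wk_lin_moll hS hD hg (ε := e' / 2) (by positivity)
  obtain ⟨δ, K, hδ, hK, hKO, hgK, hroom⟩ := wk_exists_room hD hg.comp.isCompact hg.sub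
  set ε : ℝ := min (min e0 e1) δ / 2 with hεdef
  have hm : 0 < min (min e0 e1) δ := lt_min (lt_min he0 he1) hδ
  have hε : 0 < ε := by positivity
  have l0 : ε < e0 := by
    have := (min_le_left (min e0 e1) δ).trans (min_le_left e0 e1); rw [hεdef]; linarith
  have l1 : ε < e1 := by
    have := (min_le_left (min e0 e1) δ).trans (min_le_right e0 e1); rw [hεdef]; linarith
  have l2 : ε ≤ δ := by
    have := min_le_right (min e0 e1) δ; rw [hεdef]; linarith
  have a1 := hmoll ε hε l1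
  have hint1 : Integrable fun y => g y * T (wkRho y ε ::ₘ lap2 φ ::ₘ s) :=
    wk_mol_integrable hS hD hK hKO hg.cont hg.comp (k := fun y => wkRho y ε) (wk_rho_continuous2 ε)
      (fun y hy w hw => wk_rho_zero y hε fun h => hw (hroom y hy ε hε l2 h))
  have hint2 : Integrable fun y => φ y * g y := (tφ.mul_right' hg.cont).integrable
  have a2 : |(∫ y, g y * T (wkRho y ε ::ₘ lap2 φ ::ₘ s)) + v * (∫ x, φ x * g x) * T s| ≤ e' / 2 := by
    have e1 : (∫ y, g y * T (wkRho y ε ::ₘ lap2 φ ::ₘ s)) + v * (∫ x, φ x * g x) * T s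
        = ∫ y, g y * (T (wkRho y ε ::ₘ lap2 φ ::ₘ s) + v * T s * φ y) := by
      have : (fun y => g y * (T (wkRho y ε ::ₘ lap2 φ ::ₘ s) + v * T s * φ y))
          = fun y => g y * T (wkRho y ε ::ₘ lap2 φ ::ₘ s) + (v * T s) * (φ y * g y) := by
        funext y; ring
      rw [this, integral_add hint1 (hint2.const_mul _), integral_const_mul]
      ring
    rw [e1]
    have hb : ∀ y, ‖g y * (T (wkRho y ε ::ₘ lap2 φ ::ₘ s) + v * T s * φ y)‖ ≤ (e' / (2 * ((∫ y, |g y|) + 1))) * |g y| := by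
      intro y
      rw [norm_mul, Real.norm_eq_abs, Real.norm_eq_abs, mul_comm]
      by_cases hy : y ∈ tsupport g
      · refine mul_le_mul_of_nonneg_right ?_ (abs_nonneg _)
        rw [Multiset.cons_swap]
        exact hpt ε hε l0 y ((hroom y hy ε hε l2).trans hKO)
      · rw [image_eq_zero_of_notMem_tsupport hy]; simp
    calc |∫ y, g y * (T (wkRho y ε ::ₘ lap2 φ ::ₘ s) + v * T s * φ y)|
        ≤ ∫ y, (e' / (2 * ((∫ y, |g y|) + 1))) * |g y| := norm_integral_le_of_norm_le (hI.const_mul _) (Eventually.of_forall hb)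
      _ = (e' / (2 * ((∫ y, |g y|) + 1))) * ∫ y, |g y| := integral_const_mul _ _
      _ ≤ e' / 2 := by
        rw [div_mul_eq_mul_div, div_le_div_iff₀ (by positivity) (by positivity)]
        nlinarith
  rw [Real.dist_eq]
  have e5 : T (g ::ₘ lap2 φ ::ₘ s) - -(v * (∫ x, φ x * g x) * T s)
      = -((∫ y, g y * T (wkRho y ε ::ₘ lap2 φ ::ₘ s)) - T (g ::ₘ lap2 φ ::ₘ s))
        + ((∫ y, g y * T (wkRho y ε ::ₘ lap2 φ ::ₘ s)) + v * (∫ x, φ x * g x) * T s) := by ring
  rw [e5]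
  calc |-((∫ y, g y * T (wkRho y ε ::ₘ lap2 φ ::ₘ s)) - T (g ::ₘ lap2 φ ::ₘ s))
        + ((∫ y, g y * T (wkRho y ε ::ₘ lap2 φ ::ₘ s)) + v * (∫ x, φ x * g x) * T s)|
      ≤ |-((∫ y, g y * T (wkRho y ε ::ₘ lap2 φ ::ₘ s)) - T (g ::ₘ lap2 φ ::ₘ s))|
        + |(∫ y, g y * T (wkRho y ε ::ₘ lap2 φ ::ₘ s)) + v * (∫ x, φ x * g x) * T s| := abs_add_le _ _
    _ ≤ e' / 2 + e' / 2 := by
      rw [abs_neg]
      exact add_le_add a1 a2
    _ = e' := by ring

end Claimed.Agent.R291
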