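import Claimed.Agent.R291.Wick.Weyl
import Claimed.Agent.R291.Wick.Green

/-!
# Row 291 (S0539), Wick/Mol : ORDER-0 FUNCTIONALS: MOL (exchange with integrals), MOLLIFICATION, L2G (local to global), END      (owner helper175; prefix `wk_`, structures `Wk*`)      complete

Abstract functionals `S : (ℝ × ℝ → ℝ) → ℝ` on the tests `WkTest O g` (Wick/Weyl) of a planar region `O` (only `IsOpen O`).
* `WkLin O S` : additive + homogeneous on tests, `|S g| ≤ C_K sup|g|` for `tsupport g ⊆ K`.   `WkHarm.lin`, `WkLin.toHarm`, `.mono`, `.zero`, `.sub`, `.sum`, `.lip`,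
  `.add_fun`, `.smul_fun`, `.comp_mul` (`g ↦ S (b g)`), `wk_lin_integral` (`g ↦ ∫ g u`, `u` continuous on `O`); tests: `.mono`, `.mul_left/right`, `.sum`, `wk_test_zero`, `wk_test_lap`
* `wk_exists_cutoff`, `wk_lin_clm`, `wk_exists_family` (tools)
* **`wk_mol`** : `S (w ↦ ∫ b(y) k(y,w) dy) = ∫ b(y) S (k y) dy`, `k` jointly continuous, slices `k y` (`y ∈ tsupport b`) zero off a compact `K ⊆ O`;
  `wk_mol_test` (the left function is a test supported in `K`), `wk_mol_integrable`, `wk_lin_continuousOn` (`y ↦ S (k y)`)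
* bumps: `wk_rho_lap_scale`, `wk_rho_lap_symm`, `wk_rho_lap_continuous2`, `wk_rho_lap_zero`, **`wk_rho_sizes`** (`|ρ_{z,h}| ≤ A h⁻²`, `|Δρ_{z,h}| ≤ A h⁻⁴`)
* `wk_exists_room`, **`wk_lin_moll`** : `∫ g(y) S(ρ_{y,e}) dy → S g`;  `wk_moll_lap` : `(Δφ) * ρ_e = ∫ φ(y) Δρ_{y,e} dy`
* **`wk_l2g`** : `S (Δρ_{y,e}) → m y` uniformly on compacts of `O`  ⟹  `S (Δφ) = ∫ φ m` for ALL smooth `φ` with compact support in `O`
* depth: `wk_dep_pos`, `wk_ball_subset_of_dep`, `wk_small_near_frontier`, `wk_deep_compact`, `wk_rho_avg_le`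
* **`wk_end`** : `D` open bounded, `WkLin D S₀`, `S₀ (Δφ) = -c ∫ φ f`, boundary decay of `S₀ (ρ_{z, θ depth z})`, the frozen hypotheses on `u`  ⟹  `S₀ g = c ∫ g u` for every test
-/

set_option autoImplicit false

namespace Claimed.Agent.R291

open MeasureTheory Filter Topology Set
open scoped ContDiff BoundedContinuousFunction
open Claims Claims.C0467

/-! ### linear functionals of order `0` -/

/-- a linear functional of order `0` on the tests of `O` -/
structure WkLin (O : Set (ℝ × ℝ)) (S : (ℝ × ℝ → ℝ) → ℝ) : Prop where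
  add : ∀ g g', WkTest O g → WkTest O g' → S (fun x => g x + g' x) = S g + S g'
  smul : ∀ (c : ℝ) g, WkTest O g → S (fun x => c * g x) = c * S g
  bdd : ∀ K, IsCompact K → K ⊆ O → ∃ C : ℝ, 0 ≤ C ∧ ∀ g (M : ℝ), WkTest O g → tsupport g ⊆ K → (∀ x, |g x| ≤ M) → |S g| ≤ C * M

theorem WkHarm.lin {O : Set (ℝ × ℝ)} {S : (ℝ × ℝ → ℝ) → ℝ} (hS : WkHarm O S) : WkLin O S := ⟨hS.add, hS.smul, hS.bdd⟩

theorem WkLin.toHarm {O : Set (ℝ × ℝ)} {S : (ℝ × ℝ → ℝ) → ℝ} (hS : WkLin O S)
    (h : ∀ φ : ℝ × ℝ → ℝ, ContDiff ℝ ∞ φ → HasCompactSupport φ → tsupport φ ⊆ O → S (lap2 φ) = 0) : WkHarm O S :=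
  ⟨hS.add, hS.smul, hS.bdd, h⟩

theorem WkTest.mono {O O' : Set (ℝ × ℝ)} {g : ℝ × ℝ → ℝ} (h : WkTest O' g) (hO : O' ⊆ O) : WkTest O g :=
  ⟨h.cont, h.comp, h.sub.trans hO⟩

theorem wk_test_zero (O : Set (ℝ × ℝ)) : WkTest O (fun _ => 0) :=
  ⟨continuous_const, HasCompactSupport.zero, by
    have : tsupport (fun _ : ℝ × ℝ => (0 : ℝ)) = ∅ := by
      rw [tsupport_eq_empty_iff]; rfl
    rw [this]; exact empty_subset _⟩

theorem WkTest.mul_left {O : Set (ℝ × ℝ)} {g b : ℝ × ℝ → ℝ} (h : WkTest O g) (hb : Continuous b) :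
    WkTest O (fun x => b x * g x) :=
  ⟨hb.mul h.cont, h.comp.mul_left, (tsupport_mul_subset_right).trans h.sub⟩

theorem WkTest.mul_right {O : Set (ℝ × ℝ)} {g b : ℝ × ℝ → ℝ} (h : WkTest O g) (hb : Continuous b) :
    WkTest O (fun x => g x * b x) :=
  ⟨h.cont.mul hb, h.comp.mul_right, (tsupport_mul_subset_left).trans h.sub⟩

theorem WkTest.sum {O : Set (ℝ × ℝ)} {ι : Type*} (s : Finset ι) {g : ι → ℝ × ℝ → ℝ} (h : ∀ i ∈ s, WkTest O (g i)) :
    WkTest O (fun x => ∑ i ∈ s, g i x) := by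
  classical
  induction s using Finset.induction_on with
  | empty => simpa using wk_test_zero O
  | insert a s ha ih =>
    have := (h a (Finset.mem_insert_self a s)).add' (ih fun i hi => h i (Finset.mem_insert_of_mem hi))
    simpa [Finset.sum_insert ha] using this

/-- the Laplacian of a smooth compactly supported function is a test -/
theorem wk_test_lap {O : Set (ℝ × ℝ)} {φ : ℝ × ℝ → ℝ} (h1 : ContDiff ℝ ∞ φ) (h2 : HasCompactSupport φ)
    (h3 : tsupport φ ⊆ O) : WkTest O (lap2 φ) :=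
  ⟨wkg_lap_continuous (contDiff_infty.1 h1 2), wkg_lap_compact h2, (wkg_lap_tsupport φ).trans h3⟩

theorem WkLin.mono {O O' : Set (ℝ × ℝ)} {S : (ℝ × ℝ → ℝ) → ℝ} (hS : WkLin O S) (hO : O' ⊆ O) : WkLin O' S where
  add := fun g g' h h' => hS.add g g' (h.mono hO) (h'.mono hO)
  smul := fun c g h => hS.smul c g (h.mono hO)
  bdd := fun K hK hKO => by
    obtain ⟨C, hC0, hC⟩ := hS.bdd K hK (hKO.trans hO)
    exact ⟨C, hC0, fun g M hg hs hM => hC g M (hg.mono hO) hs hM⟩

theorem WkLin.zero {O : Set (ℝ × ℝ)} {S : (ℝ × ℝ → ℝ) → ℝ} (hS : WkLin O S) : S (fun _ => 0) = 0 := by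
  have := hS.smul 0 _ (wk_test_zero O)
  simpa using this

theorem WkLin.sub {O : Set (ℝ × ℝ)} {S : (ℝ × ℝ → ℝ) → ℝ} (hS : WkLin O S) {g g' : ℝ × ℝ → ℝ} (h : WkTest O g)
    (h' : WkTest O g') : S (fun x => g x - g' x) = S g - S g' := by
  have e : (fun x => g x - g' x) = fun x => g x + (-1) * g' x := by funext x; ring
  rw [e, hS.add _ _ h (h'.smul' (-1)), hS.smul _ _ h']
  ring

theorem WkLin.sum {O : Set (ℝ × ℝ)} {S : (ℝ × ℝ → ℝ) → ℝ} (hS : WkLin O S) {ι : Type*} (s : Finset ι)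
    {g : ι → ℝ × ℝ → ℝ} (h : ∀ i ∈ s, WkTest O (g i)) : S (fun x => ∑ i ∈ s, g i x) = ∑ i ∈ s, S (g i) := by
  classical
  induction s using Finset.induction_on with
  | empty => simpa using hS.zero
  | insert a s ha ih =>
    have h1 := hS.add _ _ (h a (Finset.mem_insert_self a s))
      (WkTest.sum s fun i hi => h i (Finset.mem_insert_of_mem hi))
    rw [Finset.sum_insert ha, ← ih fun i hi => h i (Finset.mem_insert_of_mem hi), ← h1]
    congr 1
    funext x
    rw [Finset.sum_insert ha]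

/-- Lipschitz bound in the sup norm, supports in a fixed compact -/
theorem WkLin.lip {O : Set (ℝ × ℝ)} {S : (ℝ × ℝ → ℝ) → ℝ} (hS : WkLin O S) {K : Set (ℝ × ℝ)} (hK : IsCompact K)
    (hKO : K ⊆ O) : ∃ C : ℝ, 0 ≤ C ∧ ∀ g g' (M : ℝ), WkTest O g → WkTest O g' → tsupport g ⊆ K → tsupport g' ⊆ K →
      (∀ x, |g x - g' x| ≤ M) → |S g - S g'| ≤ C * M := by
  obtain ⟨C, hC0, hC⟩ := hS.bdd K hK hKO
  refine ⟨C, hC0, fun g g' M hg hg' hs hs' hM => ?_⟩
  rw [← hS.sub hg hg']
  exact hC _ M (hg.sub' hg') (wk_tsupport_sub hs hs') hM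

theorem WkLin.add_fun {O : Set (ℝ × ℝ)} {S S' : (ℝ × ℝ → ℝ) → ℝ} (hS : WkLin O S) (hS' : WkLin O S') :
    WkLin O (fun g => S g + S' g) where
  add := fun g g' h h' => by rw [hS.add g g' h h', hS'.add g g' h h']; ring
  smul := fun c g h => by rw [hS.smul c g h, hS'.smul c g h]; ring
  bdd := fun K hK hKO => by
    obtain ⟨C, hC0, hC⟩ := hS.bdd K hK hKO
    obtain ⟨C', hC0', hC'⟩ := hS'.bdd K hK hKO
    refine ⟨C + C', by positivity, fun g M hg hs hM => ?_⟩
    calc |S g + S' g| ≤ |S g| + |S' g| := abs_add_le _ _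
      _ ≤ C * M + C' * M := add_le_add (hC g M hg hs hM) (hC' g M hg hs hM)
      _ = (C + C') * M := by ring

theorem WkLin.smul_fun {O : Set (ℝ × ℝ)} {S : (ℝ × ℝ → ℝ) → ℝ} (hS : WkLin O S) (a : ℝ) :
    WkLin O (fun g => a * S g) where
  add := fun g g' h h' => by rw [hS.add g g' h h']; ring
  smul := fun c g h => by rw [hS.smul c g h]; ring
  bdd := fun K hK hKO => by
    obtain ⟨C, hC0, hC⟩ := hS.bdd K hK hKO
    refine ⟨|a| * C, by positivity, fun g M hg hs hM => ?_⟩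
    rw [abs_mul, mul_assoc]
    exact mul_le_mul_of_nonneg_left (hC g M hg hs hM) (abs_nonneg a)

/-- multiplication of the argument by a fixed continuous function -/
theorem WkLin.comp_mul {O : Set (ℝ × ℝ)} {S : (ℝ × ℝ → ℝ) → ℝ} (hS : WkLin O S) {b : ℝ × ℝ → ℝ} (hb : Continuous b) :
    WkLin O (fun g => S (fun x => b x * g x)) where
  add := fun g g' h h' => by
    rw [← hS.add _ _ (h.mul_left hb) (h'.mul_left hb)]
    congr 1; funext x; ring
  smul := fun c g h => by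
    rw [← hS.smul _ _ (h.mul_left hb)]
    congr 1; funext x; ring
  bdd := fun K hK hKO => by
    obtain ⟨C, hC0, hC⟩ := hS.bdd K hK hKO
    obtain ⟨B, hB⟩ := hK.exists_bound_of_continuousOn hb.continuousOn
    have hB0 : 0 ≤ max B 0 := le_max_right _ _
    refine ⟨C * max B 0, by positivity, fun g M hg hs hM => ?_⟩
    rw [mul_assoc]
    refine hC _ _ (hg.mul_left hb) ((tsupport_mul_subset_right).trans hs) fun x => ?_
    by_cases hx : x ∈ K
    · rw [abs_mul]
      exact mul_le_mul ((hB x hx).trans (le_max_left _ _)) (hM x) (abs_nonneg _) hB0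
    · rw [image_eq_zero_of_notMem_tsupport fun h => hx (hs h), mul_zero, abs_zero]
      exact mul_nonneg hB0 ((abs_nonneg _).trans (hM x))

/-- product of a test with a function continuous on `O` -/
theorem wk_mul_continuous {O : Set (ℝ × ℝ)} (hO : IsOpen O) {u g : ℝ × ℝ → ℝ} (hu : ContinuousOn u O)
    (hg : WkTest O g) : Continuous fun z => g z * u z := by
  rw [continuous_iff_continuousAt]
  intro z
  by_cases hz : z ∈ O
  · exact hg.cont.continuousAt.mul (hu.continuousAt (hO.mem_nhds hz))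
  · have h0 : (fun z => g z * u z) =ᶠ[𝓝 z] fun _ => 0 := by
      have : g =ᶠ[𝓝 z] fun _ => 0 := notMem_tsupport_iff_eventuallyEq.1 fun h => hz (hg.sub h)
      filter_upwards [this] with y hy
      rw [hy, zero_mul]
    exact (continuousAt_const).congr h0.symm

theorem wk_mul_integrable {O : Set (ℝ × ℝ)} (hO : IsOpen O) {u g : ℝ × ℝ → ℝ} (hu : ContinuousOn u O)
    (hg : WkTest O g) : Integrable fun z => g z * u z :=
  (wk_mul_continuous hO hu hg).integrable_of_hasCompactSupport hg.comp.mul_right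

/-- integration against a function continuous on `O` -/
theorem wk_lin_integral {O : Set (ℝ × ℝ)} (hO : IsOpen O) {u : ℝ × ℝ → ℝ} (hu : ContinuousOn u O) :
    WkLin O (fun g => ∫ z, g z * u z) where
  add := fun g g' h h' => by
    rw [← integral_add (wk_mul_integrable hO hu h) (wk_mul_integrable hO hu h')]
    congr 1; funext x; ring
  smul := fun c g h => by
    rw [← integral_const_mul]
    congr 1; funext x; ring
  bdd := fun K hK hKO => by
    obtain ⟨B, hB⟩ := hK.exists_bound_of_continuousOn (hu.mono hKO)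
    have hB0 : 0 ≤ max B 0 := le_max_right _ _
    refine ⟨max B 0 * volume.real K, by positivity, fun g M hg hs hM => ?_⟩
    have e : ∫ z, g z * u z = ∫ z in K, g z * u z := by
      refine (setIntegral_eq_integral_of_forall_compl_eq_zero fun x hx => ?_).symm
      rw [image_eq_zero_of_notMem_tsupport fun h => hx (hs h), zero_mul]
    rw [e]
    have := norm_setIntegral_le_of_norm_le_const (μ := volume) (s := K) (f := fun z => g z * u z)
      (C := M * max B 0) hK.measure_lt_top (fun x hx => by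
        rw [norm_mul]
        exact mul_le_mul (hM x) ((hB x hx).trans (le_max_left _ _)) (norm_nonneg _) ((abs_nonneg _).trans (hM x)))
    rw [Real.norm_eq_abs] at this
    linarith [this]

/-! ### MOL : exchange of an order `0` functional with an integral -/

/-- continuous cutoff: `1` on the compact `K`, a test of `O`, values in `[0,1]` -/
theorem wk_exists_cutoff {O K : Set (ℝ × ℝ)} (hO : IsOpen O) (hK : IsCompact K) (hKO : K ⊆ O) :
    ∃ χ : ℝ × ℝ → ℝ, WkTest O χ ∧ (∀ x ∈ K, χ x = 1) ∧ ∀ x, 0 ≤ χ x ∧ χ x ≤ 1 := by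
  obtain ⟨K2, hK2, h12, h2O⟩ := exists_compact_between hK hO hKO
  obtain ⟨χ, hχ1, hχ0, hχc, hχI⟩ := exists_continuous_one_zero_of_isCompact hK isOpen_interior.isClosed_compl
    (disjoint_compl_right_iff_subset.mpr h12)
  have hχs : tsupport χ ⊆ K2 := by
    refine closure_minimal (fun x hx => ?_) hK2.isClosed
    by_contra hc
    exact hx (hχ0 (fun hi => hc (interior_subset hi)))
  exact ⟨χ, ⟨χ.continuous, hχc, hχs.trans h2O⟩, fun x hx => hχ1 hx, fun x => hχI x⟩

/-- a cutoff turns the functional into a continuous linear form on the bounded continuous functions -/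
theorem wk_lin_clm {O : Set (ℝ × ℝ)} {S : (ℝ × ℝ → ℝ) → ℝ} (hS : WkLin O S) {χ : ℝ × ℝ → ℝ} (hχ : WkTest O χ)
    (h1 : ∀ x, |χ x| ≤ 1) : ∃ Λ : ((ℝ × ℝ) →ᵇ ℝ) →L[ℝ] ℝ, ∀ F : (ℝ × ℝ) →ᵇ ℝ, Λ F = S (fun x => χ x * F x) := by
  obtain ⟨C, hC0, hC⟩ := hS.bdd _ hχ.comp.isCompact hχ.sub
  have ht : ∀ F : (ℝ × ℝ) →ᵇ ℝ, WkTest O (fun x => χ x * F x) := fun F =>
    ⟨hχ.cont.mul F.continuous, hχ.comp.mul_right, (tsupport_mul_subset_left).trans hχ.sub⟩
  let L : ((ℝ × ℝ) →ᵇ ℝ) →ₗ[ℝ] ℝ :=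
    { toFun := fun F => S (fun x => χ x * F x)
      map_add' := fun F G => by
        rw [← hS.add _ _ (ht F) (ht G)]
        congr 1
        funext x
        simp [mul_add]
      map_smul' := fun c F => by
        simp only [RingHom.id_apply, smul_eq_mul]
        rw [← hS.smul _ _ (ht F)]
        congr 1
        funext x
        simp only [BoundedContinuousFunction.coe_smul, smul_eq_mul]
        ring }
  refine ⟨L.mkContinuous C fun F => ?_, fun F => rfl⟩
  refine hC _ _ (ht F) tsupport_mul_subset_left fun x => ?_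
  rw [abs_mul]
  calc |χ x| * |F x| ≤ 1 * ‖F‖ := mul_le_mul (h1 x) (F.norm_coe_le_norm x) (abs_nonneg _) zero_le_one
    _ = ‖F‖ := one_mul _

/-- a jointly continuous kernel cut off by a compactly supported function is a continuous family of bounded continuous functions -/
theorem wk_exists_family {χ : ℝ × ℝ → ℝ} (hc : Continuous χ) (hs : HasCompactSupport χ) (h1 : ∀ x, |χ x| ≤ 1)
    {k : ℝ × ℝ → ℝ × ℝ → ℝ} (hk : Continuous fun p : (ℝ × ℝ) × (ℝ × ℝ) => k p.1 p.2) :
    ∃ Φ : ℝ × ℝ → ((ℝ × ℝ) →ᵇ ℝ), Continuous Φ ∧ ∀ y w, Φ y w = χ w * k y w := by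
  have hky : ∀ y, Continuous (k y) := fun y => hk.comp (Continuous.prodMk_right y)
  have hcy : ∀ y, Continuous fun w => χ w * k y w := fun y => hc.mul (hky y)
  have hby : ∀ y, ∃ C, ∀ w, ‖χ w * k y w‖ ≤ C := fun y =>
    (hs.mul_right (f' := k y)).exists_bound_of_continuous (hcy y)
  refine ⟨fun y => BoundedContinuousFunction.ofNormedAddCommGroup (fun w => χ w * k y w) (hcy y) (hby y).choose
    (hby y).choose_spec, ?_, fun y w => rfl⟩
  rw [Metric.continuous_iff]
  intro y₀ ε hε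
  have hu : {p : ℝ × ℝ | dist p.1 p.2 < ε / 2} ∈ uniformity ℝ := Metric.dist_mem_uniformity (by positivity)
  obtain ⟨v, hv, hvk⟩ := IsCompact.mem_uniformity_of_prod (f := k) (s := univ) (q := y₀) hs.isCompact
    (by exact hk.continuousOn) (mem_univ _) hu
  rw [nhdsWithin_univ] at hv
  obtain ⟨d, hd, hdv⟩ := Metric.mem_nhds_iff.1 hv
  refine ⟨d, hd, fun y hy => ?_⟩
  refine lt_of_le_of_lt ((BoundedContinuousFunction.dist_le (by positivity)).2 fun w => ?_) (half_lt_self hε)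
  show dist (χ w * k y w) (χ w * k y₀ w) ≤ ε / 2
  rw [Real.dist_eq, ← mul_sub, abs_mul]
  by_cases hw : w ∈ tsupport χ
  · have h2 := hvk y (hdv hy) w hw
    have h2 : |k y w - k y₀ w| < ε / 2 := by rw [← Real.dist_eq]; exact h2
    calc |χ w| * |k y w - k y₀ w| ≤ 1 * (ε / 2) := mul_le_mul (h1 w) h2.le (abs_nonneg _) zero_le_one
      _ = ε / 2 := one_mul _
  · rw [image_eq_zero_of_notMem_tsupport hw, abs_zero, zero_mul]
    positivity

/-- **MOL** : `S (w ↦ ∫ b(y) k(y,w) dy) = ∫ b(y) S (k(y,·)) dy` for a jointly continuous kernel whose slices `k y`, `y ∈ tsupport b`, vanish off a fixed compact `K ⊆ O` -/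
theorem wk_mol {O : Set (ℝ × ℝ)} {S : (ℝ × ℝ → ℝ) → ℝ} (hS : WkLin O S) (hO : IsOpen O) {K : Set (ℝ × ℝ)}
    (hK : IsCompact K) (hKO : K ⊆ O) {b : ℝ × ℝ → ℝ} (hb : Continuous b) (hbc : HasCompactSupport b)
    {k : ℝ × ℝ → ℝ × ℝ → ℝ} (hk : Continuous fun p : (ℝ × ℝ) × (ℝ × ℝ) => k p.1 p.2)
    (hks : ∀ y ∈ tsupport b, ∀ w, w ∉ K → k y w = 0) :
    S (fun w => ∫ y, b y * k y w) = ∫ y, b y * S (k y) := by
  obtain ⟨χ, hχt, hχ1, hχI⟩ := wk_exists_cutoff hO hK hKO
  have habs : ∀ x, |χ x| ≤ 1 := fun x => by rw [abs_of_nonneg (hχI x).1]; exact (hχI x).2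
  obtain ⟨Λ, hΛ⟩ := wk_lin_clm hS hχt habs
  obtain ⟨Φ, hΦc, hΦ⟩ := wk_exists_family hχt.cont hχt.comp habs hk
  have hint : Integrable fun y => b y • Φ y :=
    (hb.smul hΦc).integrable_of_hasCompactSupport hbc.smul_right
  have h1 := ContinuousLinearMap.integral_comp_comm Λ hint
  have e1 : ∀ w, (∫ y, b y • Φ y) w = χ w * ∫ y, b y * k y w := by
    intro w
    have := ContinuousLinearMap.integral_comp_comm (BoundedContinuousFunction.evalCLM ℝ w) hint
    simp only [BoundedContinuousFunction.evalCLM_apply] at this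
    rw [← this, ← integral_const_mul]
    refine integral_congr_ae (Eventually.of_forall fun y => ?_)
    simp only [BoundedContinuousFunction.coe_smul, smul_eq_mul, hΦ]
    ring
  have e2 : Λ (∫ y, b y • Φ y) = S (fun w => ∫ y, b y * k y w) := by
    rw [hΛ]
    congr 1
    funext w
    rw [e1]
    by_cases hw : w ∈ K
    · rw [hχ1 w hw, one_mul, one_mul]
    · have : ∫ y, b y * k y w = 0 := by
        have : (fun y => b y * k y w) = fun _ => 0 := by
          funext y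
          by_cases hy : y ∈ tsupport b
          · rw [hks y hy w hw, mul_zero]
          · rw [image_eq_zero_of_notMem_tsupport hy, zero_mul]
        rw [this, integral_zero]
      rw [this, mul_zero, mul_zero]
  rw [← e2, ← h1]
  refine integral_congr_ae (Eventually.of_forall fun y => ?_)
  simp only [map_smul, smul_eq_mul]
  by_cases hy : y ∈ tsupport b
  · rw [hΛ]
    congr 2
    funext w
    rw [hΦ]
    by_cases hw : w ∈ K
    · rw [hχ1 w hw, one_mul, one_mul]
    · rw [hks y hy w hw, mul_zero, mul_zero]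
  · rw [image_eq_zero_of_notMem_tsupport hy, zero_mul, zero_mul]

/-- continuity of `y ↦ S (k y)` on the set where the slices are supported in `K` -/
theorem wk_lin_continuousOn {O : Set (ℝ × ℝ)} {S : (ℝ × ℝ → ℝ) → ℝ} (hS : WkLin O S) (hO : IsOpen O) {K A : Set (ℝ × ℝ)}
    (hK : IsCompact K) (hKO : K ⊆ O) {k : ℝ × ℝ → ℝ × ℝ → ℝ} (hk : Continuous fun p : (ℝ × ℝ) × (ℝ × ℝ) => k p.1 p.2)
    (hks : ∀ y ∈ A, ∀ w, w ∉ K → k y w = 0) : ContinuousOn (fun y => S (k y)) A := by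
  obtain ⟨χ, hχt, hχ1, hχI⟩ := wk_exists_cutoff hO hK hKO
  have habs : ∀ x, |χ x| ≤ 1 := fun x => by rw [abs_of_nonneg (hχI x).1]; exact (hχI x).2
  obtain ⟨Λ, hΛ⟩ := wk_lin_clm hS hχt habs
  obtain ⟨Φ, hΦc, hΦ⟩ := wk_exists_family hχt.cont hχt.comp habs hk
  refine (Λ.continuous.comp hΦc).continuousOn.congr fun y hy => ?_
  simp only [Function.comp_apply]
  rw [hΛ]
  congr 1
  funext w
  rw [hΦ]
  by_cases hw : w ∈ K
  · rw [hχ1 w hw, one_mul, one_mul]
  · rw [hks y hy w hw, mul_zero, mul_zero]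

/-! ### the Laplacian of the bumps -/

/-- scaling of the Laplacian of the bump -/
theorem wk_rho_lap_scale (z x : ℝ × ℝ) (h : ℝ) :
    lap2 (wkRho z h) x = (h ^ 4)⁻¹ * lap2 (wkRho 0 1) (h⁻¹ • (x - z)) := by
  have e : wkRho z h = fun x => (h ^ 2)⁻¹ * wkRho 0 1 (h⁻¹ • (x - z)) := funext fun x => wk_rho_scale z x h
  rw [e, wkg_lap_smul, wkg_lap_affine]
  rw [inv_pow, ← mul_assoc, ← mul_inv, ← pow_add]

theorem wk_rho_even (x : ℝ × ℝ) (h : ℝ) : wkRho 0 h (-x) = wkRho 0 h x := by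
  unfold wkRho wkRa
  have : sqDist (-x) 0 = sqDist x 0 := by simp [sqDist]
  rw [this]

theorem wk_rho_lap_even (x : ℝ × ℝ) : lap2 (wkRho 0 1) (-x) = lap2 (wkRho 0 1) x := by
  have h := wkg_lap_affine (-1) 0 (wkRho 0 1) x
  have e : (fun y : ℝ × ℝ => wkRho 0 1 ((-1 : ℝ) • (y - 0))) = wkRho 0 1 := by
    funext y
    rw [sub_zero, neg_one_smul, wk_rho_even]
  rw [e, sub_zero, neg_one_smul] at h
  rw [h]; ring

/-- symmetry in (centre, point) -/
theorem wk_rho_lap_symm (z x : ℝ × ℝ) (h : ℝ) : lap2 (wkRho z h) x = lap2 (wkRho x h) z := by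
  rw [wk_rho_lap_scale, wk_rho_lap_scale x z, ← wk_rho_lap_even (h⁻¹ • (z - x)), ← smul_neg, neg_sub]

theorem wk_rho_lap_continuous2 (h : ℝ) : Continuous fun p : (ℝ × ℝ) × (ℝ × ℝ) => lap2 (wkRho p.1 h) p.2 := by
  have e : (fun p : (ℝ × ℝ) × (ℝ × ℝ) => lap2 (wkRho p.1 h) p.2)
      = fun p => (h ^ 4)⁻¹ * lap2 (wkRho 0 1) (h⁻¹ • (p.2 - p.1)) := funext fun p => wk_rho_lap_scale _ _ _
  rw [e]
  have hc : Continuous fun p : (ℝ × ℝ) × (ℝ × ℝ) => h⁻¹ • (p.2 - p.1) := by fun_prop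
  exact continuous_const.mul ((wkg_lap_continuous (contDiff_infty.1 (wk_rho_contDiff 0 1) 2)).comp hc)

theorem wk_rho_lap_zero (z : ℝ × ℝ) {h : ℝ} (hh : 0 < h) {x : ℝ × ℝ} (hx : x ∉ wkBall z h) : lap2 (wkRho z h) x = 0 :=
  image_eq_zero_of_notMem_tsupport fun hc => hx (wk_rho_tsupport z hh (wkg_lap_tsupport _ hc))

/-- sizes: `ρ_{z,h} ≤ A h⁻²`, `|Δ ρ_{z,h}| ≤ A h⁻⁴`, one constant for all centres and radii -/
theorem wk_rho_sizes : ∃ A : ℝ, 0 ≤ A ∧ ∀ (z x : ℝ × ℝ) (h : ℝ), 0 < h →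
    |wkRho z h x| ≤ A / h ^ 2 ∧ |lap2 (wkRho z h) x| ≤ A / h ^ 4 := by
  obtain ⟨M, hM⟩ := (wk_rho_compact 0 one_pos).exists_bound_of_continuous (wk_rho_continuous 0 1)
  obtain ⟨M', hM'⟩ := (wkg_lap_compact (wk_rho_compact 0 one_pos)).exists_bound_of_continuous
    (wkg_lap_continuous (contDiff_infty.1 (wk_rho_contDiff 0 1) 2))
  have h0 : 0 ≤ M := (norm_nonneg _).trans (hM 0)
  refine ⟨max M M', h0.trans (le_max_left _ _), fun z x h hh => ⟨?_, ?_⟩⟩
  · rw [wk_rho_scale, abs_mul, abs_of_pos (by positivity : 0 < (h ^ 2)⁻¹), div_eq_inv_mul]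
    exact mul_le_mul_of_nonneg_left ((hM _).trans (le_max_left _ _)) (by positivity)
  · rw [wk_rho_lap_scale, abs_mul, abs_of_pos (by positivity : 0 < (h ^ 4)⁻¹), div_eq_inv_mul]
    exact mul_le_mul_of_nonneg_left ((hM' _).trans (le_max_right _ _)) (by positivity)

/-! ### MOL, complete package -/

/-- the function produced by MOL is a test supported in `K` -/
theorem wk_mol_test {O : Set (ℝ × ℝ)} {K : Set (ℝ × ℝ)}
    (hK : IsCompact K) (hKO : K ⊆ O) {b : ℝ × ℝ → ℝ} (hb : Continuous b) (hbc : HasCompactSupport b)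
    {k : ℝ × ℝ → ℝ × ℝ → ℝ} (hk : Continuous fun p : (ℝ × ℝ) × (ℝ × ℝ) => k p.1 p.2)
    (hks : ∀ y ∈ tsupport b, ∀ w, w ∉ K → k y w = 0) :
    WkTest O (fun w => ∫ y, b y * k y w) ∧ tsupport (fun w => ∫ y, b y * k y w) ⊆ K := by
  have hz : ∀ w, w ∉ K → ∫ y, b y * k y w = 0 := by
    intro w hw
    have : (fun y => b y * k y w) = fun _ => 0 := by
      funext y
      by_cases hy : y ∈ tsupport b
      · rw [hks y hy w hw, mul_zero]
      · rw [image_eq_zero_of_notMem_tsupport hy, zero_mul]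
    rw [this, integral_zero]
  have hsub : tsupport (fun w => ∫ y, b y * k y w) ⊆ K :=
    closure_minimal (fun w hw => by
      by_contra hc
      exact hw (hz w hc)) hK.isClosed
  have hcont : Continuous fun w => ∫ y, b y * k y w := by
    have h1 : Continuous (Function.uncurry fun (w : ℝ × ℝ) (y : ℝ × ℝ) => b y * k y w) :=
      (hb.comp continuous_snd).mul (hk.comp (continuous_snd.prodMk continuous_fst))
    have h2 := continuous_parametric_integral_of_continuous (μ := volume) h1 hbc.isCompact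
    refine h2.congr fun w => ?_
    refine setIntegral_eq_integral_of_forall_compl_eq_zero fun y hy => ?_
    rw [image_eq_zero_of_notMem_tsupport hy, zero_mul]
  exact ⟨⟨hcont, hK.of_isClosed_subset (isClosed_tsupport _) hsub, hsub.trans hKO⟩, hsub⟩

/-- integrability of the right side of MOL -/
theorem wk_mol_integrable {O : Set (ℝ × ℝ)} {S : (ℝ × ℝ → ℝ) → ℝ} (hS : WkLin O S) (hO : IsOpen O) {K : Set (ℝ × ℝ)}
    (hK : IsCompact K) (hKO : K ⊆ O) {b : ℝ × ℝ → ℝ} (hb : Continuous b) (hbc : HasCompactSupport b)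
    {k : ℝ × ℝ → ℝ × ℝ → ℝ} (hk : Continuous fun p : (ℝ × ℝ) × (ℝ × ℝ) => k p.1 p.2)
    (hks : ∀ y ∈ tsupport b, ∀ w, w ∉ K → k y w = 0) : Integrable fun y => b y * S (k y) := by
  obtain ⟨χ, hχt, hχ1, hχI⟩ := wk_exists_cutoff hO hK hKO
  have habs : ∀ x, |χ x| ≤ 1 := fun x => by rw [abs_of_nonneg (hχI x).1]; exact (hχI x).2
  obtain ⟨Λ, hΛ⟩ := wk_lin_clm hS hχt habs
  obtain ⟨Φ, hΦc, hΦ⟩ := wk_exists_family hχt.cont hχt.comp habs hk
  have hint : Integrable fun y => b y • Φ y :=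
    (hb.smul hΦc).integrable_of_hasCompactSupport hbc.smul_right
  refine (Λ.integrable_comp hint).congr (Eventually.of_forall fun y => ?_)
  simp only [map_smul, smul_eq_mul]
  by_cases hy : y ∈ tsupport b
  · rw [hΛ]
    congr 2
    funext w
    rw [hΦ]
    by_cases hw : w ∈ K
    · rw [hχ1 w hw, one_mul, one_mul]
    · rw [hks y hy w hw, mul_zero, mul_zero]
  · rw [image_eq_zero_of_notMem_tsupport hy, zero_mul, zero_mul]

/-! ### mollification -/

/-- room around the support of a test -/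
theorem wk_exists_room {O : Set (ℝ × ℝ)} (hO : IsOpen O) {K₀ : Set (ℝ × ℝ)} (hK₀ : IsCompact K₀) (h : K₀ ⊆ O) :
    ∃ (δ : ℝ) (K : Set (ℝ × ℝ)), 0 < δ ∧ IsCompact K ∧ K ⊆ O ∧ K₀ ⊆ K ∧ ∀ y ∈ K₀, ∀ e, 0 < e → e ≤ δ → wkBall y e ⊆ K := by
  obtain ⟨δ, hδ, hth⟩ := hK₀.exists_cthickening_subset_open hO h
  refine ⟨δ, Metric.cthickening δ K₀, hδ, hK₀.cthickening, hth, Metric.self_subset_cthickening _,
    fun y hy e he hle x hx => ?_⟩
  have h1 := wk_ball_subset y he.le hx
  rw [Metric.mem_closedBall] at h1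
  exact Metric.mem_cthickening_of_dist_le x y δ _ hy (h1.trans hle)

/-- **mollification inside the functional** : `∫ g(y) S(ρ_{y,e}) dy → S g` -/
theorem wk_lin_moll {O : Set (ℝ × ℝ)} {S : (ℝ × ℝ → ℝ) → ℝ} (hS : WkLin O S) (hO : IsOpen O) {g : ℝ × ℝ → ℝ}
    (hg : WkTest O g) {ε : ℝ} (hε : 0 < ε) :
    ∃ e₀ : ℝ, 0 < e₀ ∧ ∀ e, 0 < e → e < e₀ → |(∫ y, g y * S (wkRho y e)) - S g| ≤ ε := by
  obtain ⟨δ, K, hδ, hK, hKO, hgK, hroom⟩ := wk_exists_room hO hg.comp.isCompact hg.sub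
  obtain ⟨C, hC0, hC⟩ := hS.lip hK hKO
  obtain ⟨η, hη, hmol⟩ := wk_mollify hg.cont hg.comp (div_pos hε (by positivity : 0 < C + 1))
  refine ⟨min δ η, lt_min hδ hη, fun e he hlt => ?_⟩
  have hks : ∀ y ∈ tsupport g, ∀ w, w ∉ K → wkRho y e w = 0 := fun y hy w hw =>
    wk_rho_zero y he fun hc => hw (hroom y hy e he (hlt.le.trans (min_le_left _ _)) hc)
  rw [← wk_mol hS hO hK hKO hg.cont hg.comp (wk_rho_continuous2 e) hks]
  obtain ⟨ht, hts⟩ := wk_mol_test hK hKO hg.cont hg.comp (wk_rho_continuous2 e) hks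
  have := hC _ g _ ht hg hts hgK (hmol e he (hlt.trans_le (min_le_right _ _)))
  refine this.trans ?_
  rw [← mul_div_assoc, div_le_iff₀ (by positivity)]
  nlinarith

/-! ### L2G : from small bumps to all smooth functions -/

/-- moving the Laplacian from `φ` onto the mollifier -/
theorem wk_moll_lap {φ : ℝ × ℝ → ℝ} (h1 : ContDiff ℝ ∞ φ) (h2 : HasCompactSupport φ) (e : ℝ) (w : ℝ × ℝ) :
    ∫ y, lap2 φ y * wkRho y e w = ∫ y, φ y * lap2 (wkRho y e) w := by
  have := wkg_green isOpen_univ (u := wkRho w e) (φ := φ) (contDiff_infty.1 (wk_rho_contDiff w e) 2).contDiffOn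
    (contDiff_infty.1 h1 2) h2 (subset_univ _)
  have e1 : (fun y => lap2 φ y * wkRho y e w) = fun y => wkRho w e y * lap2 φ y := by
    funext y; rw [wk_rho_symm y w e]; ring
  have e2 : (fun y => φ y * lap2 (wkRho y e) w) = fun y => φ y * lap2 (wkRho w e) y := by
    funext y; rw [wk_rho_lap_symm y w e]
  rw [e1, e2, this]

/-- **L2G** (local to global): if `S (Δ ρ_{y,e}) → m y` uniformly on the compacts of `O`, then `S (Δ φ) = ∫ φ m` for every smooth `φ` with compact support in `O` -/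
theorem wk_l2g {O : Set (ℝ × ℝ)} {S : (ℝ × ℝ → ℝ) → ℝ} (hS : WkLin O S) (hO : IsOpen O) {m : ℝ × ℝ → ℝ}
    (hm : ContinuousOn m O)
    (hloc : ∀ K, IsCompact K → K ⊆ O → ∀ ε : ℝ, 0 < ε → ∃ e₀ : ℝ, 0 < e₀ ∧ ∀ e, 0 < e → e < e₀ → ∀ y ∈ K,
      |S (lap2 (wkRho y e)) - m y| ≤ ε)
    {φ : ℝ × ℝ → ℝ} (h1 : ContDiff ℝ ∞ φ) (h2 : HasCompactSupport φ) (h3 : tsupport φ ⊆ O) :
    S (lap2 φ) = ∫ y, φ y * m y := by
  have hφ : WkTest O φ := ⟨h1.continuous, h2, h3⟩
  have hg : WkTest O (lap2 φ) := wk_test_lap h1 h2 h3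
  obtain ⟨δ, K, hδ, hK, hKO, hφK, hroom⟩ := wk_exists_room hO h2.isCompact h3
  obtain ⟨C, hC0, hC⟩ := hS.lip hK hKO
  have hI : Integrable fun y => |φ y| := (h1.continuous.abs).integrable_of_hasCompactSupport h2.abs
  have hI0 : 0 ≤ ∫ y, |φ y| := integral_nonneg fun y => abs_nonneg _
  refine eq_of_forall_dist_le fun ε hε => ?_
  obtain ⟨η, hη, hmol⟩ := wk_mollify hg.cont hg.comp (div_pos (half_pos hε) (by positivity : 0 < C + 1))
  obtain ⟨e₀, he₀, hl⟩ := hloc _ h2.isCompact h3 (ε / 2 / ((∫ y, |φ y|) + 1)) (by positivity)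
  obtain ⟨e, he, hle, hlt, hlt'⟩ : ∃ e, 0 < e ∧ e ≤ δ ∧ e < η ∧ e < e₀ :=
    ⟨min δ (min (η / 2) (e₀ / 2)), by positivity, min_le_left _ _,
      ((min_le_right _ _).trans (min_le_left _ _)).trans_lt (by linarith),
      ((min_le_right _ _).trans (min_le_right _ _)).trans_lt (by linarith)⟩
  have hks : ∀ y ∈ tsupport φ, ∀ w, w ∉ K → lap2 (wkRho y e) w = 0 := fun y hy w hw =>
    wk_rho_lap_zero y he fun hc => hw (hroom y hy e he hle hc)
  have hmolS := wk_mol hS hO hK hKO h1.continuous h2 (wk_rho_lap_continuous2 e) hks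
  obtain ⟨ht, hts⟩ := wk_mol_test hK hKO h1.continuous h2 (wk_rho_lap_continuous2 e) hks
  have hint := wk_mol_integrable hS hO hK hKO h1.continuous h2 (wk_rho_lap_continuous2 e) hks
  have hA : |S (fun w => ∫ y, φ y * lap2 (wkRho y e) w) - S (lap2 φ)| ≤ ε / 2 := by
    have := hC _ (lap2 φ) _ ht hg hts ((wkg_lap_tsupport φ).trans hφK) (fun x => by
      rw [← wk_moll_lap h1 h2 e x]; exact hmol e he hlt x)
    refine this.trans ?_
    rw [← mul_div_assoc, div_le_iff₀ (by positivity)]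
    nlinarith
  have hB : |(∫ y, φ y * S (lap2 (wkRho y e))) - ∫ y, φ y * m y| ≤ ε / 2 := by
    rw [← integral_sub hint (wk_mul_integrable hO hm hφ)]
    have hb : ∀ y, ‖φ y * S (lap2 (wkRho y e)) - φ y * m y‖ ≤ ε / 2 / ((∫ y, |φ y|) + 1) * |φ y| := by
      intro y
      rw [← mul_sub, norm_mul, Real.norm_eq_abs, Real.norm_eq_abs, mul_comm]
      by_cases hy : y ∈ tsupport φ
      · exact mul_le_mul_of_nonneg_right (hl e he hlt' y hy) (abs_nonneg _)
      · rw [image_eq_zero_of_notMem_tsupport hy]; simp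
    refine (norm_integral_le_of_norm_le (hI.const_mul _) (Eventually.of_forall hb)).trans ?_
    rw [integral_const_mul, div_mul_eq_mul_div, div_le_iff₀ (by positivity)]
    nlinarith
  rw [Real.dist_eq]
  rw [hmolS] at hA
  calc |S (lap2 φ) - ∫ y, φ y * m y|
      = |-((∫ y, φ y * S (lap2 (wkRho y e))) - S (lap2 φ)) + ((∫ y, φ y * S (lap2 (wkRho y e))) - ∫ y, φ y * m y)| := by
        congr 1; ring
    _ ≤ |-((∫ y, φ y * S (lap2 (wkRho y e))) - S (lap2 φ))| + |(∫ y, φ y * S (lap2 (wkRho y e))) - ∫ y, φ y * m y| :=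
        abs_add_le _ _
    _ ≤ ε / 2 + ε / 2 := by rw [abs_neg]; exact add_le_add hA hB
    _ = ε := by ring

/-! ### END : the Dirichlet problem identifies the functional -/

/-- a bounded nonempty set of the plane has a nonempty frontier -/
theorem wk_frontier_nonempty {D : Set (ℝ × ℝ)} (hb : Bornology.IsBounded D) {z : ℝ × ℝ} (hz : z ∈ D) :
    (frontier D).Nonempty := by
  rw [nonempty_frontier_iff]
  refine ⟨⟨z, hz⟩, fun hu => ?_⟩
  obtain ⟨R, hR⟩ := hb.subset_closedBall (0 : ℝ × ℝ)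
  have h1 : ((|R| + 1, 0) : ℝ × ℝ) ∈ Metric.closedBall (0 : ℝ × ℝ) R := hR (hu ▸ mem_univ _)
  rw [Metric.mem_closedBall, dist_zero_right, Prod.norm_def] at h1
  have h2 : ‖|R| + 1‖ ≤ R := (le_max_left _ _).trans h1
  rw [Real.norm_eq_abs, abs_of_pos (by positivity)] at h2
  linarith [le_abs_self R]

theorem wk_dep_pos {D : Set (ℝ × ℝ)} (hD : IsOpen D) (hb : Bornology.IsBounded D) {z : ℝ × ℝ} (hz : z ∈ D) :
    0 < Metric.infDist z (frontier D) := by
  rw [← isClosed_frontier.notMem_iff_infDist_pos (wk_frontier_nonempty hb hz), hD.frontier_eq]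
  exact fun h => h.2 hz

/-- the Euclidean disc of radius smaller than the (sup metric) depth stays inside -/
theorem wk_ball_subset_of_dep {D : Set (ℝ × ℝ)} (hD : IsOpen D) {z : ℝ × ℝ} (hz : z ∈ D) {h : ℝ} (h0 : 0 ≤ h)
    (hlt : h < Metric.infDist z (frontier D)) : wkBall z h ⊆ D := by
  intro x hx
  by_contra hc
  have hx' := wk_ball_subset z h0 hx
  have hpre : IsPreconnected (Metric.closedBall z h) := (convex_closedBall z h).isPreconnected
  have hno : ∀ p ∈ Metric.closedBall z h, p ∉ frontier D := by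
    intro p hp1 hp2
    have h1 := Metric.infDist_le_dist_of_mem (x := z) hp2
    rw [Metric.mem_closedBall, dist_comm] at hp1
    linarith
  have hcov : ∀ p ∈ Metric.closedBall z h, p ∉ D → p ∈ (closure D)ᶜ := by
    intro p hp hpD hcl
    exact hno p hp (by rw [hD.frontier_eq]; exact ⟨hcl, hpD⟩)
  obtain ⟨p, -, hp1, hp2⟩ := hpre D (closure D)ᶜ hD isClosed_closure.isOpen_compl
    (fun p hp => by
      by_cases hpD : p ∈ D
      · exact Or.inl hpD
      · exact Or.inr (hcov p hp hpD))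
    ⟨z, Metric.mem_closedBall_self h0, hz⟩ ⟨x, hx', hcov x hx' hc⟩
  exact hp2 (subset_closure hp1)

/-- averages against the bump -/
theorem wk_rho_avg_le (z : ℝ × ℝ) {h : ℝ} (hh : 0 < h) {u : ℝ × ℝ → ℝ} {ε : ℝ} (hu : ∀ w ∈ wkBall z h, |u w| ≤ ε) :
    |∫ w, wkRho z h w * u w| ≤ ε := by
  have hi : Integrable (wkRho z h) := (wk_rho_continuous z h).integrable_of_hasCompactSupport (wk_rho_compact z hh)
  have hb : ∀ w, ‖wkRho z h w * u w‖ ≤ ε * wkRho z h w := by
    intro w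
    rw [norm_mul, Real.norm_eq_abs, Real.norm_eq_abs, abs_of_nonneg (wk_rho_nonneg z h w), mul_comm]
    by_cases hw : w ∈ wkBall z h
    · exact mul_le_mul_of_nonneg_right (hu w hw) (wk_rho_nonneg z h w)
    · rw [wk_rho_zero z hh hw]; simp
  calc |∫ w, wkRho z h w * u w| ≤ ∫ w, ε * wkRho z h w :=
        norm_integral_le_of_norm_le (hi.const_mul ε) (Eventually.of_forall hb)
    _ = ε := by rw [integral_const_mul, wk_rho_integral z hh, mul_one]

/-- a function continuous on the compact closure, zero on the frontier, is small at small depth -/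
theorem wk_small_near_frontier {D : Set (ℝ × ℝ)} (hb : Bornology.IsBounded D) {u : ℝ × ℝ → ℝ}
    (huc : ContinuousOn u (closure D)) (hu0 : ∀ z ∈ frontier D, u z = 0) {ε : ℝ} (hε : 0 < ε) :
    ∃ a : ℝ, 0 < a ∧ ∀ w ∈ D, Metric.infDist w (frontier D) < a → |u w| ≤ ε := by
  have hc : IsCompact (closure D) := hb.isCompact_closure
  have hun := hc.uniformContinuousOn_of_continuous huc
  obtain ⟨a, ha, hmod⟩ := Metric.uniformContinuousOn_iff.1 hun ε hε
  refine ⟨a, ha, fun w hw hlt => ?_⟩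
  obtain ⟨p, hp, hd⟩ := (Metric.infDist_lt_iff (wk_frontier_nonempty hb hw)).1 hlt
  have := hmod w (subset_closure hw) p (frontier_subset_closure hp) hd
  rw [hu0 p hp, Real.dist_eq, sub_zero] at this
  exact this.le

/-- the points of depth at least `a` form a compact subset -/
theorem wk_deep_compact {D : Set (ℝ × ℝ)} (hb : Bornology.IsBounded D) {a : ℝ} (ha : 0 < a) :
    IsCompact (closure D ∩ {z | a ≤ Metric.infDist z (frontier D)}) ∧
      closure D ∩ {z | a ≤ Metric.infDist z (frontier D)} ⊆ D := by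
  refine ⟨hb.isCompact_closure.inter_right (isClosed_le continuous_const (Metric.continuous_infDist_pt _)), ?_⟩
  rintro z ⟨hz1, hz2⟩
  have hz3 : z ∉ frontier D := fun hf => by
    have h0 := Metric.infDist_zero_of_mem hf
    have hz2' : a ≤ Metric.infDist z (frontier D) := hz2
    linarith
  have : z ∈ closure D \ frontier D := ⟨hz1, hz3⟩
  rw [closure_sdiff_frontier] at this
  exact interior_subset this

/-- **END of WICK-ID.**  `S₀` linear of order `0` on the tests of the bounded open `D`, with `S₀ (Δ φ) = - c ∫ φ f`, vanishing at the boundary along the bumps of radius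
`θ · depth`; `u` the GIVEN solution of the Dirichlet problem `-Δ u = f`.  Then `S₀ g = c ∫ g u` for every test. -/
theorem wk_end {D : Set (ℝ × ℝ)} (hD : IsOpen D) (hb : Bornology.IsBounded D) {S₀ : (ℝ × ℝ → ℝ) → ℝ} (hS : WkLin D S₀)
    {u f : ℝ × ℝ → ℝ} {c : ℝ} (hu : ContDiffOn ℝ 2 u D) (huc : ContinuousOn u (closure D))
    (hu0 : ∀ z ∈ frontier D, u z = 0) (hlap : ∀ z ∈ D, -lap2 u z = f z)
    (hSD : ∀ φ : ℝ × ℝ → ℝ, ContDiff ℝ ∞ φ → HasCompactSupport φ → tsupport φ ⊆ D →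
      S₀ (lap2 φ) = -(c * ∫ z, φ z * f z))
    {θ : ℝ} (hθ : 0 < θ) (hθ1 : θ < 1)
    (hA3 : ∀ η : ℝ, 0 < η → ∃ a : ℝ, 0 < a ∧ ∀ z ∈ D, Metric.infDist z (frontier D) < a →
      |S₀ (wkRho z (θ * Metric.infDist z (frontier D)))| ≤ η)
    {g : ℝ × ℝ → ℝ} (hg : WkTest D g) : S₀ g = c * ∫ z, g z * u z := by
  have hL : WkLin D (fun g => S₀ g + (-c) * ∫ z, g z * u z) :=
    hS.add_fun ((wk_lin_integral hD hu.continuousOn).smul_fun (-c))
  have hH : WkHarm D (fun g => S₀ g + (-c) * ∫ z, g z * u z) := by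
    refine hL.toHarm fun φ h1 h2 h3 => ?_
    have h4 := wkg_green_poisson hD hu hlap (contDiff_infty.1 h1 2) h2 h3
    have e : (fun z => lap2 φ z * u z) = fun z => u z * lap2 φ z := by funext z; ring
    simp only [hSD φ h1 h2 h3, e, h4]
    ring
  have hv := wk_vanish hH hD (fun ε hε => by
    obtain ⟨a₁, ha₁, h1⟩ := hA3 (ε / 2) (by positivity)
    obtain ⟨a₂, ha₂, h2⟩ := wk_small_near_frontier hb huc hu0 (ε := ε / 2 / (|c| + 1)) (by positivity)
    have ha : 0 < min a₁ (a₂ / 2) := by positivity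
    obtain ⟨hK, hKD⟩ := wk_deep_compact hb ha
    refine ⟨_, hK, hKD, fun z hz hzK => ?_⟩
    have hlt : Metric.infDist z (frontier D) < min a₁ (a₂ / 2) := by
      by_contra hc
      exact hzK ⟨subset_closure hz, not_lt.1 hc⟩
    have hd := wk_dep_pos hD hb hz
    have hh : 0 < θ * Metric.infDist z (frontier D) := by positivity
    have hhlt : θ * Metric.infDist z (frontier D) < Metric.infDist z (frontier D) := by nlinarith
    have hball := wk_ball_subset_of_dep hD hz hh.le hhlt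
    rw [wk_dens_eq hH hh hball]
    have hA := h1 z hz (hlt.trans_le (min_le_left _ _))
    have hB : |∫ w, wkRho z (θ * Metric.infDist z (frontier D)) w * u w| ≤ ε / 2 / (|c| + 1) := by
      refine wk_rho_avg_le z hh fun w hw => h2 w (hball hw) ?_
      have h3 := wk_ball_subset z hh.le hw
      rw [Metric.mem_closedBall] at h3
      have h4 := Metric.infDist_le_infDist_add_dist (s := frontier D) (x := w) (y := z)
      have h5 := hlt.trans_le (min_le_right _ _)
      linarith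
    calc |S₀ (wkRho z (θ * Metric.infDist z (frontier D)))
          + -c * ∫ w, wkRho z (θ * Metric.infDist z (frontier D)) w * u w|
        ≤ |S₀ (wkRho z (θ * Metric.infDist z (frontier D)))|
          + |-c * ∫ w, wkRho z (θ * Metric.infDist z (frontier D)) w * u w| := abs_add_le _ _
      _ ≤ ε / 2 + |c| * (ε / 2 / (|c| + 1)) := by
          rw [abs_mul, abs_neg]
          exact add_le_add hA (mul_le_mul_of_nonneg_left hB (abs_nonneg c))
      _ ≤ ε / 2 + ε / 2 := by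
          refine add_le_add le_rfl ?_
          rw [← mul_div_assoc, div_le_iff₀ (by positivity)]
          nlinarith [abs_nonneg c]
      _ = ε := by ring) hg
  linarith

/-- the integral of the frozen statement -/
theorem wk_setIntegral_eq {D : Set (ℝ × ℝ)} {f : ℝ × ℝ → ℝ} (hf : tsupport f ⊆ D) (u : ℝ × ℝ → ℝ) :
    ∫ z in D, f z * u z = ∫ z, f z * u z :=
  setIntegral_eq_integral_of_forall_compl_eq_zero fun x hx => by
    rw [image_eq_zero_of_notMem_tsupport fun h => hx (hf h), zero_mul]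

end Claimed.Agent.R291
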