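import Claimed.Agent.R291.Wick.Multi
import Claimed.Agent.R291.Wick.Mol

/-!
# Row 291 (S0539), Wick/Tools : model-free lemmas consumed by Wick/Coll and Wick/Diag      (first three statements helper108; owner helper175; prefix `wk_`)      complete

* `wk_L_tendsto`, `wk_L_small`   `r (1 + log (1/r))^k → 0`
* `wk_tsupport_disjoint_ball`     a function vanishing ON a closed disc has its `tsupport` off every smaller disc
* `wk_leibniz_rest`               `|Δ(φ η_{w,ε}) - φ(w) Δη_{w,ε}| ≤ C/ε`, zero off `wkBall w (3ε)`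
* near / far splitting `f = f η_{w,ε} + f (1 - η_{w,ε})` : `wk_near_test`, `wk_far_test`, `wk_near_add_far`, `wk_near_zero`, `wk_near_abs_le`, `wk_far_abs_le`, `wk_far_zero_on`,
  `wk_far_zero_off`, `wk_far_disjoint`, `wk_rho_near`, `wk_far_centre`, `wk_rho_mul_eq_zero`, `wk_rho_avg_abs_le`, `wk_rho_avg_tendsto`, `wk_test_rho_lap`
* `wk_bdry_rho`   (A3) of the contract read on the bumps `ρ_{z, θ depth}`
* **`wk_main_of`**   the Wick recursion from `WkLin` of one slot + the local collision asymptotics `MC'` (glue of `wk_l2g`, `wk_end`, `wk_bdry_rho`)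
-/

set_option autoImplicit false

namespace Claimed.Agent.R291

open MeasureTheory Filter Topology Set
open scoped ContDiff BoundedContinuousFunction
open Claims Claims.C0467

/-- `r (1 + log (1/r))^k → 0` -/
theorem wk_L_tendsto (k : ℕ) : Tendsto (fun r : ℝ => r * wkL r ^ k) (𝓝[>] 0) (𝓝 0) := by
  have h1 := Real.tendsto_pow_log_div_mul_add_atTop 1 0 k one_ne_zero
  have h2 : Tendsto (fun r : ℝ => Real.exp 1 * r⁻¹) (𝓝[>] 0) atTop :=
    tendsto_inv_nhdsGT_zero.const_mul_atTop (Real.exp_pos 1)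
  have h3 := ((h1.comp h2).const_mul (Real.exp 1))
  rw [mul_zero] at h3
  refine h3.congr' ?_
  filter_upwards [self_mem_nhdsWithin] with r hr
  have hr0 : (0 : ℝ) < r := hr
  simp only [Function.comp_apply, one_mul, add_zero]
  have e : Real.log (Real.exp 1 * r⁻¹) = wkL r := by
    rw [Real.log_mul (Real.exp_pos 1).ne' (by positivity), Real.log_exp, wkL, one_div]
  rw [e]
  field_simp

/-- `ε`-form -/
theorem wk_L_small (k : ℕ) {ε : ℝ} (hε : 0 < ε) : ∃ r0 : ℝ, 0 < r0 ∧ ∀ r, 0 < r → r < r0 → r * wkL r ^ k ≤ ε := by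
  have h := (wk_L_tendsto k).eventually (ge_mem_nhds hε)
  rw [eventually_nhdsWithin_iff, Metric.eventually_nhds_iff] at h
  obtain ⟨d, hd, H⟩ := h
  refine ⟨d, hd, fun r hr hlt => H ?_ hr⟩
  rw [Real.dist_eq, sub_zero, abs_of_pos hr]
  exact hlt

/-- a function vanishing ON a closed disc has its `tsupport` off every smaller disc -/
theorem wk_tsupport_disjoint_ball {g : ℝ × ℝ → ℝ} {z : ℝ × ℝ} {r r' : ℝ} (h : ∀ y ∈ wkBall z r, g y = 0) (h0 : 0 ≤ r') (hr : r' < r) :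
    Disjoint (tsupport g) (wkBall z r') := by
  rw [Set.disjoint_left]
  intro y hy hy'
  have hlt : sqDist y z < r ^ 2 := lt_of_le_of_lt hy' (pow_lt_pow_left₀ hr h0 (by norm_num))
  have hopen : IsOpen {x : ℝ × ℝ | sqDist x z < r ^ 2} := isOpen_lt (wk_sq_continuous z) continuous_const
  have : g =ᶠ[𝓝 y] fun _ => 0 := by
    filter_upwards [hopen.mem_nhds hlt] with x hx
    exact h x (le_of_lt hx)
  exact (notMem_tsupport_iff_eventuallyEq.2 this) hy

/-- Leibniz remainder: everything except `φ(w) Δη` is `O(1/ε)`. -/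
theorem wk_leibniz_rest {φ : ℝ × ℝ → ℝ} (hφ : ContDiff ℝ ∞ φ) (hc : HasCompactSupport φ) : ∃ C : ℝ, 0 ≤ C ∧ ∀ (w : ℝ × ℝ) (ε : ℝ), 0 < ε → ε ≤ 1 →
    (∀ x, |lap2 (fun y => φ y * wkgEta w ε y) x - φ w * lap2 (wkgEta w ε) x| ≤ C / ε) ∧
    ∀ x, x ∉ wkBall w (3 * ε) → lap2 (fun y => φ y * wkgEta w ε y) x - φ w * lap2 (wkgEta w ε) x = 0 := by
  obtain ⟨Ce, hCe, he⟩ := wkg_eta_bounds
  have h1 : ContDiff ℝ (0 + 1) φ := by
    have : ((0 : WithTop ℕ∞) + 1) = 1 := by norm_num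
    rw [this]; exact contDiff_infty.1 hφ 1
  obtain ⟨Bx, hBx, bx⟩ := wkg_bdd (wkg_Dx_contDiff h1).continuous (wkg_Dx_compact hc)
  obtain ⟨By, hBy, by'⟩ := wkg_bdd (wkg_Dy_contDiff h1).continuous (wkg_Dy_compact hc)
  obtain ⟨Bl, hBl, bl⟩ := wkg_bdd (wkg_lap_continuous (contDiff_infty.1 hφ 2)) (wkg_lap_compact hc)
  obtain ⟨L, hL⟩ := ContDiff.lipschitzWith_of_hasCompactSupport hc hφ (by simp)
  have hz : ∀ (w : ℝ × ℝ) (ε : ℝ), 0 < ε → ∀ x, x ∉ wkBall w (3 * ε) → lap2 (wkgEta w ε) x = 0 := by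
    intro w ε hε x hx
    exact image_eq_zero_of_notMem_tsupport fun hc' => hx (wkg_eta_tsupport w hε (wkg_lap_tsupport _ hc'))
  refine ⟨Bl + 2 * (Bx * Ce + By * Ce) + L * 3 * Ce, by positivity, fun w ε hε hε1 => ⟨fun x => ?_, fun x hx => ?_⟩⟩
  · have hmul := wkg_lap_mul (z := x) (contDiff_infty.1 hφ 2).contDiffAt (contDiff_infty.1 (wkg_eta_contDiff w ε) 2).contDiffAt
    rw [hmul]
    obtain ⟨e1, e2, e3⟩ := he w ε hε x
    have t1 : |lap2 φ x * wkgEta w ε x| ≤ Bl / ε := by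
      rw [abs_mul, abs_of_nonneg (wkg_eta_nonneg w ε x)]
      calc |lap2 φ x| * wkgEta w ε x ≤ Bl * 1 := mul_le_mul (bl x) (wkg_eta_le_one w ε x) (wkg_eta_nonneg w ε x) hBl
        _ ≤ Bl / ε := by rw [mul_one, le_div_iff₀ hε]; nlinarith
    have t2 : |wkgDx φ x * wkgDx (wkgEta w ε) x| ≤ Bx * Ce / ε := by
      rw [abs_mul, mul_div_assoc]
      exact mul_le_mul (bx x) e1 (abs_nonneg _) hBx
    have t3 : |wkgDy φ x * wkgDy (wkgEta w ε) x| ≤ By * Ce / ε := by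
      rw [abs_mul, mul_div_assoc]
      exact mul_le_mul (by' x) e2 (abs_nonneg _) hBy
    have t4 : |(φ x - φ w) * lap2 (wkgEta w ε) x| ≤ L * 3 * Ce / ε := by
      by_cases hx : x ∈ wkBall w (3 * ε)
      · have d1 := wk_ball_subset w (by positivity) hx
        rw [Metric.mem_closedBall] at d1
        have d2 := hL.dist_le_mul x w
        rw [Real.dist_eq] at d2
        have d3 : |φ x - φ w| ≤ L * (3 * ε) := d2.trans (mul_le_mul_of_nonneg_left d1 L.coe_nonneg)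
        rw [abs_mul]
        calc |φ x - φ w| * |lap2 (wkgEta w ε) x| ≤ (L * (3 * ε)) * (Ce / ε ^ 2) :=
              mul_le_mul d3 e3 (abs_nonneg _) (by positivity)
          _ = L * 3 * Ce / ε := by field_simp
      · rw [hz w ε hε x hx, mul_zero, abs_zero]; positivity
    have e : lap2 φ x * wkgEta w ε x + 2 * (wkgDx φ x * wkgDx (wkgEta w ε) x + wkgDy φ x * wkgDy (wkgEta w ε) x)
          + φ x * lap2 (wkgEta w ε) x - φ w * lap2 (wkgEta w ε) x
        = lap2 φ x * wkgEta w ε x + 2 * (wkgDx φ x * wkgDx (wkgEta w ε) x + wkgDy φ x * wkgDy (wkgEta w ε) x)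
          + (φ x - φ w) * lap2 (wkgEta w ε) x := by ring
    rw [e]
    have a1 := abs_add_le (lap2 φ x * wkgEta w ε x + 2 * (wkgDx φ x * wkgDx (wkgEta w ε) x + wkgDy φ x * wkgDy (wkgEta w ε) x))
      ((φ x - φ w) * lap2 (wkgEta w ε) x)
    have a2 := abs_add_le (lap2 φ x * wkgEta w ε x) (2 * (wkgDx φ x * wkgDx (wkgEta w ε) x + wkgDy φ x * wkgDy (wkgEta w ε) x))
    have a3 : |2 * (wkgDx φ x * wkgDx (wkgEta w ε) x + wkgDy φ x * wkgDy (wkgEta w ε) x)|
        ≤ 2 * (Bx * Ce / ε + By * Ce / ε) := by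
      rw [abs_mul, abs_of_pos (by norm_num : (0 : ℝ) < 2)]
      exact mul_le_mul_of_nonneg_left ((abs_add_le _ _).trans (add_le_add t2 t3)) (by norm_num)
    have e2 : (Bl + 2 * (Bx * Ce + By * Ce) + L * 3 * Ce) / ε
        = Bl / ε + 2 * (Bx * Ce / ε + By * Ce / ε) + L * 3 * Ce / ε := by ring
    rw [e2]
    linarith
  · have h2 : lap2 (fun y => φ y * wkgEta w ε y) x = 0 :=
      image_eq_zero_of_notMem_tsupport fun hc' =>
        hx (wkg_eta_tsupport w hε (tsupport_mul_subset_right (wkg_lap_tsupport _ hc')))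
    rw [h2, hz w ε hε x hx]; ring

/-! ### near / far splitting of a test around a small disc -/

theorem wk_near_test {D : Set (ℝ × ℝ)} {f : ℝ × ℝ → ℝ} (hf : WkTest D f) (w : ℝ × ℝ) (ε : ℝ) :
    WkTest D (fun y => f y * wkgEta w ε y) := hf.mul_right' (wkg_eta_contDiff w ε).continuous

theorem wk_far_test {D : Set (ℝ × ℝ)} {f : ℝ × ℝ → ℝ} (hf : WkTest D f) (w : ℝ × ℝ) (ε : ℝ) :
    WkTest D (fun y => f y * (1 - wkgEta w ε y)) :=
  hf.mul_right' (continuous_const.sub (wkg_eta_contDiff w ε).continuous)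

theorem wk_near_add_far (f : ℝ × ℝ → ℝ) (w : ℝ × ℝ) (ε : ℝ) :
    (fun y => (fun y => f y * wkgEta w ε y) y + (fun y => f y * (1 - wkgEta w ε y)) y) = f := by
  funext y; ring

theorem wk_near_zero (f : ℝ × ℝ → ℝ) (w : ℝ × ℝ) {ε : ℝ} (hε : 0 < ε) {y : ℝ × ℝ} (hy : y ∉ wkBall w (3 * ε)) :
    f y * wkgEta w ε y = 0 := by
  rw [wkg_eta_zero hε (le_of_lt (not_le.1 hy)), mul_zero]

theorem wk_near_abs_le {f : ℝ × ℝ → ℝ} {M : ℝ} (hM : ∀ y, |f y| ≤ M) (w : ℝ × ℝ) (ε : ℝ) (y : ℝ × ℝ) :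
    |f y * wkgEta w ε y| ≤ M := by
  rw [abs_mul, abs_of_nonneg (wkg_eta_nonneg w ε y)]
  calc |f y| * wkgEta w ε y ≤ |f y| * 1 := mul_le_mul_of_nonneg_left (wkg_eta_le_one w ε y) (abs_nonneg _)
    _ ≤ M := by rw [mul_one]; exact hM y

theorem wk_far_abs_le {f : ℝ × ℝ → ℝ} {M : ℝ} (hM : ∀ y, |f y| ≤ M) (w : ℝ × ℝ) (ε : ℝ) (y : ℝ × ℝ) :
    |f y * (1 - wkgEta w ε y)| ≤ M := by
  have h1 : 0 ≤ 1 - wkgEta w ε y := by linarith [wkg_eta_le_one w ε y]
  rw [abs_mul, abs_of_nonneg h1]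
  calc |f y| * (1 - wkgEta w ε y) ≤ |f y| * 1 :=
        mul_le_mul_of_nonneg_left (by linarith [wkg_eta_nonneg w ε y]) (abs_nonneg _)
    _ ≤ M := by rw [mul_one]; exact hM y

theorem wk_far_zero_on (f : ℝ × ℝ → ℝ) (w : ℝ × ℝ) {ε : ℝ} (hε : 0 < ε) {y : ℝ × ℝ} (hy : y ∈ wkBall w (2 * ε)) :
    f y * (1 - wkgEta w ε y) = 0 := by
  rw [wkg_eta_one hε hy, sub_self, mul_zero]

theorem wk_far_zero_off {f : ℝ × ℝ → ℝ} (w : ℝ × ℝ) (ε : ℝ) {y : ℝ × ℝ} (hy : y ∉ tsupport f) :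
    f y * (1 - wkgEta w ε y) = 0 := by
  rw [image_eq_zero_of_notMem_tsupport hy, zero_mul]

/-- the far part does not meet the bump -/
theorem wk_far_disjoint (f : ℝ × ℝ → ℝ) (w : ℝ × ℝ) {ε : ℝ} (hε : 0 < ε) :
    Disjoint (tsupport fun y => f y * (1 - wkgEta w ε y)) (tsupport (wkRho w ε)) :=
  (wk_tsupport_disjoint_ball (r := 2 * ε) (fun _ hy => wk_far_zero_on f w hε hy) hε.le (by linarith)).mono_right
    (wk_rho_tsupport w hε)

/-- the bump only sees the near part -/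
theorem wk_rho_near (f : ℝ × ℝ → ℝ) (w : ℝ × ℝ) {ε : ℝ} (hε : 0 < ε) :
    ∫ x, wkRho w ε x * (f x * wkgEta w ε x) = ∫ x, wkRho w ε x * f x := by
  congr 1
  funext x
  by_cases hx : x ∈ wkBall w ε
  · rw [wkg_eta_one hε (wk_ball_mono w hε.le (by linarith) hx), mul_one]
  · rw [wk_rho_zero w hε hx, zero_mul, zero_mul]

/-- centres far from the support: the bump does not meet the support -/
theorem wk_far_centre {f : ℝ × ℝ → ℝ} {d ε : ℝ} {w : ℝ × ℝ} (hε : 0 < ε) (hle : ε ≤ d)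
    (hw : w ∉ Metric.cthickening d (tsupport f)) : Disjoint (tsupport f) (wkBall w ε) := by
  rw [Set.disjoint_left]
  intro y hy hy'
  have h1 := wk_ball_subset w hε.le hy'
  rw [Metric.mem_closedBall, dist_comm] at h1
  exact hw (Metric.mem_cthickening_of_dist_le w y d _ hy (h1.trans hle))

theorem wk_rho_mul_eq_zero {f : ℝ × ℝ → ℝ} {ε : ℝ} {w : ℝ × ℝ} (hε : 0 < ε) (h : Disjoint (tsupport f) (wkBall w ε)) :
    ∫ x, wkRho w ε x * f x = 0 := by
  have : (fun x => wkRho w ε x * f x) = fun _ => 0 := by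
    funext x
    by_cases hx : x ∈ wkBall w ε
    · rw [image_eq_zero_of_notMem_tsupport fun hc => Set.disjoint_left.1 h hc hx, mul_zero]
    · rw [wk_rho_zero w hε hx, zero_mul]
  rw [this, integral_zero]

/-- the average of a bounded function against the bump -/
theorem wk_rho_avg_abs_le {f : ℝ × ℝ → ℝ} {M : ℝ} (hM : ∀ y, |f y| ≤ M) (w : ℝ × ℝ) {ε : ℝ} (hε : 0 < ε) :
    |∫ x, wkRho w ε x * f x| ≤ M := wk_rho_avg_le w hε fun y _ => hM y

/-- the average against the bump converges uniformly to the value at the centre -/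
theorem wk_rho_avg_tendsto {f : ℝ × ℝ → ℝ} (hc : Continuous f) (hs : HasCompactSupport f) {e : ℝ} (he : 0 < e) :
    ∃ η : ℝ, 0 < η ∧ ∀ ε, 0 < ε → ε < η → ∀ w, |(∫ x, wkRho w ε x * f x) - f w| ≤ e := by
  obtain ⟨η, hη, h⟩ := wk_mollify hc hs he
  refine ⟨η, hη, fun ε hε hlt w => ?_⟩
  have := h ε hε hlt w
  have e1 : (fun x => wkRho w ε x * f x) = fun x => f x * wkRho x ε w := by
    funext x; rw [wk_rho_symm w x ε]; ring
  rw [e1]; exact this

/-- the Laplacian of the bump is a test, with its size data -/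
theorem wk_test_rho_lap {D : Set (ℝ × ℝ)} {w : ℝ × ℝ} {ε : ℝ} (hε : 0 < ε) (hb : wkBall w ε ⊆ D) :
    WkTest D (lap2 (wkRho w ε)) :=
  wk_test_lap (wk_rho_contDiff w ε) (wk_rho_compact w hε) ((wk_rho_tsupport w hε).trans hb)

/-- (A3) of the contract, read on the radial bumps of radius `θ · depth` -/
theorem wk_bdry_rho {D : Set (ℝ × ℝ)} {v : ℝ} {T : Multiset (ℝ × ℝ → ℝ) → ℝ} (hT : WkData D v T) (hD : IsOpen D)
    (hb : Bornology.IsBounded D) :
    ∃ θ : ℝ, 0 < θ ∧ θ < 1 ∧ ∀ s : Multiset (ℝ × ℝ → ℝ), (∀ k ∈ s, WkTest D k) → ∀ η : ℝ, 0 < η →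
      ∃ a : ℝ, 0 < a ∧ ∀ z ∈ D, Metric.infDist z (frontier D) < a →
        |T (wkRho z (θ * Metric.infDist z (frontier D)) ::ₘ s)| ≤ η := by
  obtain ⟨θ, hθ, hθ4, H⟩ := hT.bdry
  obtain ⟨A, hA0, hA⟩ := wk_rho_sizes
  refine ⟨θ, hθ, by linarith, fun s hs η hη => ?_⟩
  obtain ⟨a, ha, Ha⟩ := H s hs ((A + 1) / θ ^ 2) (by positivity) η hη
  refine ⟨a, ha, fun z hz hlt => ?_⟩
  have hd : 0 < Metric.infDist z (frontier D) := wk_dep_pos hD hb hz
  have hh : 0 < θ * Metric.infDist z (frontier D) := by positivity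
  refine Ha z hz hlt _ (wk_rho_continuous _ _) (wk_rho_nonneg _ _) (fun y => ?_) (fun y hy => wk_rho_zero _ hh hy)
  have h1 := (hA z y _ hh).1
  have h2 : A / (θ * Metric.infDist z (frontier D)) ^ 2 ≤ (A + 1) / θ ^ 2 / limDep D z ^ 2 := by
    rw [div_div, mul_pow]
    exact div_le_div_of_nonneg_right (by linarith) (by positivity)
  exact ((le_abs_self _).trans h1).trans h2

/-- **the Wick recursion from the local collision asymptotics** (`MC'`): glue of `wk_l2g`, `wk_end`, `bdry` -/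
theorem wk_main_of {D : Set (ℝ × ℝ)} {v : ℝ} {T : Multiset (ℝ × ℝ → ℝ) → ℝ} (hT : WkData D v T) (hD : IsOpen D)
    (hb : Bornology.IsBounded D) {f u : ℝ × ℝ → ℝ} (hf : WkTest D f)
    (hu : ContDiffOn ℝ 2 u D) (huc : ContinuousOn u (closure D))
    (hu0 : ∀ z ∈ frontier D, u z = 0) (hlap : ∀ z ∈ D, -lap2 u z = f z) (m : ℕ)
    (hlin : WkLin D (fun g => T (g ::ₘ Multiset.replicate (m + 1) f)))
    (hMC : ∀ K, IsCompact K → K ⊆ D → ∀ ε : ℝ, 0 < ε → ∃ e₀ : ℝ, 0 < e₀ ∧ ∀ e, 0 < e → e < e₀ → ∀ y ∈ K,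
      |T (lap2 (wkRho y e) ::ₘ Multiset.replicate (m + 1) f) + v * (m + 1) * T (Multiset.replicate m f) * f y| ≤ ε) :
    T (Multiset.replicate (m + 2) f) = (m + 1) * v * (∫ z in D, f z * u z) * T (Multiset.replicate m f) := by
  obtain ⟨θ, hθ, hθ1, H3⟩ := wk_bdry_rho hT hD hb
  have hs : ∀ k ∈ Multiset.replicate (m + 1) f, WkTest D k := fun k hk => by
    rw [Multiset.eq_of_mem_replicate hk]; exact hf
  have hSD : ∀ φ : ℝ × ℝ → ℝ, ContDiff ℝ ∞ φ → HasCompactSupport φ → tsupport φ ⊆ D →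
      T (lap2 φ ::ₘ Multiset.replicate (m + 1) f) = -(v * (m + 1) * T (Multiset.replicate m f) * ∫ z, φ z * f z) := by
    intro φ h1 h2 h3
    have := wk_l2g hlin hD (m := fun y => -(v * (m + 1) * T (Multiset.replicate m f)) * f y)
      (continuous_const.mul hf.cont).continuousOn (fun K hK hKD ε hε => by
        obtain ⟨e₀, he₀, h⟩ := hMC K hK hKD ε hε
        refine ⟨e₀, he₀, fun e he hlt y hy => ?_⟩
        have := h e he hlt y hy
        rw [show T (lap2 (wkRho y e) ::ₘ Multiset.replicate (m + 1) f)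
            - -(v * (m + 1) * T (Multiset.replicate m f)) * f y
          = T (lap2 (wkRho y e) ::ₘ Multiset.replicate (m + 1) f)
            + v * (m + 1) * T (Multiset.replicate m f) * f y by ring]
        exact this) h1 h2 h3
    rw [this, ← integral_const_mul, ← integral_neg]
    congr 1
    funext y
    ring
  have := wk_end hD hb hlin hu huc hu0 hlap hSD hθ hθ1 (H3 _ hs) hf
  rw [wk_setIntegral_eq hf.sub u, Multiset.replicate_succ, this]
  ring

end Claimed.Agent.R291
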